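import Vale.Agent.P283R.Eb.On
import Vale.Agent.P283R.Bc.Bas

/-!
# P283R, block UQ: the Fano type goes up along finite covers which are étale in codimension one
-/

open Set CategoryTheory AlgebraicGeometry

noncomputable section

namespace Vale.Agent.P283R.Uq

open Vale.Agent.P289 (Pt St toRat val DForm dimension)
open Vale.Agent.P287D Vale.Agent.P283M Vale.Agent.P283M.Stm Vale.Agent.P283M.Stm.Var
open Vale.Agent.P283M.Br (UnAt)
open Vale.Agent.P283M.Am Vale.Agent.P283R.Eb Vale.Agent.P283R.Eb.Amp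
open Vale.Agent.P283R.Bc (Qp)

variable {X Y Z W : Var} {f : X.X ⟶ Z.X} {e : W.X ⟶ Z.X} {g : Y.X ⟶ W.X} {π : Y.X ⟶ X.X}
  {ι : X.K →+* Y.K} {J : ℕ}

theorem amp48 (h : Qp J π ι) [IsFinite e] (ec : g ≫ e = π ≫ f) {D : X.PrimeDiv → ℚ}
    {D' : Y.PrimeDiv → ℚ} {j : Y.K} (hl : Lin π D' D j) (hf : {y | D y ≠ 0}.Finite)
    (hA : AmpleOver f D) : AmpleOver g D' := by
  obtain ⟨j0, hj⟩ := hl
  obtain ⟨m, m0, h1, h2⟩ := hA
  have dv := h.div
  have := h.fin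
  have i0 : ∀ {a}, a ≠ 0 → ι a ≠ 0 := fun k => (map_ne_zero ι).2 k
  have sp : ∀ {E : Y.PrimeDiv} {y : X.PrimeDiv} {x : Pt Y.X}, E.1.map π = y.1 → E.1 ⤳ x →
      y.1 ⤳ x.map π := fun a b => a ▸ b.map π.continuous
  refine ⟨m, m0, fun x => ?_, fun U' hU' x hx => ?_⟩
  · obtain ⟨a, k⟩ := h1 (x.map π)
    refine ⟨ι a * j ^ m, mul_ne_zero (i0 k.1) (pow_ne_zero _ j0), fun E hE => ?_⟩
    obtain ⟨y, e1, e2⟩ := dv E
    rw [o_mul (i0 k.1) (pow_ne_zero _ j0), o_pow j0, e2, k.2 y (sp e1 hE), hj E y e1]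
    ring
  obtain ⟨_, ⟨U, hU, rfl⟩, xU, -⟩ :=
    Z.X.isBasis_affineOpens.exists_subset_of_mem_open (Set.mem_univ (e (g x))) isOpen_univ
  obtain ⟨b, b', eb, b2⟩ := exists_basicOpen_le_affine_inter hU' (hU.preimage e) (g x) ⟨hx, xU⟩
  have b1 : W.X.basicOpen b ≤ e ⁻¹ᵁ U := eb ▸ W.X.basicOpen_le b'
  have ins : ∀ y : Pt Y.X, y ∈ g ⁻¹ᵁ W.X.basicOpen b → y.map π ∈ f ⁻¹ᵁ U := fun y hy => by
    have w : (π ≫ f) y = (g ≫ e) y := by rw [ec]
    rw [Scheme.Hom.comp_apply, Scheme.Hom.comp_apply] at w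
    have k : e (g y) ∈ U := b1 hy
    rw [← w] at k
    exact k
  obtain ⟨k, s, V, k0, s1, hV, xV, s2⟩ := h2 U hU (Pt.map π x) (ins x b2)
  have s0 : s ≠ 0 := fun c => ((s2 _).1 xV).2.1 (by rw [c, inv_zero])
  have : Nonempty (g ⁻¹ᵁ U') := ⟨⟨x, hx⟩⟩
  obtain ⟨β, r, u⟩ : ∃ β : Y.K, (∀ y ∈ g ⁻¹ᵁ U', RegAt β y) ∧
      ∀ y ∈ g ⁻¹ᵁ U', UnAt β y ↔ y ∈ g ⁻¹ᵁ W.X.basicOpen b :=
    ⟨_, mem_reg.1 (secK_reg _ (g.app U' b)), fun y hy => by
      rw [Scheme.preimage_basicOpen]; exact un_secK _ hy⟩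
  have β0 : β ≠ 0 := ((u x hx).2 b2).1
  obtain ⟨N, hN⟩ := bound (c := fun y => (ord s y : ℚ) + k * m * D y)
    (((Br.fin X s).union hf).subset fun y a => by
      by_contra c
      simp only [mem_union, mem_ofPred_eq, not_or, not_not] at c
      exact a (by rw [c.1, c.2]; simp))
  have t0 : (j ^ (k * m))⁻¹ ≠ 0 := inv_ne_zero (pow_ne_zero _ j0)
  have t1 := mul_ne_zero (i0 s0) t0
  have t2 := mul_ne_zero t1 (pow_ne_zero N β0)
  have key : ∀ (E : Y.PrimeDiv) (y : X.PrimeDiv), E.1.map π = y.1 →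
      (∀ a, ord (ι a) E = ord a y) → (ord (ι s * (j ^ (k * m))⁻¹ * β ^ N) E : ℚ) + k * m * D' E =
        ord s y + k * m * D y + N * ord β E := fun E y e1 e2 => by
    rw [o_mul t1 (pow_ne_zero N β0), o_mul (i0 s0) t0, o_inv (pow_ne_zero _ j0), o_pow j0,
      o_pow β0, e2, hj E y e1]
    push_cast
    ring
  have dic : ∀ (E : Y.PrimeDiv) (y : X.PrimeDiv), E.1 ∈ g ⁻¹ᵁ U' → ¬ UnAt β E.1 →
      0 < (ord s y : ℚ) + k * m * D y + N * ord β E := fun E y a c => by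
    have := mul_le_mul_of_nonneg_left (o_pos (r _ a) β0 c) (Nat.cast_nonneg N : (0 : ℚ) ≤ N)
    linarith [hN y]
  refine ⟨k, ι s * (j ^ (k * m))⁻¹ * β ^ N, π ⁻¹ᵁ V ⊓ g ⁻¹ᵁ W.X.basicOpen b, k0, fun E hE => ?_,
    ?_, ⟨xV, b2⟩, fun x' => ⟨fun ⟨a, c⟩ => ?_, fun ⟨a, c⟩ => ?_⟩⟩
  · obtain ⟨y, e1, e2⟩ := dv E
    rw [key E y e1 e2]
    by_cases c : UnAt β E.1
    · rw [o_un c specializes_rfl, mul_zero, add_zero]
      exact s1 y (e1 ▸ ins _ ((u _ hE).1 c))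
    · exact (dic E y hE c).le
  · have le : π ⁻¹ᵁ V ≤ g ⁻¹ᵁ (e ⁻¹ᵁ U) := fun y c => by
      have w : (π ≫ f) y = (g ≫ e) y := by rw [ec]
      rw [Scheme.Hom.comp_apply, Scheme.Hom.comp_apply] at w
      have k : f (π y) ∈ U := ((s2 _).1 c).1
      rw [w] at k
      exact k
    rw [eb, Scheme.preimage_basicOpen, ← Scheme.basicOpen_res _ _ (homOfLE le).op]
    exact (hV.preimage π).basicOpen _
  · have q : x' ∈ g ⁻¹ᵁ U' := W.X.basicOpen_le b c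
    refine ⟨q, inv_ne_zero t2, fun E hE => ?_⟩
    obtain ⟨y, e1, e2⟩ := dv E
    have k1 := key E y e1 e2
    have k2 := ((s2 (Pt.map π x')).1 a).2.2 y (sp e1 hE)
    rw [o_un ((u _ q).2 c) hE] at k1
    rw [o_inv s0] at k2
    rw [o_inv t2]
    push_cast at k2 ⊢
    linarith
  · have z : ∀ (E : Y.PrimeDiv) (y : X.PrimeDiv), E.1.map π = y.1 →
        (∀ a, ord (ι a) E = ord a y) → E.1 ⤳ x' →
        (ord s y : ℚ) + k * m * D y + N * ord β E = 0 := fun E y e1 e2 hE => by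
      have k1 := c.2 E hE
      rw [o_inv t2] at k1
      push_cast at k1
      linarith [key E y e1 e2]
    have v : UnAt β x' := un_o β0 fun E hE => by
      obtain ⟨y, e1, e2⟩ := dv E
      exact o_un (by_contra fun q =>
        (dic E y (hE.mem_open (g ⁻¹ᵁ U').isOpen a) q).ne' (z E y e1 e2 hE)) specializes_rfl
    have v1 := (u _ a).1 v
    have v2 := ins _ v1
    obtain ⟨l, hl⟩ := h1 (Pt.map π x')
    have l0 := mul_ne_zero s0 (pow_ne_zero k hl.1)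
    have ol : ∀ y : X.PrimeDiv, y.1 ⤳ Pt.map π x' →
        (ord (s * l ^ k) y : ℚ) = ord s y + k * m * D y := fun y hy => by
      rw [o_mul s0 (pow_ne_zero k hl.1), o_pow hl.1, hl.2 y hy, mul_assoc]
    have rg : RegAt (s * l ^ k) (Pt.map π x') := reg_o fun y hy =>
      ol y hy ▸ s1 y (hy.mem_open (f ⁻¹ᵁ U).isOpen v2)
    have un := (h.pe.un rg).1 (un_o (i0 l0) fun E hE => by
      obtain ⟨y, e1, e2⟩ := dv E
      have k1 := z E y e1 e2 hE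
      rw [o_un v hE, mul_zero, add_zero] at k1
      rw [e2, ol y (sp e1 hE), k1])
    refine ⟨(s2 (Pt.map π x')).2 ⟨v2, inv_ne_zero s0, fun y hy => ?_⟩, v1⟩
    have k1 := o_un un hy
    rw [ol y hy] at k1
    rw [o_inv s0]
    push_cast
    linarith

theorem same48 (h : Qp J π ι) (C : X.QDiv) : ∃ C' : Y.QDiv, Same π C' C := by
  choose y hy ho using h.div
  have hu : ∀ z : X.PrimeDiv, ∃ a : X.K, ord a z = 1 := fun z =>
    let ⟨P, _, o⟩ := Br.pl_of Br.plc z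
    ⟨P.t, (o _).trans P.ord_t⟩
  choose a ha using hu
  have fi : (Function.support fun E => C (y E)).Finite := by
    refine (C.support.finite_toSet.biUnion fun z _ => Br.fin Y (ι (a z))).subset fun E hE => ?_
    refine mem_biUnion (x := y E) (Finsupp.mem_support_iff.2 hE) ?_
    change ord (ι (a (y E))) E ≠ 0
    rw [ho, ha]
    exact one_ne_zero
  refine ⟨Finsupp.ofSupportFinite _ fi, fun E z e => ?_⟩
  obtain rfl : y E = z := Subtype.ext ((hy E).symm.trans e)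
  rfl

theorem fan48 (h : Qp J π ι) [IsFinite e] (ec : g ≫ e = π ≫ f) {d : ℕ} {ω : DForm ℂ X.K d}
    {ω' : DForm ℂ Y.K d} (hd : 1 ≤ d) (hX : dimension X.str = d) (hω : ω.Nonzero)
    (hω' : ω'.Nonzero) (hF : FanoType f ω) : FanoType g ω' := by
  obtain ⟨C, hC, hA⟩ := hF
  obtain ⟨C', s⟩ := same48 h C
  obtain ⟨j, hj⟩ := h.can hX hω hω'
  exact ⟨C', h.pai hX hω hω' s (fun a e he ha => mul_pos (zero_lt_one.trans_le he) ha) hC,
    amp48 h ec (hj C C' s).neg ((logCan_fin hd hX hω C).subset fun y hy => neg_ne_zero.1 hy) hA⟩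

theorem qp48 {G : Subgroup (Y.K ≃ₐ[ℂ] Y.K)} (a : IsFinite π) (b : Surjective π)
    (c : π ≫ X.str = Y.str) (pe : Et.Pe π ι) (fG : Finite G)
    (fx : ∀ g, (∀ σ ∈ G, σ g = g) ↔ ∃ a, ι a = g)
    (dv : ∀ E : Y.PrimeDiv, ∃ y : X.PrimeDiv, E.1.map π = y.1 ∧ ∀ a, ord (ι a) E = ord a y) :
    ∃ J, Qp J π ι := by
  obtain ⟨J, w, hw⟩ := Module.Finite.exists_fin (R := FixedPoints.subfield G Y.K) (M := Y.K)
  refine ⟨J, a, b, c, pe, ⟨w, fun g => ?_⟩, dv⟩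
  obtain ⟨k, rfl⟩ := (Submodule.mem_span_range_iff_exists_fun _).1 (hw ▸ Submodule.mem_top (x := g))
  choose v hv using fun i => (fx (k i)).1 fun σ m => (k i).2 ⟨σ, m⟩
  exact ⟨v, Finset.sum_congr rfl fun i _ => by rw [hv]; rfl⟩

end Vale.Agent.P283R.Uq
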