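import Vale.Agent.P283R.Uq.St2

/-!
# P283R, block UQ: few generators of the ideal of the orbit after the extension
-/

set_option linter.all false

open Set

noncomputable section

namespace Vale.Agent.P283R.Uq

open Vale.Agent.P287D Vale.Agent.P283M Vale.Agent.P283R.Cx
open Vale.Agent.P283R.Lx (Nz Ie Orb)
open Vale.Agent.P283R.Lx.K33 (I2 IeS)
open Vale.Agent.P283R.Lx.O15
open Vale.Agent.P283R.Tq (cv)

namespace E33

/-- the units as a function of the degree -/
theorem wt {L : Type} [Field L] [Algebra ℂ L] {k r : ℕ} {v : Fin r → Fin k → ℤ}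
    (hv : LinearIndependent ℤ v) (x : Fin r → L) (x0 : ∀ i, x i ≠ 0) :
    ∃ W : (Fin k → ℤ) → L, (∀ e ∈ Submodule.span ℤ (range v), Um v x e (W e)) ∧
      (∀ e ∉ Submodule.span ℤ (range v), W e = 0) ∧ W 0 = 1 ∧ (∀ j, W (v j) = x j) ∧
      ∀ e ∈ Submodule.span ℤ (range v), ∀ e', W (e + e') = W e * W e' := by
  classical
  have ex : ∀ e, ∃ n : Fin r → ℤ, e ∈ Submodule.span ℤ (range v) → cv v n = e := fun e => by
    by_cases h : e ∈ Submodule.span ℤ (range v)
    · obtain ⟨n, hn⟩ := (Submodule.mem_span_range_iff_exists_fun ℤ).1 h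
      exact ⟨n, fun _ => hn⟩
    · exact ⟨0, fun z => (h z).elim⟩
  choose ν hν using ex
  have inj : ∀ {n n' : Fin r → ℤ}, cv v n = cv v n' → n = n' := fun {n n'} h => funext fun i =>
    sub_eq_zero.1 (Fintype.linearIndependent_iff.1 hv (fun i => n i - n' i) (by
      simp only [sub_smul, Finset.sum_sub_distrib]
      exact sub_eq_zero.2 h) i)
  refine ⟨fun e => if e ∈ Submodule.span ℤ (range v) then ∏ i, x i ^ ν e i else 0,
    fun e h => ⟨ν e, 1, one_ne_zero, (hν e h).symm, by simp only [if_pos h, one_smul]⟩,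
    fun e h => if_neg h, ?_, fun j => ?_, fun e h e' => ?_⟩
  · have : ν 0 = 0 := inj ((hν 0 (zero_mem _)).trans (by simp [cv]))
    simp [this]
  · have h : v j ∈ Submodule.span ℤ (range v) := Submodule.subset_span ⟨j, rfl⟩
    have : ν (v j) = Pi.single j 1 := inj ((hν _ h).trans (by simp [cv, Pi.single_apply]))
    simp only [if_pos h, this]
    rw [Finset.prod_eq_single j (fun l _ z => by simp [z]) (by simp), Pi.single_eq_same, zpow_one]
  · by_cases h' : e' ∈ Submodule.span ℤ (range v)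
    · have : ν (e + e') = ν e + ν e' := inj ((hν _ (add_mem h h')).trans (by
        conv_lhs => rw [← hν e h, ← hν e' h']
        simp [cv, add_smul, Finset.sum_add_distrib]))
      simp only [if_pos h, if_pos h', if_pos (add_mem h h'), this, ← Finset.prod_mul_distrib]
      exact Finset.prod_congr rfl fun i _ => zpow_add₀ (x0 i) _ _
    · simp only [if_neg h', if_neg fun z => h' ((Submodule.add_mem_iff_right _ h).1 z), mul_zero]

end E33

/-- **EMU** -/
theorem emu33 : EMU := by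
  intro L L' _ _ _ _ _ _ d k N N' T D s a A m G π γ T' D' s' a' A' m' G' G'' π' rw ku F _ _ _ _ t p
    r l v w β ext o em hβ bu
  classical
  have bs : Lx.Bs d t s a A m := ⟨ext, rw.zero, rw.fg, rw.max⟩
  obtain ⟨n, b, c, le, hb, cn⟩ := Lx.cnt L F d k N t s a A m bs p r _ v w o em
  obtain ⟨χ, val, hχ, h, mu, ie⟩ := Lx.G3.val bs o
  have t0 := ext.ind.ne_zero
  have hz := bu.zero
  set i := algebraMap L L' with hi
  set Λ := Submodule.span ℤ (range v) with hΛ
  let J := IeS hz m'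
  have up : ∀ {e φ}, φ ∈ Sp s a e → i φ ∈ Sp s' a' e := fun {e φ} z => by
    by_cases φ0 : φ = 0
    · rw [φ0, map_zero]
      exact zero_mem _
    refine (bu.cox.sec e _ ((map_ne_zero i).2 φ0)).2 fun Q hQ => ?_
    obtain ⟨P, hP, y⟩ := (ku.lies Q).1 hQ
    rw [y.ord, (ku.unr Q hQ P y).1, (ku.unr Q hQ P y).2, one_mul]
    exact (rw.cox.sec e φ φ0).1 z P hP.1
  have upI : ∀ {e φ}, φ ∈ Ie A m s a e → i φ ∈ J e := fun {e φ} z => ⟨up z.1, fun ψ y => by
    have : i φ * ψ ∈ J 0 := by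
      have g := ku.gen _ ψ y
      clear y
      induction g using Submodule.span_induction with
      | mem x hx =>
        obtain ⟨μ, hμ, ψ, y, rfl⟩ := hx
        have a1 := mem0 rw.zero z.1 y
        have a2 := ie_base hz ((not_nz (ku.nz _ a1).1).1 fun u => z.2 ψ y ((ku.nz _ a1).2.2 u))
        have a3 := ie_mul a2 ((hz μ).1 hμ)
        rw [add_zero] at a3
        have a4 : i (φ * ψ) * μ ∈ J 0 := a3
        convert a4 using 1
        rw [map_mul]
        ring
      | zero => rw [mul_zero]; exact zero_mem _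
      | add x y _ _ hx hy => rw [mul_add]; exact add_mem hx hy
      | smul c x _ hx => rw [mul_smul_comm]; exact Submodule.smul_mem _ _ hx
    simpa only [mul_one] using this.2 1 (by rw [neg_zero]; exact one_sp s' a')⟩
  have dn : ∀ {e φ}, φ ∈ Sp s a e → i φ ∈ J e → φ ∈ Ie A m s a e := fun {e φ} z y =>
    ⟨z, fun ψ u q => y.2 _ (up u) (by
      rw [← map_mul]
      exact (ku.nz _ (mem0 rw.zero z u)).2.1 q)⟩
  have x0 : ∀ j, i (w j) * β j ≠ 0 := fun j => (bu.un.pr (v j) _ ⟨Pi.single j 1, 1, one_ne_zero,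
    by simp [cv, Pi.single_apply], by
      rw [one_smul, Finset.prod_eq_single j (fun l _ z => by simp [z]) (by simp),
        Pi.single_eq_same, zpow_one]⟩).1
  obtain ⟨W, WU, Wn, W0, Wv, Wa⟩ := E33.wt o.ind _ x0
  have WS : ∀ e, W e ∈ Sp s' a' e := fun e => by
    by_cases z : e ∈ Λ
    · have q := bu.un.pr _ _ (WU e z)
      exact (bu.cox.sec e _ q.1).2 fun P y => (q.2 P y).ge
    · rw [Wn e z]
      exact zero_mem _
  have cs : ∀ {x y φ}, φ ∈ J x → x = y → φ ∈ J y := fun z e => e ▸ z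
  have bJ : ∀ j, (β j : L') - 1 ∈ J 0 := fun j => ie_base hz (hβ j)
  have v1 : val 0 1 = 1 := (h 0 1 1 (hm_one t).symm).trans (map_one χ)
  have ex : ∀ x ∈ Λ, ∃ u ∈ Sp s a x, val x u = 1 ∧ i u - W x ∈ J x := fun x hx => by
    have hx' : x ∈ AddSubgroup.closure (range v) := by
      rw [← Submodule.span_int_eq_addSubgroupClosure]; exact hx
    have mm : ∀ y ∈ AddSubgroup.closure (range v), y ∈ Λ := fun y hy => by
      rw [← Submodule.span_int_eq_addSubgroupClosure] at hy; exact hy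
    have vw : ∀ j, val (v j) (w j) = 1 := fun j =>
      (h _ _ ⟨_, mem_Rg t0 (o.mem j)⟩ rfl).trans (by
        simpa [sub_eq_zero] using (hχ (⟨_, mem_Rg t0 (o.mem j)⟩ - 1)).2 (o.one j _ rfl))
    clear hx
    induction hx' using AddSubgroup.closure_induction'' with
    | mem x hx =>
      obtain ⟨j, rfl⟩ := hx
      refine ⟨w j, o.mem j, vw j, ?_⟩
      have := neg_mem (cs (ie_mul (bJ j) (up (o.mem j))) (zero_add _))
      convert this using 1
      rw [Wv]
      ring
    | neg_mem x hx =>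
      obtain ⟨j, rfl⟩ := hx
      obtain ⟨u, u1, u2⟩ := o.inv j
      have u0 : val (-v j) u ≠ 0 := fun z => ((ie _ _).2 ⟨u1, z⟩).2 (w j)
        (by simpa using o.mem j) (mul_comm (w j) u ▸ u2)
      obtain ⟨u', u3, u4⟩ : ∃ u' ∈ Sp s a (-v j), val (-v j) u' = 1 :=
        ⟨(val (-v j) u)⁻¹ • u, Submodule.smul_mem _ _ u1, by simp [u0]⟩
      refine ⟨u', u3, u4, ?_⟩
      have g1 := mu _ _ _ _ (o.mem j) u3
      have g2 := sp_mul (o.mem j) u3
      rw [add_neg_cancel] at g1 g2
      have g3 := upI ((ie 0 (w j * u' - 1)).2 ⟨sub_mem g2 (one_sp s a), by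
        rw [map_sub, g1, vw, u4, v1, one_mul, sub_self]⟩)
      have g4 := add_mem (cs (ie_mul g3 ((hz _).1 (β j).2)) (add_zero _)) (bJ j)
      have g5 := Wa (v j) (Submodule.subset_span ⟨j, rfl⟩) (-v j)
      rw [add_neg_cancel, W0, Wv] at g5
      convert cs (ie_mul g4 (WS (-v j))) (zero_add _) using 1
      rw [map_sub, map_mul, map_one]
      linear_combination (i u') * g5
    | zero => exact ⟨1, one_sp s a, v1, by rw [map_one, W0, sub_self]; exact zero_mem _⟩
    | add x y hx' _ hx hy =>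
      obtain ⟨u, u1, u2, u3⟩ := hx
      obtain ⟨u', u4, u5, u6⟩ := hy
      refine ⟨u * u', sp_mul u1 u4, by rw [mu _ _ _ _ u1 u4, u2, u5, one_mul], ?_⟩
      convert add_mem (cs (ie_mul u3 (up u4)) rfl) (cs (ie_mul u6 (WS x)) (add_comm _ _)) using 1
      rw [map_mul, Wa x (mm x hx')]
      ring
  have vL : ∀ {x φ}, φ ∈ Sp s a x → val x φ = 0 ∨ x ∈ Λ := fun {x φ} z =>
    (_root_.em _).imp (fun y => ((ie x φ).1 y).2) (o.spn x φ z)
  have sm : ∀ (c : ℂ) (φ : L), i (c • φ) = c • i φ := fun c φ =>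
    (IsScalarTower.toAlgHom ℂ L L').toLinearMap.map_smul c φ
  have h1 : ∀ {x φ}, φ ∈ Sp s a x → i φ - val x φ • W x ∈ J x := fun {x φ} z => by
    rcases vL z with y | y
    · rw [y, zero_smul, sub_zero]
      exact upI ((ie _ _).2 ⟨z, y⟩)
    · obtain ⟨u, u1, u2, u3⟩ := ex x y
      have := upI ((ie x (φ - val x φ • u)).2 ⟨sub_mem z (Submodule.smul_mem _ _ u1), by
        rw [map_sub, map_smul, u2, smul_eq_mul, mul_one, sub_self]⟩)
      convert add_mem this (Submodule.smul_mem _ (val x φ) u3) using 1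
      rw [map_sub, sm, smul_sub]
      abel
  have wv : ∀ {x φ}, φ ∈ Sp s a x → ∀ y, val x φ • W (x + y) = val x φ • (W x * W y) :=
    fun {x φ} z y => by
      rcases vL z with q | q
      · rw [q, zero_smul, zero_smul]
      · rw [Wa x q]
  have i2 : ∀ {e e₁ x y}, x ∈ J e₁ → y ∈ J (e - e₁) → x * y ∈ I2 A' m' s' a' e :=
    fun {e e₁ x y} hx hy => Submodule.subset_span ⟨e₁, x, hx, y, hy, rfl⟩
  have i2J : ∀ e, I2 A' m' s' a' e ≤ J e := fun e => Submodule.span_le.2 (by
    rintro _ ⟨e₁, x, hx, y, hy, rfl⟩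
    exact cs (ie_mul hx hy.1) (add_sub_cancel _ _))
  refine ⟨n, r, fun j => i (b j), c, v, le, fun j => upI (hb j), fun e => ⟨?_, fun z =>
    ⟨_, WU e z⟩⟩, fun e φ' hφ' => ?_⟩
  · rintro ⟨_, ν, _, -, rfl, -⟩
    exact sum_mem fun j _ => Submodule.smul_mem _ _ (Submodule.subset_span ⟨j, rfl⟩)
  obtain ⟨φ, hφ, q⟩ : ∃ φ ∈ Sp s a e, φ' - i φ ∈ I2 A' m' s' a' e := by
    have g := ku.gen e φ' hφ'.1
    clear hφ'
    induction g using Submodule.span_induction with
    | mem x hx =>
      obtain ⟨μ, hμ, φ, y, rfl⟩ := hx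
      obtain ⟨x, hx, ν, hν, ex⟩ := ku.den 2 ⟨μ, hμ⟩
      refine ⟨x * φ, by simpa only [zero_add] using sp_mul ((rw.zero x).1 hx) y, ?_⟩
      have : μ * i φ - i (x * φ) = ν * i φ := by
        rw [show μ = i x + ν from ex, map_mul]
        ring
      rw [this]
      rw [pow_two] at hν
      refine Submodule.mul_induction_on (C := fun ν : A' => (ν : L') * i φ ∈ I2 A' m' s' a' e) hν
        (fun x hx z hy => ?_) fun x y hx hy => ?_
      · rw [Subalgebra.coe_mul, mul_assoc]
        exact i2 (ie_base hz hx) (cs (ie_mul (ie_base hz hy) (up y)) (by abel))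
      · rw [Subalgebra.coe_add, add_mul]
        exact add_mem hx hy
    | zero => exact ⟨0, zero_mem _, by rw [map_zero, sub_zero]; exact zero_mem _⟩
    | add x y _ _ hx hy =>
      obtain ⟨φ, h1, h2⟩ := hx
      obtain ⟨ψ, h3, h4⟩ := hy
      refine ⟨φ + ψ, add_mem h1 h3, ?_⟩
      convert add_mem h2 h4 using 1
      rw [map_add]
      ring
    | smul c x _ hx =>
      obtain ⟨φ, h1, h2⟩ := hx
      refine ⟨c • φ, Submodule.smul_mem _ _ h1, ?_⟩
      rw [sm, ← smul_sub]
      exact Submodule.smul_mem _ _ h2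
  have hI : φ ∈ Ie A m s a e := dn hφ (by
    have := sub_mem (show φ' ∈ J e from hφ') (i2J e q)
    rwa [sub_sub_cancel] at this)
  obtain ⟨δ, hδ⟩ := Lx.C3.lin (F := F) ext.ind fun x =>
    LinearMap.mulRight ℂ (W (e - x)) ∘ₗ (IsScalarTower.toAlgHom ℂ L L').toLinearMap
  have hd : ∀ (φ : L) x, δ (hm t φ x) = i φ * W (e - x) := hδ
  have key : ∀ x y : Rg s a t, δ ((x - algebraMap ℂ _ (χ x)) * (y - algebraMap ℂ _ (χ y)) :
      Rg s a t) ∈ I2 A' m' s' a' e := fun x y => by
    refine Lx.C3.ind (q := fun x => δ ((x - algebraMap ℂ _ (χ x)) * (y - algebraMap ℂ _ (χ y)) :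
      Rg s a t) ∈ I2 A' m' s' a' e) t0 (by simp) (fun e₁ φ x hφ hx => ?_) (fun x x' hx hx' => ?_) x
    · refine Lx.C3.ind (q := fun y => δ ((x - algebraMap ℂ _ (χ x)) * (y - algebraMap ℂ _ (χ y)) :
        Rg s a t) ∈ I2 A' m' s' a' e) t0 (by simp) (fun e₂ ψ y hψ hy => ?_)
          (fun y y' hy hy' => ?_) y
      · rw [← h e₁ φ x hx, ← h e₂ ψ y hy]
        have e1 : (((x - algebraMap ℂ _ (val e₁ φ)) * (y - algebraMap ℂ _ (val e₂ ψ)) :
            Rg s a t) : F) = hm t (φ * ψ) (e₁ + e₂) - val e₂ ψ • hm t φ e₁ - val e₁ φ • hm t ψ e₂ +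
              (val e₁ φ * val e₂ ψ) • hm t (1 : L) 0 := by
          rw [hm_mul t0, hm_one, ← hx, ← hy]
          simp only [Algebra.smul_def, map_mul, Subalgebra.coe_mul, Subalgebra.coe_sub,
            Subalgebra.coe_algebraMap]
          ring
        have a3 := i2 (e := e) (h1 hφ) (cs (ie_mul (h1 hψ) (WS (e - (e₁ + e₂)))) (by abel))
        have b1 := wv hψ (e - (e₁ + e₂))
        have b2 := wv hφ (e - (e₁ + e₂))
        have b3 := wv hφ (e - e₁)
        rw [show e₂ + (e - (e₁ + e₂)) = e - e₁ by abel] at b1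
        rw [show e₁ + (e - (e₁ + e₂)) = e - e₂ by abel] at b2
        rw [add_sub_cancel] at b3
        rw [e1, map_add, map_sub, map_sub, map_smul, map_smul, map_smul, hd, hd, hd, hd, sub_zero]
        convert a3 using 1
        simp only [Algebra.smul_def, map_mul, map_one] at b1 b2 b3 ⊢
        linear_combination (algebraMap ℂ L' (val e₁ φ) * W e₁ - i φ) * b1 - i ψ * b2 +
          algebraMap ℂ L' (val e₂ ψ) * b3
      · convert add_mem hy hy' using 1
        rw [← map_add, ← Subalgebra.coe_add, map_add, map_add]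
        congr 2
        ring
    · convert add_mem hx hx' using 1
      rw [← map_add, ← Subalgebra.coe_add, map_add, map_add]
      congr 2
      ring
  obtain ⟨g, x, hx, ex⟩ := cn e φ hI
  have dx : δ x ∈ I2 A' m' s' a' e := by
    have hx' : x ∈ p * p := pow_two p ▸ hx
    refine Submodule.mul_induction_on (C := fun x : Rg s a t => δ x ∈ I2 A' m' s' a' e) hx'
      (fun x hx y hy => ?_) fun x y hx hy => ?_
    · simpa [(hχ _).2 hx, (hχ _).2 hy] using key x y
    · rw [Subalgebra.coe_add, map_add]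
      exact add_mem hx hy
  rw [ex, map_sub, map_sum, hd, sub_self, W0, mul_one] at dx
  refine ⟨Finset.univ.filter fun j => e - c j ∈ Λ, fun j => W (e - c j), g,
    fun j z => WU _ (Finset.mem_filter.1 z).2, ?_⟩
  rw [Finset.sum_filter_of_ne fun j _ z => by_contra fun y => z (by simp only [Wn _ y]; simp)]
  convert add_mem q dx using 1
  simp only [map_smul, hd]
  ring

end Vale.Agent.P283R.Uq
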