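import Vale.Agent.P283R.Uq.St

/-!
# P283R, block UQ: the data after an invariant localisation
-/

open Set

noncomputable section

namespace Vale.Agent.P283R.Uq

open Vale.Agent.P287D Vale.Agent.P283M Vale.Agent.P283R.Cx Vale.Agent.P297Z
open Vale.Agent.P283R.Lx (Nz Ie)
open Vale.Agent.P283R.Lx.O15 (nz_mul nz_one one_sp ie_mul not_nz)
open Vale.Agent.P283R.Lx.K33 (I2 IeS)
open Vale.Agent.P283R.Tq.E87 (i2_sp)

variable {L : Type} [Field L] [Algebra ℂ L] {d k N N' : ℕ} {T : Set (Pl L)}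
  {D : Pl L → Fin k → ℤ} {s : Fin N → L} {a : Fin N → Fin k → ℤ} {s' : Fin N' → L}
  {a' : Fin N' → Fin k → ℤ} {A : Subalgebra ℂ L} {m : Ideal A} {G : Subgroup (L ≃ₐ[ℂ] L)}
  {π : Ac L k} {U : (Fin k → ℤ) → L → Prop} {g φ : L} {e : Fin k → ℤ}

namespace L79

theorem sp_iff (c : Cox T D s a) (c' : Cox {P ∈ T | P.ord g = 0} D s' a') (hg : g ∈ Sp s a 0)
    (g0 : g ≠ 0) : φ ∈ Sp s' a' e ↔ ∃ n : ℕ, g ^ n * φ ∈ Sp s a e := by
  rcases eq_or_ne φ 0 with rfl | φ0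
  · simp
  rw [c'.sec _ _ φ0]
  obtain ⟨n, hn⟩ := ((c.fin φ e).image fun P => (P.ord φ + e ⬝ᵥ D P).natAbs).bddAbove
  refine ⟨fun h => ⟨n, (c.sec _ _ (mul_ne_zero (pow_ne_zero _ g0) φ0)).2 fun P hP => ?_⟩,
    fun ⟨n, h⟩ P hP => ?_⟩
  · have b := (c.sec _ _ g0).1 hg P hP
    rw [zero_dotProduct, add_zero] at b
    rw [Pl.ord_mul _ (pow_ne_zero _ g0) φ0, Pl.ord_pow, add_assoc]
    by_cases z : 0 ≤ P.ord φ + e ⬝ᵥ D P
    · exact add_nonneg (mul_nonneg (Int.natCast_nonneg n) b) z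
    have : (P.ord φ + e ⬝ᵥ D P).natAbs ≤ n := hn ⟨P, ⟨hP, fun q => z q.ge⟩, rfl⟩
    have g1 : 1 ≤ P.ord g := by_contra fun q => z (h P ⟨hP, by omega⟩)
    have := mul_le_mul_of_nonneg_left g1 (Int.natCast_nonneg n)
    omega
  · have := (c.sec _ _ (mul_ne_zero (pow_ne_zero _ g0) φ0)).1 h P hP.1
    rwa [Pl.ord_mul _ (pow_ne_zero _ g0) φ0, Pl.ord_pow, hP.2, mul_zero, zero_add] at this

theorem nz_pow (hm : m.IsPrime) (h : Nz A m g) (n : ℕ) : Nz A m (g ^ n) := by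
  induction n with
  | zero => exact pow_zero g ▸ nz_one hm.ne_top
  | succ n ih => exact pow_succ g n ▸ nz_mul hm ih h

/-- the sections of degree zero -/
def Az (s : Fin N → L) (a : Fin N → Fin k → ℤ) : Subalgebra ℂ L where
  carrier := Sp s a 0
  mul_mem' := fun h h' => by simpa using sp_mul h h'
  add_mem' := add_mem
  algebraMap_mem' := fun r => by
    rw [Algebra.algebraMap_eq_smul_one]
    exact Submodule.smul_mem _ r (one_sp s a)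

end L79

open L79 in
/-- the data over the open set `g ≠ 0` -/
theorem loc79 (h : Bu d T D s a A m G π U) (hg : Nz A m g) (fx : Fix G g)
    (c' : Cox {P ∈ T | P.ord g = 0} D s' a') : ∃ (A' : Subalgebra ℂ L) (m' : Ideal A'),
      Bu d {P ∈ T | P.ord g = 0} D s' a' A' m' G π U ∧
      (∀ x, Nz A' m' x ↔ ∃ n : ℕ, Nz A m (g ^ n * x)) ∧
      (∀ e φ, φ ∈ Ie A' m' s' a' e ↔ ∃ n : ℕ, g ^ n * φ ∈ Ie A m s a e) ∧
      ∀ e φ, φ ∈ I2 A' m' s' a' e ↔ ∃ n : ℕ, g ^ n * φ ∈ I2 A m s a e := by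
  classical
  have pr := h.max.isPrime
  have gA : g ∈ A := hg.1
  have g0 : g ≠ 0 := fun z => (not_nz (zero_mem A)).2 m.zero_mem (z ▸ hg)
  have gs : ∀ n : ℕ, g ^ n ∈ Sp s a 0 := fun n => (h.zero _).1 (pow_mem gA n)
  have sp : ∀ {e φ}, φ ∈ Sp s' a' e ↔ ∃ n : ℕ, g ^ n * φ ∈ Sp s a e :=
    sp_iff h.cox c' ((h.zero _).1 gA) g0
  have mA : ∀ {x}, x ∈ Az s' a' ↔ ∃ n : ℕ, g ^ n * x ∈ A := fun {x} =>
    sp.trans (exists_congr fun n => (h.zero _).symm)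
  have le : A ≤ Az s' a' := fun x hx => mA.2 ⟨0, by simpa using hx⟩
  have gi : g⁻¹ ∈ Az s' a' := mA.2 ⟨1, by simp [g0]⟩
  let m' : Ideal (Az s' a') :=
    { carrier := {x | ∃ n : ℕ, ∃ y ∈ m, (y : L) = g ^ n * x}
      add_mem' := by
        rintro x x' ⟨n, y, hy, e⟩ ⟨n', y', hy', e'⟩
        refine ⟨n + n', ⟨g, gA⟩ ^ n' * y + ⟨g, gA⟩ ^ n * y',
          add_mem (m.mul_mem_left _ hy) (m.mul_mem_left _ hy'), ?_⟩
        push_cast
        rw [e, e']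
        ring
      zero_mem' := ⟨0, 0, m.zero_mem, by simp⟩
      smul_mem' := by
        rintro r x ⟨n, y, hy, e⟩
        obtain ⟨j, hj⟩ := mA.1 r.2
        refine ⟨j + n, ⟨_, hj⟩ * y, m.mul_mem_left _ hy, ?_⟩
        rw [smul_eq_mul]
        push_cast
        rw [e]
        ring }
  have nz : ∀ x, Nz (Az s' a') m' x ↔ ∃ n : ℕ, Nz A m (g ^ n * x) := fun x =>
    ⟨fun ⟨hx, k⟩ => let ⟨n, hn⟩ := mA.1 hx; ⟨n, hn, fun b => k ⟨n, _, b, rfl⟩⟩,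
      fun ⟨n, hn⟩ => ⟨mA.2 ⟨n, hn.1⟩, fun ⟨j, y, hy, e⟩ => by
        have := nz_mul pr (nz_pow pr hg j) hn
        rw [mul_left_comm, ← e] at this
        exact this.2 (m.mul_mem_left (⟨g, gA⟩ ^ n) hy)⟩⟩
  have ie : ∀ e φ, φ ∈ Ie (Az s' a') m' s' a' e ↔ ∃ n : ℕ, g ^ n * φ ∈ Ie A m s a e := fun e φ =>
    ⟨fun k => let ⟨n, hn⟩ := sp.1 k.1; ⟨n, hn, fun ψ b q => k.2 ψ (sp.2 ⟨0, by simpa using b⟩)
      ((nz _).2 ⟨n, mul_assoc (g ^ n) φ ψ ▸ q⟩)⟩, fun ⟨n, k⟩ => ⟨sp.2 ⟨n, k.1⟩, fun ψ b q => by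
        obtain ⟨j, hj⟩ := sp.1 b
        obtain ⟨i, hi⟩ := (nz _).1 q
        refine k.2 _ (by simpa using sp_mul (gs i) hj) ?_
        have := nz_mul pr (nz_pow pr hg (n + j)) hi
        rwa [show g ^ (n + j) * (g ^ i * (φ * ψ)) = g ^ n * φ * (g ^ i * (g ^ j * ψ)) by ring]
          at this⟩⟩
  have i0 : ∀ {e φ}, φ ∈ Ie A m s a e → φ ∈ Ie (Az s' a') m' s' a' e := fun k =>
    (ie _ _).2 ⟨0, by simpa using k⟩
  have n1 : (1 : Az s' a') ∉ m' := ((nz 1).2 ⟨0, by simpa using nz_one pr.ne_top⟩).2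
  refine ⟨Az s' a', m', ⟨h.ff, c', fun _ => Iff.rfl, ?_, ?_, ⟨h.gp.fin, fun σ x P y P' z =>
    ⟨h.gp.stT σ x P y.1 P' z, by rw [z, fx σ x, y.2]⟩, fun σ x y z => ?_⟩,
    ⟨fun σ x e => ⟨one_ne_zero, fun P y => (h.pm.rel σ x e).2 P y.1⟩, h.pm.one, h.pm.cmp⟩,
    ⟨fun e θ x => ⟨(h.un.pr e θ x).1, fun P y => (h.un.pr e θ x).2 P y.1⟩, h.un.mul, h.un.inv,
      h.un.cst, h.un.act⟩, fun e φ x => ?_⟩, nz, ie, fun e φ => ⟨fun x => ?_, fun ⟨n, x⟩ => ?_⟩⟩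
  · obtain ⟨t, ht⟩ := h.fg
    refine ⟨insert g⁻¹ t, le_antisymm (Algebra.adjoin_le ?_) fun x hx => ?_⟩
    · rw [Finset.coe_insert]
      exact insert_subset gi fun y hy => le (ht ▸ Algebra.subset_adjoin hy)
    · obtain ⟨n, hn⟩ := mA.1 hx
      rw [← inv_mul_cancel_left₀ (pow_ne_zero n g0) x, ← inv_pow]
      exact mul_mem (pow_mem (Algebra.subset_adjoin (by simp)) _)
        (Algebra.adjoin_mono (by simp) (ht.ge hn))
  · refine Ideal.isMaximal_iff.2 ⟨n1, fun J x hJ x1 x2 => ?_⟩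
    obtain ⟨n, hn, k⟩ := (nz x).1 ⟨x.2, x1⟩
    obtain ⟨y, z, hz, q⟩ := h.max.exists_inv k
    have : (1 : Az s' a') = ⟨_, le (mul_mem y.2 (pow_mem gA n))⟩ * x + ⟨z, le z.2⟩ :=
      Subtype.ext (by simpa [mul_assoc] using congrArg Subtype.val q.symm)
    rw [this]
    exact add_mem (J.mul_mem_left _ x2) (hJ ⟨0, z, hz, by simp⟩)
  · obtain ⟨n, hn⟩ := (nz y).1 z
    have := h.gp.stm σ x _ hn
    rw [map_mul, map_pow, fx σ x] at this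
    exact (nz _).2 ⟨n, this⟩
  · obtain ⟨n, hn⟩ := sp.1 x
    rcases h.orb e _ hn with b | ⟨θ, γ, u, b⟩
    · exact .inl ((ie _ _).2 ⟨n, b⟩)
    have ni : g ^ n ∉ Ie A m s a 0 := fun q => q.2 1 (by simpa using one_sp s a)
      (by simpa using nz_pow pr hg n)
    obtain ⟨θ₀, γ₀, u₀, b₀⟩ := (h.orb 0 _ (gs n)).resolve_left ni
    obtain ⟨r, -, rfl⟩ := (h.un.cst _).1 u₀
    rw [Algebra.algebraMap_eq_smul_one, smul_smul] at b₀
    have r0 : γ₀ * r ≠ 0 := fun q => ni (by simpa [q] using b₀)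
    have ts : θ ∈ Sp s a e := (h.cox.sec _ _ (h.un.pr e θ u).1).2 fun P y =>
      ((h.un.pr e θ u).2 P y).ge
    have b1 := ie_mul b₀ ts
    rw [zero_add] at b1
    refine .inr ⟨θ, γ / (γ₀ * r), u, (ie _ _).2 ⟨n, ?_⟩⟩
    have := (IeS h.zero m e).sub_mem b ((IeS h.zero m e).smul_mem (γ / (γ₀ * r)) b1)
    rwa [sub_mul, smul_mul_assoc, one_mul, smul_sub, smul_smul, div_mul_cancel₀ _ r0, sub_sub,
      add_sub_cancel, ← mul_smul_comm, ← mul_sub] at this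
  · induction x using Submodule.span_induction with
    | mem z hz =>
      obtain ⟨e1, x, hx, y, hy, rfl⟩ := hz
      obtain ⟨i, hi⟩ := (ie _ _).1 hx
      obtain ⟨j, hj⟩ := (ie _ _).1 hy
      exact ⟨i + j, Submodule.subset_span ⟨e1, _, hi, _, hj, by ring⟩⟩
    | zero => exact ⟨0, by simp⟩
    | add x y _ _ hx hy =>
      obtain ⟨i, hi⟩ := hx
      obtain ⟨j, hj⟩ := hy
      have := add_mem (i2_sp hi (gs j)) (i2_sp hj (gs i))
      exact ⟨i + j, by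
        rwa [add_zero, show g ^ i * x * g ^ j + g ^ j * y * g ^ i = g ^ (i + j) * (x + y) by ring]
          at this⟩
    | smul r x _ hx =>
      exact let ⟨i, hi⟩ := hx; ⟨i, mul_smul_comm r (g ^ i) x ▸ Submodule.smul_mem _ r hi⟩
  · have b : I2 A m s a e ≤ I2 (Az s' a') m' s' a' e := Submodule.span_mono
      fun _ ⟨e1, x, hx, y, hy, q⟩ => ⟨e1, x, i0 hx, y, i0 hy, q⟩
    have := i2_sp (b x) (pow_mem gi n : g⁻¹ ^ n ∈ Az s' a')
    rwa [add_zero, inv_pow, mul_comm, inv_mul_cancel_left₀ (pow_ne_zero n g0)] at this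

end Vale.Agent.P283R.Uq
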