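import Vale.Agent.P283R.Uq.St2
import Vale.Agent.P283R.Uq.Loc79

/-!
# P283R, block UQ: the first stage over the extension by the roots
-/

open Set

noncomputable section

namespace Vale.Agent.P283R.Uq

open Vale.Agent.P287D Vale.Agent.P283M Vale.Agent.P283R.Cx Vale.Agent.P297Z
open Vale.Agent.P283R.Lx (Nz Ie Orb)
open Vale.Agent.P283R.Lx.O15 (nz_mul)
open Vale.Agent.P283R.Tq (Cj Qt cv Out up)

namespace G71

variable {K L : Type} [Field K] [Algebra ℂ K] [Field L] [Algebra ℂ L] {d l J k k₀ N : ℕ}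
  {T : Set (Pl L)} {D : Pl L → Fin k → ℤ} {s : Fin N → L} {a : Fin N → Fin k → ℤ}
  {A : Subalgebra ℂ L} {m : Ideal A} {G : Subgroup (L ≃ₐ[ℂ] L)} {π : Ac L k} {g φ : L}
  {e : Fin k → ℤ}

theorem nz0 (h : Nz A m g) : g ≠ 0 := fun e => h.2 (by
  have : (⟨_, h.1⟩ : A) = 0 := Subtype.ext e
  exact this ▸ m.zero_mem)

theorem reg (h : Rw d T D s a A m G π) (hg : g ∈ A) {P : Pl L} (p : P ∈ T) : g ∈ P.ring := by
  rcases eq_or_ne g 0 with rfl | g0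
  · exact zero_mem _
  · simpa [← Pl.ord_nonneg_iff _ g0] using (h.cox.sec _ _ g0).1 ((h.zero _).1 hg) P p

/-- integrality -/
theorem ovr [Algebra K L] [IsScalarTower ℂ K L] (h : FF K d) (h' : FF L d) {T : Set (Pl K)}
    {P : Pl K} {Q : Pl L} (l : Lies (algebraMap K L) Q P)
    (o : ∀ x, (∀ R ∈ T, x ∈ R.ring) → x ∈ P.ring) {z : L}
    (hz : ∀ R ∈ T, ∀ U, Lies (algebraMap K L) U R → z ∈ U.ring) : z ∈ Q.ring := by
  have := Pb.fin_of_ff h h'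
  have k : ∀ i, (minpoly K z).coeff i ∈ P.ring := fun i => o _ fun R r => Tq.F55.int (hz R r) i
  have hi := Algebra.IsIntegral.isIntegral (R := K) z
  have i : IsIntegral Q.ring z := Fre.int_of ((minpoly.monic hi).map (algebraMap K L))
    (fun i => ⟨⟨_, (l _).1 (k i)⟩, by rw [Polynomial.coeff_map]; rfl⟩)
    (by rw [Polynomial.eval_map_algebraMap, minpoly.aeval])
  obtain ⟨w, hw⟩ := IsIntegrallyClosed.isIntegral_iff.1 i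
  exact hw ▸ w.2

/-- denominators -/
theorem clr (lcx : LCX) (h : Rw d T D s a A m G π) (hg : g ∈ A) (g0 : g ≠ 0) (φ0 : φ ≠ 0)
    (b : ∀ P ∈ T, P.ord g = 0 → 0 ≤ P.ord φ + e ⬝ᵥ D P) : ∃ n : ℕ, g ^ n * φ ∈ Sp s a e :=
  have c' := lcx L k N T D s a g h.cox ((h.zero _).1 hg) g0
  (L79.sp_iff h.cox c' ((h.zero _).1 hg) g0).1 ((c'.sec _ _ φ0).2 fun P p => b P p.1 p.2)

/-- the localisation of the output -/
theorem out (lcx : LCX) {T₀ T₁ : Set (Pl K)} {Z : Pl K → Fin k₀ → ℤ} {g : K}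
    (h : Out d l J T₀ T₁ Z) (le : T₁ ⊆ T₀) (g0 : g ≠ 0) (hg : ∀ P ∈ T₁, 0 ≤ P.ord g) :
    Out d (l + 1) J (Tz T₁ g) (Tz T₁ g) Z := by
  obtain ⟨K', i1, i2, i3, i4, k', N', D', s', a', h1, h2, h3, h4, c⟩ := h
  have g1 : algebraMap K K' g ≠ 0 := (map_ne_zero _).2 g0
  have c' := lcx K' _ _ _ _ _ _ _ c ((c.sec _ _ g1).2 fun Q ⟨P, p, l⟩ => by
    rw [l.ord, zero_dotProduct, add_zero]
    exact mul_nonneg l.e_pos.le (hg P p)) g1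
  have e : Tz (up K' T₁) (algebraMap K K' g) = up K' (Tz T₁ g) := Set.ext fun Q =>
    ⟨fun ⟨⟨P, p, l⟩, z⟩ => ⟨P, ⟨p, (mul_eq_zero.1 ((l.ord g).symm.trans z)).resolve_left
      l.e_pos.ne'⟩, l⟩, fun ⟨P, p, l⟩ => ⟨⟨P, p.1, l⟩, by rw [l.ord, p.2, mul_zero]⟩⟩
  exact ⟨K', i1, i2, i3, i4, k', N' + 1, D', _, _, h1, h2, fun P p => h3 P (le p.1), by omega,
    e ▸ c'⟩

theorem dot (w : Fin k₀ → Fin k → ℤ) (ε : Fin k₀ → ℤ) (x : Fin k → ℤ) {z : Fin k₀ → ℤ}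
    (h : ∀ i, z i = w i ⬝ᵥ x) : ε ⬝ᵥ z = cv w ε ⬝ᵥ x := by
  rw [cv, sum_dotProduct]
  exact Finset.sum_congr rfl fun i _ => by rw [smul_dotProduct, h, smul_eq_mul]

theorem three {Q : Pl L} {x y z : L} (x0 : x ≠ 0) (y0 : y ≠ 0) (z0 : z ≠ 0) (hx : x ∈ Q.ring)
    (hy : y ∈ Q.ring) (hz : z ∈ Q.ring) (h : Q.ord (x * y * z) = 0) :
    Q.ord x = 0 ∧ Q.ord y = 0 ∧ Q.ord z = 0 := by
  rw [Pl.ord_mul _ (mul_ne_zero x0 y0) z0, Pl.ord_mul _ x0 y0] at h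
  have := Pl.ord_nonneg_of_mem _ hx
  have := Pl.ord_nonneg_of_mem _ hy
  have := Pl.ord_nonneg_of_mem _ hz
  omega

theorem cj_mem {σ : L ≃ₐ[ℂ] L} {P P' : Pl L} (h : Cj σ P P') (φ : L) :
    φ ∈ P'.ring ↔ σ φ ∈ P.ring := by
  rcases eq_or_ne φ 0 with rfl | φ0
  · simp
  · rw [← Pl.ord_nonneg_iff _ φ0, ← Pl.ord_nonneg_iff _ ((map_ne_zero _).2 φ0), h]

end G71

open G71

/-- **ETGR** -/
theorem etgr71 : ETGR := by
  intro lcx pre kx uur emu nky opn qtf pnt stg d l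
  obtain ⟨J₀, stg⟩ := stg d (l + d + 3)
  refine ⟨d + (l + d + 3) + 3 + 1, J₀,
    fun L _ _ k N T D s a A m G π K _ _ _ _ T₀ k₀ Z w e rw eb qt pw hw => ?_⟩
  obtain ⟨F, _, _, _, _, t, ex⟩ := Cx.ext L d k rw.ff
  obtain ⟨p, r, v, w', ob⟩ := Lx.orb L F d k N t s a A m ⟨ex, rw.zero, rw.fg, rw.max⟩
  obtain ⟨γ, c, γn, γf, hc, hu⟩ := pre L d k N T D s a A m G π rw F t p r v w' ob
  have := rw.gp.fin
  obtain ⟨L', _, _, _, _, N', T', D', s', a', A', m', G', G'', π', β, ku, hβ⟩ :=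
    kx L d k N T D s a A m G π rw r (Nat.card G) γ c Nat.card_pos γn γf fun j => (hc j).2
  have bu := uur L L' d k N N' T D s a A m G π γ T' D' s' a' A' m' G' G'' π' rw ku F t p r _ v w'
    c β Nat.card_pos ob hc hu fun j => (hβ j).1
  have fw := emu L L' d k N N' T D s a A m G π γ T' D' s' a' A' m' G' G'' π' rw ku F t p r l v w'
    β ex ob (eb F t p r v w' ex ob) (fun j => (hβ j).2) bu
  obtain ⟨γ₂, N₂, s₂, a₂, A₂, m₂, J, n2, f2, pu, bk⟩ :=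
    pnt d l L' k N' T' D' s' a' A' m' G'' π' _ bu fw
  obtain ⟨γ, rfl⟩ := (qt.fix γ).1 γf
  let _ : Algebra K L' := ((algebraMap L L').comp (algebraMap K L)).toAlgebra
  have tw : ∀ x, algebraMap K L' x = algebraMap L L' (algebraMap K L x) := fun _ => rfl
  have : IsScalarTower ℂ K L' := .of_algebraMap_eq fun x => by
    rw [tw, ← IsScalarTower.algebraMap_apply ℂ K L, ← IsScalarTower.algebraMap_apply ℂ L L']
  have rw' := ku.rw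
  have dn : ∀ Q ∈ T', ∃ P ∈ T₀, Lies (algebraMap K L') Q P ∧ Q.ord (algebraMap K L' P.t) = 1 ∧
      ∀ i, Z P i = w i ⬝ᵥ D' Q := fun Q q => by
    obtain ⟨P₁, p₁, l₁⟩ := (ku.lies Q).1 q
    obtain ⟨P, p₀, l₀⟩ := (qt.lies P₁).1 p₁.1
    obtain ⟨u1, u2⟩ := ku.unr Q q P₁ l₁
    exact ⟨P, p₀, l₁.comp l₀, by rw [tw, l₁.ord, u1, qt.unr P p₀ P₁ l₀, one_mul],
      fun i => u2 ▸ hw P₁ p₁.1 P l₀ i⟩
  have upT : ∀ P ∈ T₀, P.ord γ = 0 → ∀ Q, Lies (algebraMap K L') Q P → Q ∈ T' :=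
    fun P p₀ z Q l₀ => by
      obtain ⟨P₁, l₁⟩ := Pb.down rw.ff rw'.ff Q
      have l₂ := l₁.of_comp l₀
      exact (ku.lies Q).2 ⟨P₁, ⟨(qt.lies P₁).2 ⟨P, p₀, l₂⟩, by rw [l₂.ord, z, mul_zero]⟩, l₁⟩
  have fk : ∀ x, Fix G' (algebraMap K L' x) := fun x =>
    (ku.fix _).2 ⟨_, (qt.fix _).2 ⟨x, rfl⟩, rfl⟩
  obtain ⟨K₁, _, _, _, _, _, _, _, q₁⟩ := qtf K L' d (Tz T' γ₂) G'' qt.ff rw'.ff rw'.gp.fin
    (fun x σ h => fk x σ (ku.le h)) pu.gp.stT fun Q q P l => by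
      obtain ⟨P₀, -, l₀, e1, -⟩ := dn Q q.1
      exact l₀.uniq l ▸ e1
  choose B hB using Pb.down qt.ff q₁.ff
  have tv : ∀ x, algebraMap K L' x = algebraMap K₁ L' (algebraMap K K₁ x) :=
    IsScalarTower.algebraMap_apply K K₁ L'
  have cb : ∀ Q R, Lies (algebraMap K₁ L') Q R → Lies (algebraMap K L') Q (B R) := fun Q R l f =>
    tv f ▸ l.comp (hB R) f
  obtain ⟨γ₃, n3, ot⟩ := stg L' k N₂ _ D' s₂ a₂ A₂ m₂ J G'' π' _ pu K₁ _ k₀ (fun Q => Z (B Q)) w q₁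
    (fun σ h i => by
      obtain ⟨τ, ht, -, e⟩ := ku.res σ h
      rw [e]
      exact pw τ ht i)
    fun P p Q l i => by
      obtain ⟨P₀, -, l₀, -, z⟩ := dn P p.1
      rw [(cb P Q l).uniq l₀]
      exact z i
  have z3 : algebraMap K₁ L' γ₃ ≠ 0 := nz0 n3
  obtain ⟨n₃, n3⟩ := bk _ n3
  obtain ⟨g, gn, hg⟩ := nky L L' d k N N' T D s a A m G π _ T' D' s' a' A' m' G' G'' π' rw ku
    (cv w e) fun σ h => by simp only [cv, map_sum, map_zsmul, pw σ h]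
  have pm := rw'.max.isPrime
  obtain ⟨h, hn, hf, ho⟩ := opn L' A' m' G' _ rw'.max ku.fin ku.stab (nz_mul pm (nz_mul pm n2 n3) gn)
  obtain ⟨x, xf, rfl⟩ := (ku.fix h).1 hf
  obtain ⟨γ₄, rfl⟩ := (qt.fix x).1 xf
  have x0 : algebraMap K L γ₄ ≠ 0 := (map_ne_zero _).1 (nz0 hn)
  obtain ⟨n₄, h4⟩ := clr (e := 0) lcx rw γn.1 (nz0 γn) x0 fun P p z => by
    obtain ⟨Q, l⟩ := Pb.up_alg rw'.ff P
    simpa using Pl.ord_nonneg_of_mem _ ((l _).2 (reg rw' hn.1 ((ku.lies Q).2 ⟨P, ⟨p, z⟩, l⟩)))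
  have h4 := (rw.zero _).2 h4
  have γn' := (ku.nz _ γn.1).2.1 γn
  have e5 : algebraMap K L (γ * γ ^ n₄ * γ₄) =
      algebraMap K L γ * (algebraMap K L γ ^ n₄ * algebraMap K L γ₄) := by
    rw [map_mul, map_mul, map_pow, mul_assoc]
  have e6 : algebraMap K L' (γ * γ ^ n₄ * γ₄) =
      algebraMap K L' γ * algebraMap K L' γ ^ n₄ * algebraMap K L' γ₄ := by
    rw [map_mul, map_mul, map_pow]
  have n5' : Nz A' m' (algebraMap K L' (γ * γ ^ n₄ * γ₄)) :=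
    e6 ▸ nz_mul pm (nz_mul pm γn' (L79.nz_pow pm γn' n₄)) hn
  have n5 : Nz A m (algebraMap K L (γ * γ ^ n₄ * γ₄)) :=
    (ku.nz _ (e5 ▸ mul_mem γn.1 h4)).2.2 n5'
  have dv : ∀ Q : Pl L', (∀ x ∈ A', x ∈ Q.ring) → Q.ord (algebraMap K L' (γ * γ ^ n₄ * γ₄)) = 0 →
      Q.ord (algebraMap K L' γ₄) = 0 := fun Q o z =>
    (three (nz0 γn') (pow_ne_zero _ (nz0 γn')) (nz0 hn) (o _ γn'.1) (pow_mem (o _ γn'.1) _)
      (o _ hn.1) (e6 ▸ z)).2.2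
  have dv' : ∀ P ∈ T₀, P.ord (γ * γ ^ n₄ * γ₄) = 0 → P.ord γ = 0 := fun P p z => by
    obtain ⟨Q, l⟩ := Pb.up_alg rw.ff P
    have q := (qt.lies Q).2 ⟨P, p, l⟩
    have b := l.ord (γ * γ ^ n₄ * γ₄)
    rw [z, mul_zero, e5, Pl.ord_mul _ (nz0 γn) (mul_ne_zero (pow_ne_zero _ (nz0 γn)) x0)] at b
    have b1 := Pl.ord_nonneg_of_mem _ (reg rw γn.1 q)
    have b2 := Pl.ord_nonneg_of_mem _ (reg rw h4 q)
    have b3 := l.ord γ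
    rw [qt.unr P p Q l, one_mul] at b3
    omega
  generalize γ * γ ^ n₄ * γ₄ = γ₅ at n5 n5' dv dv'
  have z5 : γ₅ ≠ 0 := (map_ne_zero _).1 (nz0 n5)
  refine ⟨γ₅, n5, K₁, _, _, _, ‹_›, _, fun Q => Z (B Q), q₁.ff, ?_,
    out lcx ot (sep_subset _ _) ((map_ne_zero (algebraMap K K₁)).2 z5) ?_, fun P o => ?_⟩
  · rintro R ⟨⟨⟨Q, q, l⟩, -⟩, z⟩
    obtain ⟨P, p₀, l₀, e1, -⟩ := dn Q q.1
    obtain rfl := (cb Q R l).uniq l₀
    rw [tv, l.ord, q₁.unr R ⟨Q, q, l⟩ Q l, one_mul] at e1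
    rw [(hB R).ord, e1, one_mul] at z
    exact ⟨_, ⟨p₀, z⟩, hB R, e1, rfl⟩
  · rintro R ⟨⟨Q, q, l⟩, -⟩
    exact Pl.ord_nonneg_of_mem _ ((l _).2 (tv γ₅ ▸ reg rw' n5'.1 q.1))
  have p5 : P.ord γ₅ = 0 := Pl.ord_unit _
    (o _ fun R r => (Pl.ord_nonneg_iff _ z5).1 r.2.ge)
    (o _ fun R r => (Pl.ord_nonneg_iff _ (inv_ne_zero z5)).1 (by rw [Pl.ord_inv, r.2]; rfl))
  obtain ⟨Q₀, l₀⟩ := Pb.up_alg rw'.ff P
  have hA : ∀ x ∈ A', x ∈ Q₀.ring := fun x hx => ovr qt.ff rw'.ff l₀ o fun R r U lU =>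
    reg rw' hx (upT R r.1 (dv' R r.1 r.2) U lU)
  obtain ⟨σ, hσ, Q, cj, z0⟩ := ho Q₀ hA (dv Q₀ hA (by rw [l₀.ord, p5, mul_zero]))
  have lQ : Lies (algebraMap K L') Q P := fun f => (l₀ f).trans (by rw [cj_mem cj, fk f σ hσ])
  have hA' : ∀ x ∈ A', x ∈ Q.ring := fun x hx => (cj_mem cj x).2 (hA _ (ku.stab σ hσ x hx))
  obtain ⟨o2, o3, og⟩ := three (nz0 n2) (nz0 n3) (nz0 gn) (hA' _ n2.1) (hA' _ n3.1) (hA' _ gn.1) z0
  have n1 := nz_mul pm (nz_mul pm n2 n3) n5'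
  have o1 : Q.ord (γ₂ * (γ₂ ^ n₃ * algebraMap K₁ L' γ₃) * algebraMap K L' γ₅) = 0 := by
    rw [Pl.ord_mul _ (mul_ne_zero (nz0 n2) (nz0 n3)) (nz0 n5'), Pl.ord_mul _ (nz0 n2) (nz0 n3),
      o2, o3, lQ.ord, p5]
    simp
  have f1 : ∀ ψ, Fix G'' (algebraMap K₁ L' ψ) := fun ψ => (q₁.fix _).2 ⟨ψ, rfl⟩
  have sec : ∀ (ε : Fin k₀ → ℤ) (ψ : K₁), ψ ≠ 0 → (∀ S ∈ Tz (Tz {R : Pl K₁ | ∃ Q ∈ Tz T' γ₂,
      Lies (algebraMap K₁ L') Q R} γ₃) (algebraMap K K₁ γ₅), 0 ≤ S.ord ψ + ε ⬝ᵥ Z (B S)) →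
      ∃ n : ℕ, (γ₂ * (γ₂ ^ n₃ * algebraMap K₁ L' γ₃) * algebraMap K L' γ₅) ^ n *
        algebraMap K₁ L' ψ ∈ Sp s' a' (cv w ε) := fun ε ψ ψ0 H =>
    clr lcx rw' n1.1 (nz0 n1) ((map_ne_zero _).2 ψ0) fun U u z => by
      obtain ⟨b2, b3, b5⟩ := three (nz0 n2) (nz0 n3) (nz0 n5') (reg rw' n2.1 u) (reg rw' n3.1 u)
        (reg rw' n5'.1 u) z
      obtain ⟨S, lS⟩ := Pb.down q₁.ff rw'.ff U
      have e1 := q₁.unr S ⟨U, ⟨u, b2⟩, lS⟩ U lS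
      rw [Pl.ord_mul _ (pow_ne_zero _ (nz0 n2)) z3, Pl.ord_pow, b2, mul_zero, zero_add, lS.ord, e1,
        one_mul] at b3
      rw [tv, lS.ord, e1, one_mul] at b5
      obtain ⟨P₀, -, l₁, -, zz⟩ := dn U u
      obtain rfl := (cb U S lS).uniq l₁
      rw [lS.ord, e1, one_mul, ← dot w ε _ zz]
      exact H S ⟨⟨⟨U, ⟨u, b2⟩, lS⟩, b3⟩, b5⟩
  generalize hg₁ : γ₂ * (γ₂ ^ n₃ * algebraMap K₁ L' γ₃) * algebraMap K L' γ₅ = g₁ at n1 o1 sec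
  have f3 : Fix G'' g₁ := fun τ ht => by
    rw [← hg₁, map_mul, map_mul, map_mul, map_pow, f2 τ ht, f1 _ τ ht, fk _ τ (ku.le ht)]
  obtain ⟨R, lR⟩ := Pb.down q₁.ff rw'.ff Q
  obtain rfl := (cb Q R lR).uniq lQ
  refine ⟨R, hB R, fun y H => ?_, fun ψ ψ0 H => ?_⟩
  · rcases eq_or_ne y 0 with rfl | y0
    · exact zero_mem _
    obtain ⟨n, b⟩ := sec 0 y y0 fun S hS => by simpa using Pl.ord_nonneg_of_mem _ (H S hS)
    have y1 := (map_ne_zero (algebraMap K₁ L')).2 y0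
    have b := Pl.ord_nonneg_of_mem _ (hA' _ ((rw'.zero _).2 (by simpa [cv] using b)))
    rw [Pl.ord_mul _ (pow_ne_zero _ (nz0 n1)) y1, Pl.ord_pow, o1, mul_zero, zero_add] at b
    exact (lR y).2 ((Pl.ord_nonneg_iff _ y1).1 b)
  obtain ⟨n, b⟩ := sec e ψ ψ0 H
  have ψ1 := (map_ne_zero (algebraMap K₁ L')).2 ψ0
  have b := hg _ b fun τ ht => by rw [map_mul, map_pow, f3 τ ht, f1 _ τ ht]
  by_contra nc
  have le : Submodule.span ℂ {x | ∃ μ ∈ A', ∃ χ ∈ Sp s a (cv w e), Fix G χ ∧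
      x = μ * algebraMap L L' χ} ≤ Q.sub (-(Q.ord (algebraMap K₁ L' ψ) + 1)) :=
    Submodule.span_le.2 (by
      rintro _ ⟨μ, hμ, χ, hχ, fχ, rfl⟩
      obtain ⟨χ, rfl⟩ := (qt.fix χ).1 fχ
      rcases eq_or_ne μ 0 with rfl | μ0
      · exact .inl (zero_mul _)
      rcases eq_or_ne χ 0 with rfl | χ0
      · exact .inl (by simp)
      have χ1 := (map_ne_zero (algebraMap K L)).2 χ0
      have lt : R.ord ψ + 1 ≤ R.ord (algebraMap K K₁ χ) := not_le.1 fun c' => nc ⟨χ, χ0,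
        fun S hS => by
          obtain ⟨U, lU⟩ := Pb.up_alg rw.ff S
          have u := (qt.lies U).2 ⟨S, hS.1, lU⟩
          have := (rw.cox.sec _ _ χ1).1 hχ U u
          rwa [lU.ord, qt.unr S hS.1 U lU, one_mul, ← dot w e _ (hw U u S lU)] at this, c'⟩
      have b1 := Pl.ord_nonneg_of_mem _ (hA' μ hμ)
      have b2 := mul_le_mul_of_nonneg_left lt lR.e_pos.le
      have b3 := lR.e_pos
      rw [mul_add, ← lR.ord, ← lR.ord, ← tv, tw] at b2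
      have b4 : Q.ord (algebraMap K₁ L' ψ) + 1 ≤ Q.ord (μ * algebraMap L L' (algebraMap K L χ)) := by
        rw [Pl.ord_mul _ μ0 ((map_ne_zero _).2 χ1)]
        omega
      have b5 : (Q.ord (algebraMap K₁ L' ψ) : ℝ) + 1 ≤
          Q.ord (μ * algebraMap L L' (algebraMap K L χ)) := by exact_mod_cast b4
      exact .inr (by linarith))
  have b0 := mul_ne_zero (pow_ne_zero n (nz0 n1)) ψ1
  have := (le b).resolve_left (mul_ne_zero (nz0 gn) b0)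
  rw [Pl.ord_mul _ (nz0 gn) b0, Pl.ord_mul _ (pow_ne_zero _ (nz0 n1)) ψ1, Pl.ord_pow, og, o1] at this
  push_cast at this
  linarith

end Vale.Agent.P283R.Uq
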