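import Vale.Agent.P283R.Uq.St2

/-!
# P283R, block UQ: the second stage
-/

set_option linter.unusedSectionVars false

open Set

noncomputable section

namespace Vale.Agent.P283R.Uq

open Vale.Agent.P287D Vale.Agent.P283M Vale.Agent.P297Z Cx Cy Cy.Tpb Cx.Tpy
open Vale.Agent.P283R.Tq (Cov)
open Vale.Agent.P283R.Tq.F55 (int lies_eq gen pa_map big mon_mem term ex ex_dot gv)

namespace E55

variable {K K' : Type} [Field K] [Algebra ℂ K] [Field K'] [Algebra ℂ K'] [Algebra K K']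
  [IsScalarTower ℂ K K'] {d k N k' N' q m J : ℕ} {ε : ℝ} {T : Set (Pl K)} {T' : Set (Pl K')}
  {D : Pl K → Fin k → ℤ} {D' : Pl K' → Fin k' → ℤ} {s : Fin N → K} {s' : Fin N' → K'}
  {a : Fin N → Fin k → ℤ} {a' : Fin N' → Fin k' → ℤ} {ι : (Fin k → ℤ) →+ (Fin k' → ℤ)}
  {y : Fin d → K} {h g h₀ : K} {δ b e₀ : Fin k → ℤ}

/-- a map which is not ramified along the prime divisors -/
structure Cd (d : ℕ) (T : Set (Pl K)) (T' : Set (Pl K')) (D : Pl K → Fin k → ℤ)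
    (D' : Pl K' → Fin k' → ℤ) (ι : (Fin k → ℤ) →+ (Fin k' → ℤ)) : Prop where
  ff : FF K d
  ff' : FF K' d
  dn : ∀ Q ∈ T', ∃ P ∈ T, Lies (algebraMap K K') Q P ∧ Q.ord (algebraMap K K' P.t) = 1 ∧
    ∀ e, ι e ⬝ᵥ D' Q = e ⬝ᵥ D P

theorem sec (c : Cd d T T' D D' ι) (x : Cox T D s a) (x' : Cox T' D' s' a') {e : Fin k → ℤ}
    {φ : K} (hφ : φ ∈ Sp s a e) (φ0 : φ ≠ 0) : algebraMap K K' φ ∈ Sp s' a' (ι e) :=
  (x'.sec _ _ ((map_ne_zero _).2 φ0)).2 fun Q hQ => by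
    obtain ⟨P, p, l, e1, k⟩ := c.dn Q hQ
    rw [l.ord, e1, one_mul, k]
    exact (x.sec _ _ φ0).1 hφ P p

theorem big' (c : Cd d T T' D D' ι) (x : Cox T D s a) (x' : Cox T' D' s' a') (w : Fin k' → ℤ) :
    ∃ e, ∃ φ ∈ Sp s' a' (ι e + (-1 : ℤ) • w), φ ≠ 0 := by
  classical
  have fin := x'.fin 1 w
  choose P hP using Pb.down c.ff c.ff'
  obtain ⟨n, hn⟩ := (fin.image fun Q => w ⬝ᵥ D' Q).bddAbove
  obtain ⟨e, φ, φ0, H⟩ := big x (fin.toFinset.image P) n.toNat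
  have φ1 := (map_ne_zero (algebraMap K K')).2 φ0
  refine ⟨e, _, (x'.sec _ _ φ1).2 fun Q hQ => ?_, φ1⟩
  obtain ⟨R, p, l, e1, k⟩ := c.dn Q hQ
  obtain rfl := lies_eq l (hP Q)
  rw [l.ord, e1, one_mul, add_dotProduct, k, smul_dotProduct, smul_eq_mul]
  by_cases z : w ⬝ᵥ D' Q = 0
  · have := (H _ p).1
    omega
  · have mem : Q ∈ {P | P ∈ T' ∧ P.ord (1 : K') + w ⬝ᵥ D' P ≠ 0} := ⟨hQ, by simpa using z⟩
    have a1 := (H _ p).2 (Finset.mem_image_of_mem P (fin.mem_toFinset.2 mem))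
    have a2 : w ⬝ᵥ D' Q ≤ n := hn ⟨Q, mem, rfl⟩
    omega

theorem kap_up (c : Cd d T T' D D' ι) (fr : Frm y) {Q : Pl K'} {P : Pl K}
    (l : Lies (algebraMap K K') Q P) : 1 + kap (fun i => algebraMap K K' (y i)) Q =
      Q.ord (algebraMap K K' P.t) * (1 + kap y P) :=
  ((ram d K K' (IsScalarTower.toAlgHom ℂ K K') y c.ff c.ff' fr).2 Q P l).2.2

theorem kap_eq (c : Cd d T T' D D' ι) (fr : Frm y) {Q : Pl K'} {P : Pl K}
    (l : Lies (algebraMap K K') Q P) (e1 : Q.ord (algebraMap K K' P.t) = 1) :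
    kap (fun i => algebraMap K K' (y i)) Q = kap y P := by
  have := kap_up c fr l
  rw [e1] at this
  push_cast at this
  linarith

theorem dx {n n' : ℕ} {f : Fin n → MvPolynomial (Fin N) ℂ} {f' : Fin n' → MvPolynomial (Fin N') ℂ}
    (c : Cd d T T' D D' ι) (ε0 : 0 ≤ ε) (X : Dx q ε y T D s a f h g δ b) (x' : Cox T' D' s' a')
    (ci : CI s' a' f') : Dx q ε (fun i => algebraMap K K' (y i)) T' D' s' a' f'
      (algebraMap K K' h) (algebraMap K K' g) (ι δ) (ι b) := by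
  have x := X.cox
  refine ⟨c.ff', (ram d K K' (IsScalarTower.toAlgHom ℂ K K') y c.ff c.ff' X.fr).1, x', ci,
    (map_ne_zero _).2 X.h0, (map_ne_zero _).2 X.g0, sec c x x' X.gs X.g0, fun Q hQ => ?_,
    fun Q ξ H => ?_, fun ξ H => ?_⟩
  · obtain ⟨P, p, l, e1, k⟩ := c.dn Q hQ
    rw [l.ord, l.ord g, e1, one_mul, one_mul, k, k, kap_eq c X.fr l e1]
    exact X.eq P p
  · obtain ⟨P, l⟩ := Pb.down c.ff c.ff' Q
    have e1 : (1 : ℝ) ≤ Q.ord (algebraMap K K' P.t) := by exact_mod_cast l.e_pos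
    have e0 : (0 : ℝ) < Q.ord (algebraMap K K' P.t) := by linarith
    have := X.hw P (fun i => pa (ι (Pi.single i 1)) ξ / Q.ord (algebraMap K K' P.t)) fun j => by
      have := wt x'.ne H (sec c x x' (gen j) (x.ne j)) ((map_ne_zero _).2 (x.ne j))
      rw [l.ord] at this
      rw [pa_map, add_div' _ _ _ e0.ne']
      push_cast at this
      exact div_nonneg (by linarith) e0.le
    rw [pa_map] at this
    rw [kap_up c X.fr l, l.ord h]
    have k := mul_le_mul_of_nonneg_left this e0.le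
    rw [mul_sub, ← mul_div_assoc, mul_add _ (P.ord h : ℝ), mul_div_cancel₀ _ e0.ne'] at k
    push_cast
    nlinarith
  · have := X.lw (fun i => pa (ι (Pi.single i 1)) ξ / 1) fun j => by
      rw [pa_map, div_one]
      exact deg H (sec c x x' (gen j) (x.ne j)) ((map_ne_zero _).2 (x.ne j))
    rw [pa_map, pa_map, div_one, div_one] at this
    refine ⟨this.1, fun ne => this.2 fun z => ?_⟩
    obtain ⟨i, hi⟩ := Function.ne_iff.1 ne
    obtain ⟨w, he⟩ : ∃ w : Fin k' → ℤ, 0 < pa w ξ := by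
      rcases lt_or_gt_of_ne hi with z | z
      · exact ⟨Pi.single i (-1), by rw [pa_single]; simpa using z⟩
      · exact ⟨Pi.single i 1, by rw [pa_single]; simpa using z⟩
    obtain ⟨e, φ, hφ, φ0⟩ := big' c x x' w
    have k1 := deg H hφ φ0
    have k2 := pa_map (ι := ι) ξ 1 e
    rw [z, div_one] at k2
    rw [pa_add, pa_smul, ← k2] at k1
    simp only [pa, Pi.zero_apply, mul_zero, Finset.sum_const_zero] at k1 he
    push_cast at k1
    linarith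

theorem ov (c : Cov d T T' D D' ι) (x' : Cox T' D' s' a') {Q : Pl K'} {P : Pl K}
    (l : Lies (algebraMap K K') Q P) (o : ∀ x, (∀ R ∈ T, x ∈ R.ring) → x ∈ P.ring)
    (u : Fin N' → ℕ) (hu : dg a' u = 0) : 0 ≤ Q.ord (∏ j, s' j ^ u j) := by
  have := Pb.fin_of_ff c.ff c.ff'
  have z0 : ∏ j, s' j ^ u j ≠ 0 := Finset.prod_ne_zero_iff.2 fun j _ => pow_ne_zero _ (x'.ne j)
  have hz := (x'.sec _ _ z0).1 (mon_mem hu)
  generalize ∏ j, s' j ^ u j = z at z0 hz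
  have k : ∀ i, (minpoly K z).coeff i ∈ P.ring := fun i => o _ fun R r =>
    int (fun U lU => (Pl.ord_nonneg_iff _ z0).1 (by simpa using hz U (c.up U R lU r))) i
  have hi := Algebra.IsIntegral.isIntegral (R := K) z
  have i : IsIntegral Q.ring z := Fre.int_of ((minpoly.monic hi).map (algebraMap K K'))
    (fun i => ⟨⟨_, (l _).1 (k i)⟩, by rw [Polynomial.coeff_map]; rfl⟩)
    (by rw [Polynomial.eval_map_algebraMap, minpoly.aeval])
  obtain ⟨w, hw⟩ := IsIntegrallyClosed.isIntegral_iff.1 i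
  exact Pl.ord_nonneg_of_mem _ (hw ▸ w.2)

theorem pf (c : Cd d T T' D D' ι) (ε0 : 0 ≤ ε) (x' : Cox T' D' s' a') {P : Pl K} {Q : Pl K'}
    (X : Bh.Pf d q ε K k N y T D s a h δ P) (o : ∀ u, dg a' u = 0 → 0 ≤ Q.ord (∏ j, s' j ^ u j)) :
    Bh.Pf d q ε K' k' N' (fun i => algebraMap K K' (y i)) T' D' s' a' (algebraMap K K' h) (ι δ)
      Q := by
  obtain ⟨⟨n, f, h₀, g, e₀, b, E, rfl, rfl, X⟩, -⟩ := X
  obtain ⟨n', f', ci⟩ := Cg.exists_rel (s := s') (a := a')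
  refine ⟨⟨n', f', algebraMap K K' h₀, algebraMap K K' g, ι e₀, ι b,
    ⟨(map_ne_zero _).2 E.1, fun U hU => ?_⟩, by rw [map_mul, map_pow], by rw [map_add, map_zsmul],
    dx c ε0 X x' ci⟩, o⟩
  obtain ⟨R, r, lU, e1, k⟩ := c.dn U hU
  rw [lU.ord, e1, one_mul, k, kap_eq c X.fr lU e1]
  exact E.2 R r

/-- the norm -/
theorem back (c : Cov d T T' D D' ι) (hq : 0 < q) (hm : 0 < m) (hJ : Module.finrank K K' ≤ J)
    (fr : Frm y) (h0 : h ≠ 0) (x' : Cox T' D' s' a') {P : Pl K}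
    (H : ∀ Q, Lies (algebraMap K K') Q P →
      MN q m (fun i => algebraMap K K' (y i)) s' a' (algebraMap K K' h) (ι δ) Q) :
    ∃ ψ : K, ψ ≠ 0 ∧ (∀ R ∈ T, 0 ≤ R.ord ψ + (-(((m * J.factorial : ℕ) : ℤ) • δ)) ⬝ᵥ D R) ∧
      (P.ord ψ : ℝ) < (m * J.factorial : ℕ) * (q * (1 + kap y P) - P.ord h) := by
  classical
  have := Pb.fin_of_ff c.ff c.ff'
  obtain ⟨r, hr⟩ := Nat.dvd_factorial (Module.finrank_pos (R := K) (M := K')) hJ
  have r0 : (0 : ℝ) < r := by exact_mod_cast Nat.pos_of_mul_pos_left (hr ▸ J.factorial_pos)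
  have fin := Pb.fin_above (K' := K') P
  choose! u u1 u2 using H
  have z0 : ∀ Q, ∏ j, s' j ^ u Q j ≠ 0 := fun Q =>
    Finset.prod_ne_zero_iff.2 fun j _ => pow_ne_zero _ (x'.ne j)
  obtain ⟨Q₀, l₀⟩ := Pb.up_fin (K' := K') P
  let S := fin.toFinset.image fun Q => ∏ j, s' j ^ u Q j
  have mem : ∀ Q, Lies (algebraMap K K') Q P → ∏ j, s' j ^ u Q j ∈ S := fun Q l =>
    Finset.mem_image_of_mem _ (fin.mem_toFinset.2 l)
  obtain ⟨φ, hφ, φ0, g⟩ := exists_gen (s := S) ⟨_, mem Q₀ l₀, z0 Q₀⟩ fin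
  have hφ' : φ ∈ Sp s' a' (-((m : ℤ) • ι δ)) := Submodule.span_le.2 (fun z hz => by
    obtain ⟨Q, hQ, rfl⟩ := Finset.mem_image.1 hz
    exact mon_mem (u1 Q (fin.mem_toFinset.1 hQ))) hφ
  obtain ⟨ψ, ψ0, n⟩ := Bc.nrm c.ff c.ff' φ0
  have lt := (n P (m * (q * (1 + kap y P) - P.ord h))).2 fun Q l => by
    have k1 := (Hl.ld_iff hq hm ((map_ne_zero _).2 h0) (z0 Q) Q).1 (u2 Q l)
    have k2 : (Q.ord φ : ℝ) + Q.mz S = 0 := g Q l
    have k3 : (-Q.ord (∏ j, s' j ^ u Q j) : ℝ) ≤ Q.mz S := by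
      exact_mod_cast Q.le_mz (mem Q l) (z0 Q)
    rw [Tq.F55.kap_up c fr l, l.ord h] at k1
    push_cast at k1
    linarith
  refine ⟨ψ ^ r, pow_ne_zero _ ψ0, fun R hR => ?_, ?_⟩
  · have := (n R ((m : ℤ) * (δ ⬝ᵥ D R) : ℤ)).1 fun Q l => by
      have k := (x'.sec _ _ φ0).1 hφ' Q (c.up Q R l hR)
      rw [neg_dotProduct, smul_dotProduct, (Tq.F55.ord c l hR).2, smul_eq_mul] at k
      rw [(Tq.F55.ord c l hR).1, Int.cast_one, mul_one, Int.cast_le]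
      omega
    rw [neg_dotProduct, smul_dotProduct, smul_eq_mul, Pl.ord_pow, hr, ← Int.cast_le (R := ℝ)]
    push_cast at this ⊢
    nlinarith [mul_le_mul_of_nonneg_left this r0.le]
  · rw [Pl.ord_pow, hr]
    push_cast
    nlinarith [mul_lt_mul_of_pos_left lt r0]

end E55

open E55 in
/-- **FCE** -/
theorem fce55 : FCE := by
  intro l J n q ε hq hε
  obtain ⟨m, m2, H⟩ := gv (n + 1) q l ε hq hε
  have m3 : 2 ≤ m * J.factorial := m2.trans (Nat.le_mul_of_pos_right _ J.factorial_pos)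
  refine ⟨m * J.factorial, by omega, ?_⟩
  rintro K _ _ u Λ Γ Γ' k N D s a h δ A x ⟨h₀, e₀, e'⟩ e bd lc nef
    ⟨K₁, _, _, _, _, T₁, Z₁, f1, dn, ⟨K', _, _, _, _, k', N', D', s', a', ff', rk, unr, le, x'⟩, ot⟩
  let _ : Algebra K K' := ((algebraMap K₁ K').comp (algebraMap K K₁)).toAlgebra
  have : IsScalarTower ℂ K K' := .of_algebraMap_eq fun c => by
    rw [IsScalarTower.algebraMap_apply ℂ K₁ K', IsScalarTower.algebraMap_apply ℂ K K₁]
    rfl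
  have C : Cov (n + 1) T₁ (Tq.up K' T₁) Z₁ D' (ex k k') :=
    ⟨f1, ff', fun Q P l p => ⟨P, p, l⟩, fun Q ⟨P, p, l⟩ => ⟨P, p, l, (unr P p Q l).1,
      fun e => by rw [ex_dot, funext (unr P p Q l).2]⟩⟩
  have C' : Cd (n + 1) (Tt n u Λ) (Tq.up K' T₁) D D' (ex k k') := ⟨A.ff, ff', fun U hU => by
    obtain ⟨Q, hQ, l, e1, k1⟩ := C.dn U hU
    obtain ⟨P, p, l', e2, k2⟩ := dn Q hQ
    refine ⟨P, p, fun f => (l' f).trans (l _), ?_, fun e => by rw [k1, k2]⟩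
    change U.ord (algebraMap K₁ K' (algebraMap K K₁ P.t)) = 1
    rw [l.ord, e1, e2, one_mul]⟩
  obtain ⟨y, E, hy, hc⟩ := Cb.exists_cn A.ff
  obtain ⟨c, f, ci⟩ := Cg.exists_rel (s := s) (a := a)
  have p0 := pow_ne_zero q e'.1
  have e1 : h = h₀ ^ q * (h / h₀ ^ q) := (mul_div_cancel₀ h p0).symm
  have e2 : δ = (q : ℤ) • e₀ + (δ - (q : ℤ) • e₀) := (add_sub_cancel _ _).symm
  have Y : Dy n q ε u Λ Γ Γ' y D s a h₀ (h / h₀ ^ q) e₀ (δ - (q : ℤ) • e₀) :=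
    ⟨A, ⟨E, hy⟩, hc, x, hc ▸ e', ⟨div_ne_zero e.1 p0, fun P hP => by
      have k1 := e.2 P hP
      have k2 := e'.2 P hP
      rw [Pl.ord_div _ e.1 p0, Pl.ord_pow, sub_dotProduct, smul_dotProduct]
      simp only [dsc, Pi.sub_apply, Pi.smul_apply, Pi.neg_apply, smul_eq_mul] at k1 ⊢
      push_cast at k1 k2 ⊢
      rw [k2]
      linarith⟩, bd, lc, fun η η0 => P283M.Br.klr A A.dn.neg nef η0⟩
  have X := Tpy.dx hq Y ci
  rw [← e1, ← e2] at X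
  refine bak n k _ q _ K u Λ Γ Γ' D s a y _ _ A x ⟨E, hy⟩ hc
    (m3.trans (Nat.le_mul_of_pos_left _ hq)) e fun P o => ?_
  have mo := Tz.mon_ov A x o
  obtain ⟨Q, l, oQ, ap⟩ := ot P fun z hz => by
    by_cases z0 : z = 0
    · rw [z0]; exact zero_mem _
    refine (Pl.ord_nonneg_iff _ z0).1 (Hl.ord_nn mo ((x.sec _ _ z0).2 fun R r => ?_) z0)
    rw [zero_dotProduct, add_zero]
    exact Pl.ord_nonneg_of_mem _ (hz R r)
  have R := ram _ K K₁ (IsScalarTower.toAlgHom ℂ K K₁) y A.ff f1 ⟨E, hy⟩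
  obtain ⟨ψ, ψ0, hψ, lt⟩ := back (y := fun i => algebraMap K K₁ (y i)) (h := algebraMap K K₁ h)
    (δ := δ) (P := Q) C hq (by omega) rk R.1 ((map_ne_zero _).2 e.1) x' fun U lU =>
      H _ _ le K' _ _ _ _ _ _ _ U (pf C' hε.le x'
        ⟨⟨c, f, h₀, _, e₀, _, Y.can, e1, e2, X⟩, mo⟩ (ov C x' lU oQ))
  obtain ⟨χ, χ0, hχ, o2⟩ := ap ψ ψ0 hψ
  obtain ⟨v, v1, v2⟩ := term P ((x.sec _ _ χ0).2 hχ) χ0
  refine ⟨v, v1, (Hl.ld_iff hq (by omega) e.1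
    (Finset.prod_ne_zero_iff.2 fun j _ => pow_ne_zero _ (x.ne j)) P).2 ?_⟩
  have k1 : 1 + kap (fun i => algebraMap K K₁ (y i)) Q =
    Q.ord (algebraMap K K₁ P.t) * (1 + kap y P) := (R.2 Q P l).2.2
  have p1 : (0 : ℝ) < Q.ord (algebraMap K K₁ P.t) := by exact_mod_cast l.e_pos
  have v3 : (P.ord (∏ j, s j ^ v j) : ℝ) ≤ P.ord χ := by exact_mod_cast v2
  rw [l.ord χ] at o2
  have o3 : (Q.ord (algebraMap K K₁ P.t) : ℝ) * P.ord χ ≤ Q.ord ψ := by exact_mod_cast o2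
  rw [k1, l.ord h, Int.cast_mul] at lt
  refine v3.trans_lt (lt_of_mul_lt_mul_left (o3.trans_lt (lt.trans_eq ?_)) p1.le)
  ring

end Vale.Agent.P283R.Uq
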