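import Vale.Agent.P283R.Lx.Cnt

/-!
# P283R, block UQ: the embedding dimension of a quotient by a torus
-/

open Set

noncomputable section

namespace Vale.Agent.P283R.Uq.F32

open Vale.Agent.P283R.Cx

/-- generators `g` with weights `b` such that `1` has all weights -/
theorem emd_of {F : Type} [Field F] [Algebra ℂ F] {N n k E : ℕ} (y : Fin N → F)
    (p : Ideal (Algebra.adjoin ℂ (range y))) (hp : p.IsMaximal) (g : Fin n → F)
    (hg : ∀ j, g j ∈ Algebra.adjoin ℂ (range y)) (b : Fin n → Fin k → ℤ)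
    (h1 : ∀ i, (1 : F) ∈ Sp g b (Pi.single i 1)) (h0 : ∀ j, y j ∈ Sp g b 0) (le : n ≤ k + E) :
    Bx.Emd E _ p := by
  classical
  have fg : (Algebra.adjoin ℂ (range y)).FG := ⟨(finite_range y).toFinset, by simp⟩
  generalize hS : Algebra.adjoin ℂ (range y) = S at p hp hg fg
  have := (Subalgebra.fg_iff_finiteType S).1 fg
  have := Algebra.FiniteType.isNoetherianRing ℂ S
  obtain ⟨χ, hχ⟩ := Lx.C3.chi fg p
  have hc : ∀ x : S, x - χ x • 1 ∈ p := fun x => (hχ _).1 (by simp)
  let Q : Submodule ℂ S := (p * p).restrictScalars ℂ ⊔ ℂ ∙ 1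
  have d1 : Q.mkQ 1 = 0 :=
    (Submodule.Quotient.mk_eq_zero Q).2 (Submodule.mem_sup_right (Submodule.mem_span_singleton_self _))
  have dm : ∀ x y, Q.mkQ (x * y) = χ y • Q.mkQ x + χ x • Q.mkQ y := fun x y => by
    have : Q.mkQ ((x - χ x • 1) * (y - χ y • 1)) = 0 := (Submodule.Quotient.mk_eq_zero Q).2
      (Submodule.mem_sup_left (Ideal.mul_mem_mul (hc x) (hc y)))
    simp only [sub_mul, mul_sub, smul_mul_assoc, mul_smul_comm, one_mul, mul_one, map_sub,
      map_smul, d1, smul_zero, sub_zero, smul_sub] at this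
    rw [sub_sub, sub_eq_zero] at this
    rw [this, add_comm]
  let Θ : (Fin n → ℂ) →ₗ[ℂ] (S ⧸ Q) × (Fin k → ℂ) := Fintype.linearCombination ℂ fun j =>
    (Q.mkQ ⟨g j, hg j⟩, χ ⟨g j, hg j⟩ • fun i => (b j i : ℂ))
  let M : Submonoid (S × Multiplicative (Fin k → ℂ)) :=
    { carrier := {z | (Q.mkQ z.1, χ z.1 • z.2.toAdd) ∈ LinearMap.range Θ}
      one_mem' := by
        show (Q.mkQ 1, χ 1 • (0 : Fin k → ℂ)) ∈ LinearMap.range Θ
        rw [d1, smul_zero]
        exact zero_mem _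
      mul_mem' := fun {z z'} a a' => by
        have := add_mem ((LinearMap.range Θ).smul_mem (χ z'.1) a)
          ((LinearMap.range Θ).smul_mem (χ z.1) a')
        show (Q.mkQ (z.1 * z'.1), χ (z.1 * z'.1) • (z.2.toAdd + z'.2.toAdd)) ∈ LinearMap.range Θ
        rwa [dm, map_mul, smul_add, mul_smul, mul_smul, smul_comm] }
  have key : ∀ m, ∀ x ∈ Sp g b m, ∃ h : x ∈ S,
      (Q.mkQ ⟨x, h⟩, χ ⟨x, h⟩ • fun i => (m i : ℂ)) ∈ LinearMap.range Θ := fun m x hx => by
    induction hx using Submodule.span_induction with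
    | mem x hx =>
      obtain ⟨c, rfl, rfl⟩ := hx
      have := M.prod_mem fun j (_ : j ∈ Finset.univ) => M.pow_mem
        (x := (⟨g j, hg j⟩, .ofAdd fun i => (b j i : ℂ))) ⟨Pi.single j 1, by simp [Θ]⟩ (c j)
      refine ⟨prod_mem fun j _ => pow_mem (hg j) _, ?_⟩
      have e1 : (⟨∏ j, g j ^ c j, prod_mem fun j _ => pow_mem (hg j) _⟩ : S) =
          ∏ j, (⟨g j, hg j⟩ : S) ^ c j := Subtype.ext (by simp)
      have e2 : (fun i => (dg b c i : ℂ)) = ∑ j, c j • fun i => (b j i : ℂ) :=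
        funext fun i => by simp [dg]
      rw [e1, e2]
      simpa [M, Prod.fst_prod, Prod.snd_prod] using this
    | zero => exact ⟨zero_mem _, by
        rw [show (⟨0, zero_mem _⟩ : S) = 0 from rfl, map_zero, map_zero, zero_smul]
        exact zero_mem _⟩
    | add x y _ _ a a' =>
      obtain ⟨h, a⟩ := a
      obtain ⟨h', a'⟩ := a'
      refine ⟨add_mem h h', ?_⟩
      rw [show (⟨x + y, add_mem h h'⟩ : S) = ⟨x, h⟩ + ⟨y, h'⟩ from rfl, map_add, map_add, add_smul]
      exact add_mem a a'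
    | smul c x _ a =>
      obtain ⟨h, a⟩ := a
      refine ⟨S.smul_mem h c, ?_⟩
      rw [show (⟨c • x, S.smul_mem h c⟩ : S) = c • ⟨x, h⟩ from rfl, map_smul, map_smul, smul_eq_mul,
        mul_smul]
      exact Submodule.smul_mem _ c a
  have k0 : ∀ x : S, (Q.mkQ x, (0 : Fin k → ℂ)) ∈ LinearMap.range Θ := fun ⟨x, hx⟩ => by
    subst hS
    induction hx using Algebra.adjoin_induction with
    | mem x hx =>
      obtain ⟨j, rfl⟩ := hx
      obtain ⟨h, a⟩ := key 0 _ (h0 j)
      simpa [← Pi.zero_def] using a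
    | algebraMap r =>
      have : Q.mkQ (r • 1) = 0 := by rw [map_smul, d1, smul_zero]
      rw [← Algebra.algebraMap_eq_smul_one] at this
      exact ⟨0, (map_zero Θ).trans (Prod.ext this.symm rfl)⟩
    | add x y hx hy a a' =>
      have := add_mem a a'
      rw [Prod.mk_add_mk, ← map_add, add_zero] at this
      exact this
    | mul x y hx hy a a' =>
      have := add_mem (Submodule.smul_mem _ (χ ⟨y, hy⟩) a) (Submodule.smul_mem _ (χ ⟨x, hx⟩) a')
      rw [Prod.smul_mk, Prod.smul_mk, Prod.mk_add_mk, ← dm, smul_zero, smul_zero, add_zero] at this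
      exact this
  have su : Function.Surjective Θ := fun ⟨w, v⟩ => by
    obtain ⟨x, rfl⟩ := Q.mkQ_surjective w
    have := add_mem (k0 x) (sum_mem fun i (_ : i ∈ Finset.univ) =>
      Submodule.smul_mem _ (v i) (key _ _ (h1 i)).2)
    simp only [show ∀ h, (⟨1, h⟩ : S) = 1 from fun _ => rfl, d1, map_one, one_smul] at this
    refine (congrArg (· ∈ _) ?_).mp this
    ext i
    · simp [Prod.fst_sum]
    · simp [Prod.snd_sum, Pi.single_apply]
  have := Module.Finite.of_surjective ((LinearMap.fst ℂ _ _).comp Θ)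
    ((Prod.fst_surjective (β := Fin k → ℂ)).comp su)
  have rk := LinearMap.finrank_le_finrank_of_surjective su
  rw [Module.finrank_prod, Module.finrank_fin_fun, Module.finrank_fin_fun] at rk
  obtain ⟨c, rfl⟩ := Nat.exists_eq_add_of_le (show Module.finrank ℂ (S ⧸ Q) ≤ E by omega)
  choose z hz using fun i => Q.mkQ_surjective (Module.finBasis ℂ (S ⧸ Q) i)
  let v : Fin (Module.finrank ℂ (S ⧸ Q) + c) → S := Fin.append (fun i => z i - χ (z i) • 1) 0
  have vp : ∀ j, v j ∈ p := fun j => by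
    induction j using Fin.addCases <;> simp only [v, Fin.append_left, Fin.append_right]
    exacts [hc _, zero_mem _]
  obtain ⟨r, r1, r2⟩ := Submodule.exists_sub_one_mem_and_smul_le_of_fg_of_le_sup (I := p)
    (N := Ideal.span (range v)) (IsNoetherian.noetherian p) le_rfl fun a ha => by
    let w := ∑ i, (Module.finBasis ℂ (S ⧸ Q)).repr (Q.mkQ a) i • v (Fin.castAdd c i)
    have w1 : w ∈ Ideal.span (range v) := sum_mem fun i _ =>
      Submodule.smul_of_tower_mem _ _ (Ideal.subset_span ⟨_, rfl⟩)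
    have w2 : Q.mkQ (a - w) = 0 := by
      simp only [w, v, Fin.append_left, map_sub, map_sum, map_smul, d1, smul_zero, sub_zero, hz]
      rw [Module.Basis.sum_repr, sub_self]
    obtain ⟨q, q1, _, q2, e⟩ := Submodule.mem_sup.1 ((Submodule.Quotient.mk_eq_zero Q).1 w2)
    obtain ⟨γ, rfl⟩ := Submodule.mem_span_singleton.1 q2
    have w3 : χ (γ • 1) = 0 := (hχ _).2 (by
      rw [eq_sub_of_add_eq' e]
      exact sub_mem (sub_mem ha (Ideal.span_le.2 (forall_mem_range.2 vp) w1))
        (Ideal.mul_le_left q1))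
    rw [map_smul, map_one, smul_eq_mul, mul_one] at w3
    rw [w3, zero_smul, add_zero] at e
    rw [eq_add_of_sub_eq' e.symm]
    exact Submodule.add_mem_sup w1 q1
  have r0 : r ∉ p := fun h => hp.ne_top ((Ideal.eq_top_iff_one p).2 (by simpa using sub_mem h r1))
  refine ⟨v, vp, fun a ha => ?_⟩
  obtain ⟨c, e⟩ := Ideal.mem_span_range_iff_exists_fun.1 (r2 (Submodule.smul_mem_pointwise_smul _ r _ ha))
  have r3 : (r : F) ≠ 0 := fun h => r0 ((Subtype.ext h : r = 0) ▸ zero_mem _)
  refine ⟨fun j => c j / r, fun j => ⟨_, _, r0, rfl⟩, ?_⟩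
  have := congrArg Subtype.val e
  push_cast at this
  simp only [div_mul_eq_mul_div, ← Finset.sum_div]
  rw [this, eq_div_iff r3, mul_comm]
  rfl

end Vale.Agent.P283R.Uq.F32
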