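import Vale.Agent.P283R.Uq.Frm3
import Vale.Agent.P283R.Uq.Cot32
import Vale.Agent.P283R.Sq.Full32
import Vale.Agent.P283R.Sq.Chg32
import Vale.Agent.P283R.Sf.Cox12
import Vale.Agent.P283R.Sf.Spa27
import Vale.Agent.P283R.Sl.Sq5

/-!
# P283R, block UQ: the front for few generators and for spherical varieties
-/

open Set CategoryTheory AlgebraicGeometry

noncomputable section

namespace Vale.Agent.P283R.Uq

namespace F32

section

open Vale.Agent.P287D Vale.Agent.P283R.Sl Vale.Agent.P283R.Cx Vale.Agent.P297Z Sg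

/-- the change of the family -/
theorem tier {K : Type} [Field K] [Algebra ℂ K] {d k₀ k N l : ℕ} {T : Set (P287D.Pl K)}
    {D : P287D.Pl K → Fin k₀ → ℤ} {x : P287D.Pl K → K} {e : P287D.Pl K → Fin k₀ → ℤ}
    (h : Fac d T D x e) (gen : GradedGen N (Sg.Sec T D)) (le : N ≤ k₀ + l)
    {E : P287D.Pl K → Fin k → ℤ} (fin : ∀ i, {P | P ∈ T ∧ E P i ≠ 0}.Finite)
    (c : Fin k₀ → Fin k → ℤ) (hc : ∀ P ∈ T, ∀ i, D P i = c i ⬝ᵥ E P) :
    ∃ (N' : ℕ) (s : Fin N' → K) (a : Fin N' → Fin k → ℤ), Cox T E s a ∧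
      ∀ A m, Eb d (l + 1) s a A m := by
  obtain ⟨g1, g2⟩ := Sq.chg h (D' := fun P => Fin.append (E P) (D P)) (Fin.natAdd_injective _ k)
    (fun P _ i => Fin.append_right _ _ i) (fun i => by
      induction i using Fin.addCases with
      | left i => simpa using fin i
      | right i => simpa using h.fin 1 (Pi.single i 1)) gen
  obtain ⟨s, a, cx⟩ := Sf.coxr12 gg27 fct Sf.spa27 K _ _ _ _ _ _ _ g2 g1
  let pr : (Fin (k + k₀) → ℤ) → Fin k → ℤ := fun v =>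
    (fun i => v (Fin.castAdd k₀ i)) + ∑ j, v (Fin.natAdd k j) • c j
  have dt : ∀ v, ∀ P ∈ T, v ⬝ᵥ Fin.append (E P) (D P) = pr v ⬝ᵥ E P := fun v P p => by
    simp only [pr, add_dotProduct, sum_dotProduct, smul_dotProduct, smul_eq_mul, ← hc P p]
    simp [dotProduct, Fin.sum_univ_add]
  have pa : ∀ v v', pr (v + v') = pr v + pr v' := fun v v' => by
    simp only [pr, Pi.add_apply, add_smul, Finset.sum_add_distrib]
    exact add_add_add_comm (fun i => v (Fin.castAdd k₀ i)) (fun i => v' (Fin.castAdd k₀ i)) _ _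
  have p0 : ∀ v, pr (Fin.append v 0) = v := fun v => by simp [pr]
  have pd : ∀ n, dg (fun j => pr (a j)) n = pr (dg a n) := fun n => funext fun i => by
    simp only [pr, dg, Pi.add_apply, Finset.sum_apply, Pi.smul_apply, smul_eq_mul, mul_add,
      Finset.sum_add_distrib, Finset.mul_sum, Finset.sum_mul, mul_assoc]
    rw [Finset.sum_comm]
  have sp : ∀ v, Sp s (fun j => pr (a j)) (pr v) = Sp s a v := fun v =>
    le_antisymm (Submodule.span_le.2 (by
      rintro _ ⟨n, hn, rfl⟩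
      have z : ∏ j, s j ^ n j ≠ 0 := Finset.prod_ne_zero_iff.2 fun j _ => pow_ne_zero _ (cx.ne j)
      refine (cx.sec _ _ z).2 fun P p => ?_
      have := (cx.sec _ _ z).1 (Submodule.subset_span ⟨n, rfl, rfl⟩) P p
      rwa [dt _ P p, ← pd, hn, ← dt _ P p] at this))
      (Submodule.span_mono (image_mono fun n hn => (pd n).trans (congrArg pr hn)))
  refine ⟨_, s, fun j => pr (a j), ⟨cx.ne, fun v φ z => ?_, fun φ v => ?_, fun φ => ?_,
    fun v => ?_⟩, fun A m F _ _ _ _ t p r v w xt o => ?_⟩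
  · rw [← p0 v, sp, cx.sec _ _ z]
    exact forall₂_congr fun P p => by rw [dt _ P p]
  · exact (cx.fin φ (Fin.append v 0)).subset fun P p => ⟨p.1, by rw [dt _ P p.1, p0]; exact p.2⟩
  · obtain ⟨v, b, b1, b', b2, b3⟩ := cx.fr0 φ
    exact ⟨pr v, b, sp v ▸ b1, b', sp v ▸ b2, b3⟩
  · obtain ⟨v', b, b1, b', b2, b3⟩ := cx.fr1 (Fin.append v 0)
    refine ⟨pr v', b, ?_, b', sp v' ▸ b2, b3⟩
    rwa [← sp, pa, p0] at b1
  have t0 := xt.ind.ne_zero
  have tr : ∀ v, ∀ φ ∈ Sp s a v, hm t φ (pr v) ∈ Sp (fun j => hm t (s j) (pr (a j)))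
      (fun j i => a j (Fin.natAdd k i)) fun i => v (Fin.natAdd k i) := fun v φ hφ => by
    induction hφ using Submodule.span_induction with
    | mem x hx =>
      obtain ⟨n, rfl, rfl⟩ := hx
      rw [← pd, hm_prod t0]
      exact Submodule.subset_span ⟨n, rfl, rfl⟩
    | zero => exact hm_zero (K := K) t _ ▸ zero_mem _
    | add x y _ _ a a' => exact hm_add t x y _ ▸ add_mem a a'
    | smul c x _ a => exact hm_smul t c x _ ▸ Submodule.smul_mem _ c a
  refine emd_of _ p o.max _ (fun j => Algebra.subset_adjoin ⟨j, rfl⟩)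
    (fun j i => a j (Fin.natAdd k i)) (fun i => ?_) (fun j => ?_) (by omega)
  · have z : pr (Fin.append (-c i) (Pi.single i 1)) = 0 := by
      simp [pr, Pi.single_apply, ← Pi.neg_def]
    have := tr (Fin.append (-c i) (Pi.single i 1)) 1 ((cx.sec _ _ one_ne_zero).2 fun P p => by
      rw [dt _ P p, z, Pl.ord_one, zero_dotProduct, add_zero])
    rw [z, hm_one] at this
    simpa using this
  · have := tr (Fin.append (pr (a j)) 0) (s j) (by
      rw [← sp, p0, sp]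
      exact Submodule.subset_span ⟨Pi.single j 1, dg_single a j, by simp [Pi.single_apply]⟩)
    rw [p0] at this
    simpa [← Pi.zero_def] using this

end

open Vale.Agent.P283M.Stm Sg.T20 in
theorem cmb {X : Var} {k₀ k : ℕ} {W : X.X.Opens} (D₀ : Fin k₀ → X.PrimeDiv →₀ ℤ)
    (D : Fin k → X.PrimeDiv →₀ ℤ) (ι : X.PrimeDiv → Fin k)
    (h : ∀ i, ∀ E ∈ (D₀ i).support, D (ι E) = .single E 1) : ∀ P ∈ pls W, ∀ i,
      dvs D₀ P i = (∑ E ∈ (D₀ i).support, Pi.single (ι E) (D₀ i E)) ⬝ᵥ dvs D P := by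
  classical
  rintro _ ⟨E, -, rfl⟩ i
  rw [sum_dotProduct]
  simp only [single_dotProduct, dvs, Cox.up_eq _ (Gl.pq_is E).dom]
  rw [Finset.sum_congr rfl fun E' c => by
    rw [h i E' c, Finsupp.single_apply, mul_ite, mul_one, mul_zero], Finset.sum_ite_eq']
  split_ifs with c
  · rfl
  · exact Finsupp.notMem_support_iff.1 c

end F32

open Vale.Agent.P287D Sl Sl.Var Sg Sg.T20 F32

/-- near `w` the divisors `D_1, …, D_k` generate the class group and the ring of their sections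
has at most `k + l` generators -/
def Full (l : ℕ) {Y W : Var} (g : Y.X ⟶ W.X) (w : Pt W.X) : Prop :=
  ∃ (k N : ℕ) (V : W.X.Opens) (D : Fin k → Y.Div), w.In V ∧ N ≤ k + l ∧
    GradedGen N (fun m => sections (pre g V) (comb D m)) ∧
    ∀ E, InSpan (pre g V) D (QDiv.coeff (.single E 1))

/-- **FRF**: few generators -/
theorem frf32 (l : ℕ → ℕ) : FRC (fun d => l d + 2) fun d _ _ g _ w => Full (l d) g w := by
  intro d δ X Z f ω B z hd _ hdim hω _ hf hF _ hz ⟨k₀, N, V, D₀, zV, le, gen, h1⟩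
  classical
  obtain ⟨n, rfl⟩ : ∃ n, d = n + 1 := ⟨d - 1, by omega⟩
  have hK := P283M.Br.ffd X.o _ hdim
  obtain ⟨j, -, fr⟩ := P283M.Br.frm X.o _ hK ω hω
  choose e x x0 hx using h1
  have fc := fac (X := X.o) (W := pre f V) hK fr x0 hx
  have es : (fun m => sections (pre f V) (comb D₀ m)) =
      Sg.Sec (pls (X := X.o) (pre f V)) (dvs (X := X.o) D₀) :=
    funext fun m => Set.ext fun φ => (sec (X := X.o) D₀ m φ).symm
  refine ⟨Finset.univ.biUnion fun i => (D₀ i).support, fun Ω hΩ =>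
    ⟨V, zV, fun W lw hW zW k D k2 _ d2 => ?_⟩⟩
  obtain ⟨x₁, e₁⟩ := hf.2.2.1.surj z
  have sub : pls (X := X.o) (pre f W) ⊆ pls (X := X.o) (pre f V) :=
    image_mono fun E h => lw h
  have g := Sg.shrr Sg.gg27 Sg.fct _ _ _ _ _ (pls (X := X.o) (pre f W)) _ _ _ fc sub
    (((Sg.out X (pre f W) x₁ (show f x₁ ∈ W from e₁ ▸ zW)).image (Gl.pq (X := X.o))).subset (by
      rintro _ ⟨⟨E, -, rfl⟩, c⟩
      exact ⟨E, fun w => c ⟨E, w, rfl⟩, rfl⟩)) (es ▸ gen)
  have : Nonempty (Fin k) := ⟨⟨0, by omega⟩⟩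
  choose! ι hι using d2
  obtain ⟨N', s, a, cx, eb⟩ := tier (l := l (n + 1) + 1) (Sq.fac_mono fc sub) g (by omega)
    (E := dvs (X := X.o) D)
    (fun i => fn (D i).support.finite_toSet fun E a => Finsupp.mem_support_iff.2 fun b =>
      a ((Cox.up_eq _ (Gl.pq_is E).dom).trans b))
    (fun i => ∑ E ∈ (D₀ i).support, Pi.single (ι E) (D₀ i E)) (cmb (X := X.o) D₀ D ι fun i E c =>
      hι E (hΩ (Finset.mem_biUnion.2 ⟨i, Finset.mem_univ i, c⟩)))
  obtain ⟨u, bs⟩ := Sch.basV (X := X.o) (Z := Z.o) hf hz hW zW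
  obtain ⟨m, mx, nz⟩ := Lx.bas0 (X := X.o) (Z := Z.o) hf hz bs
  obtain ⟨m₂, mx₂, h₂⟩ := F3.bas2 (X := X.o) (Z := Z.o) hf hz bs
  have un : ∀ y : Pt X.X, y.map f = z → ∀ x, Lx.Nz _ m x → P283M.Br.UnAt (X := X.o) x y :=
    fun y hy x w =>
    let ⟨W', _, zW', _, k⟩ := nz x w
    (k y (show y.map f ∈ W from hy ▸ zW)).1 (show y.map f ∈ W' from hy ▸ zW')
  obtain rfl : m₂ = m := mx₂.eq_of_le mx.ne_top fun g k => by_contra fun n =>
    h₂ x₁ e₁ g k (un x₁ e₁ g ⟨g.2, n⟩)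
  have rg : ∀ x, x ∈ Algebra.adjoin ℂ (u : Set X.o.K) ↔
      ∀ y : P289.Pt X.o.X, y ∈ f ⁻¹ᵁ W → P283M.Stm.Var.RegAt (V := X.o) x y := fun x =>
    ⟨fun h y hy => P283M.Br.reg_adjoin (fun c hc => bs.reg c hc y hy) h, bs.con x⟩
  refine ⟨N', s, a, _, m₂, cx, fun x => ?_, Subalgebra.fg_adjoin_finset u, mx, rg,
    fun y hy x => ⟨fun w => ⟨w.1, un y hy x w⟩, fun ⟨h, w⟩ => ⟨h, fun k => h₂ y hy _ k w⟩⟩, eb _ _⟩
  refine (rg x).trans ((Sf.S20.rg (X := X.o) (W := pre f W) D).symm.trans ?_)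
  by_cases x0 : x = 0
  · exact ⟨fun _ => x0 ▸ zero_mem _, fun _ c => (c x0).elim⟩
  · exact ⟨fun h => (cx.sec _ _ x0).2 (h x0), fun h _ => (cx.sec _ _ x0).1 h⟩

/-- **FRS**: spherical varieties -/
theorem frs32 : FRC (fun d => ell d + 1 + 2) fun _ _ _ g _ w =>
    ∃ N V, w.In V ∧ IsSpherical N (pre g V) := by
  intro d δ X Z f ω B z hd a hdim b c hf e i hz ⟨N, V, zV, h⟩
  obtain ⟨x₁, e₁⟩ := hf.2.2.1.surj z
  obtain ⟨k, N', D, h1, h2, h3, -⟩ := Sq.full hd (P283M.Br.ffd X.o _ hdim) le_rfl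
    ⟨x₁, show f x₁ ∈ V from e₁ ▸ zV⟩ h
  exact frf32 (fun d => ell d + 1) d δ X Z f ω B z hd a hdim b c hf e i hz
    ⟨k, N', V, D, zV, h1, h2, h3⟩

end Vale.Agent.P283R.Uq
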