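import Vale.Agent.P283R.Uq.St
import Vale.Agent.P283R.Tq.Gl62

/-!
# P283R, block UQ: a subgroup of bounded index fixes the classes
-/

open Set

noncomputable section

namespace Vale.Agent.P283R.Uq

open Vale.Agent.P287D Vale.Agent.P283M Vale.Agent.P283R.Cx
open Vale.Agent.P283R.Lx (Ie)
open Vale.Agent.P283R.Lx.K33 (I2)

namespace G62

variable {L : Type} [Field L] [Algebra ℂ L] {k : ℕ} {T : Set (Pl L)} {D : Pl L → Fin k → ℤ}
  {G : Subgroup (L ≃ₐ[ℂ] L)} {π : Ac L k} {U : (Fin k → ℤ) → L → Prop}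

theorem one (h : Un T D G π U) (e : Fin k → ℤ) : U (e - e) 1 := by
  rw [sub_self]
  exact (h.cst 1).2 ⟨1, one_ne_zero, (map_one _).symm⟩

/-- the degrees of the units -/
def La (h : Un T D G π U) : AddSubgroup (Fin k → ℤ) where
  carrier := {e | ∃ θ, U e θ}
  add_mem' := fun ⟨_, x⟩ ⟨_, y⟩ => ⟨_, h.mul _ _ _ _ x y⟩
  zero_mem' := ⟨1, sub_self (0 : Fin k → ℤ) ▸ one h 0⟩
  neg_mem' := fun ⟨_, x⟩ => ⟨_, h.inv _ _ x⟩

theorem mk_eq (h : Un T D G π U) {e e' : Fin k → ℤ} :
    (e : (Fin k → ℤ) ⧸ La h) = e' ↔ ∃ θ, U (e' - e) θ := by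
  rw [QuotientAddGroup.eq, neg_add_eq_sub]
  rfl

theorem act (h : Un T D G π U) (p : Pm T D G π) : ∃ ρ : G →* AddMonoid.End ((Fin k → ℤ) ⧸ La h),
    ∀ (σ : G) (e : Fin k → ℤ), ρ σ (e : (Fin k → ℤ) ⧸ La h) = π σ e := by
  refine ⟨⟨⟨fun σ => QuotientAddGroup.map _ _ (π σ) fun e ⟨_, x⟩ => ⟨_, h.act σ σ.2 _ _ x⟩, ?_⟩,
    fun τ σ => ?_⟩, fun _ _ => rfl⟩
  · refine QuotientAddGroup.addMonoidHom_ext _ (AddMonoidHom.ext fun e => ?_)
    exact congrArg QuotientAddGroup.mk (p.one e)
  · refine QuotientAddGroup.addMonoidHom_ext _ (AddMonoidHom.ext fun e => ?_)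
    exact congrArg QuotientAddGroup.mk (p.cmp τ τ.2 σ σ.2 e)

end G62

open G62

/-- **GALR** -/
theorem galr62 : GALR := fun act' lam _ d l => ⟨3 ^ (l * l), by
  classical
  intro L _ _ k N T D s a A m J G π U h
  have := h.gp.fin
  have hu := h.un
  obtain ⟨ρ, hρ⟩ := act hu h.pm
  obtain ⟨l1, l2⟩ := lam d l L k N T D s a A m J G π U h
  have sp := h.spn
  have ac := act' d L k N T D s a A m G π U h.toBu
  let c : J → (Fin k → ℤ) ⧸ La hu := fun j => a j.1
  have un : ∀ j ∉ J, ((a j : Fin k → ℤ) : (Fin k → ℤ) ⧸ La hu) = 0 := fun j hj =>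
    (QuotientAddGroup.eq_zero_iff _).2 (h.out j hj)
  have sm : ∀ v : Fin N → ℤ, ((∑ x, v x • a x : Fin k → ℤ) : (Fin k → ℤ) ⧸ La hu) =
      ∑ x : J, v x.1 • c x := fun v => by
    rw [Finset.sum_coe_sort J fun x => v x • ((a x : Fin k → ℤ) : (Fin k → ℤ) ⧸ La hu),
      Finset.sum_subset J.subset_univ fun x _ hx => by rw [un x hx, smul_zero]]
    exact (map_sum (QuotientAddGroup.mk' (La hu)) _ _).trans
      (Finset.sum_congr rfl fun x _ => map_zsmul (QuotientAddGroup.mk' (La hu)) _ _)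
  have hl : Module.finrank ℤ (LinearMap.ker (Fintype.linearCombination ℤ c)) ≤ l := by
    have le : LinearMap.ker (Fintype.linearCombination ℤ c) ≤
        (LinearMap.ker (Fintype.linearCombination ℤ a)).map
          (LinearMap.funLeft ℤ ℤ (Subtype.val : J → Fin N)) := by
      intro μ hμ
      rw [LinearMap.mem_ker, Fintype.linearCombination_apply] at hμ
      let v : Fin N → ℤ := fun x => if hx : x ∈ J then μ ⟨x, hx⟩ else 0
      have hv : ∀ x : J, v x.1 = μ x := fun x => dif_pos x.2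
      obtain ⟨θ, hθ⟩ := (QuotientAddGroup.eq_zero_iff _).1 ((sm v).trans (by simp only [hv, hμ]))
      obtain ⟨u, u1, u2⟩ := (Finsupp.mem_span_image_iff_linearCombination ℤ).1 (l1 _ θ hθ)
      refine ⟨v - u, ?_, funext fun x => ?_⟩
      · rw [SetLike.mem_coe, LinearMap.mem_ker, map_sub, Fintype.linearCombination_apply, ← u2,
          Finsupp.linearCombination_apply,
          Finsupp.sum_fintype u (fun i x => x • a i) fun _ => zero_smul _ _,
          Fintype.linearCombination_apply, sub_self]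
      · have : u x.1 = 0 := by
          by_contra y
          exact (Finsupp.mem_supported ℤ u).1 u1 (Finsupp.mem_support_iff.2 y) x.2
        rw [LinearMap.funLeft_apply, Pi.sub_apply, this, hv, sub_zero]
    refine (Submodule.finrank_mono le).trans ((Submodule.finrank_map_le _ _).trans ?_)
    have c2 := (LinearMap.ker (Fintype.linearCombination ℤ a)).finrank_quotient_add_finrank
    have c4 := h.le
    rw [(Fintype.linearCombination ℤ a).quotKerEquivRange.finrank_eq,
      Fintype.range_linearCombination, l2, finrank_top] at c2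
    simp only [Module.finrank_fintype_fun_eq_card, Fintype.card_fin] at c2
    omega
  obtain ⟨H, -, hi, hf⟩ := Tq.M62.gale ρ c hl
    (fun i j x => by
      by_contra y
      obtain ⟨v, v1, v2⟩ := h.sep i i.2 j j.2 fun e => y (Subtype.ext e)
      exact v2 (x (fun x => v x.1) (by rw [← sm, v1]; rfl)))
    (fun σ i => by
      have r := one hu (π σ (a i))
      obtain ⟨I, η, γ, i1, i2, i3⟩ := sp _ _ ((ac σ σ.2 _ _ _ r _).2.1.1 (h.ie i i.2))
      rcases I.eq_empty_or_nonempty with rfl | ⟨j, hj⟩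
      · rw [Finset.sum_empty, sub_zero, ← (ac σ σ.2 _ _ _ r _).2.2] at i3
        exact absurd (h.min (a i) {i.1} (fun _ => 1) (fun _ => 1) (by simp)
          (fun j hj => by rw [Finset.mem_singleton.1 hj]; exact one hu _) (by simpa using i3) i
          (Finset.mem_singleton_self _)) one_ne_zero
      · exact ⟨⟨j, i1 hj⟩, (hρ σ _).trans ((mk_eq hu).2 ⟨_, i2 j hj⟩).symm⟩)
    (fun σ i j e ⟨i', ne, e'⟩ => by
      by_contra x
      obtain ⟨θ, r⟩ := (mk_eq hu).1 ((hρ σ _).symm.trans e)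
      obtain ⟨θ', r'⟩ := (mk_eq hu).1 e'
      have key : ∀ φ ∈ Ie A m s a (a j), ∃ γ : ℂ, φ - γ • s j ∈ I2 A m s a (a j) := by
        intro φ hφ
        obtain ⟨I, η, γ, i1, i2, i3⟩ := sp _ φ hφ
        have sub : I ⊆ {j.1} := fun y hy => Finset.mem_singleton.2 (by
          by_contra z
          exact x ⟨⟨y, i1 hy⟩, fun w => z (congrArg Subtype.val w),
            (mk_eq hu).2 ⟨_, i2 y hy⟩⟩)
        rcases Finset.subset_singleton_iff.1 sub with rfl | rfl
        · exact ⟨0, by simpa using i3⟩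
        · obtain ⟨b, -, hb⟩ := (hu.cst (η j)).1
            (by simpa using i2 j (Finset.mem_singleton_self _))
          refine ⟨γ j * b, ?_⟩
          rwa [Finset.sum_singleton, hb, mul_comm, ← Algebra.smul_def, smul_smul] at i3
      have n : i'.1 ≠ i.1 := fun w => ne (Subtype.ext w)
      have m1 := h.ie i i.2
      have m2 : s i' * θ' ∈ Ie A m s a (a i) :=
        (ac 1 (one_mem G) _ _ _ (by rwa [h.pm.one]) _).2.1.1 (h.ie i' i'.2)
      obtain ⟨γ₁, k1⟩ := key _ ((ac σ σ.2 _ _ _ r _).2.1.1 m1)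
      obtain ⟨γ₂, k2⟩ := key _ ((ac σ σ.2 _ _ _ r _).2.1.1 m2)
      have ind : ∀ α β : ℂ, α • s i + β • (s i' * θ') ∈ I2 A m s a (a i) → α = 0 ∧ β = 0 := by
        intro α β y
        have := h.min (a i) {i.1, i'.1} (fun z => if z = i.1 then 1 else θ')
          (fun z => if z = i.1 then α else β)
          (by simp [Finset.insert_subset_iff]) (fun z hz => by
            rcases Finset.mem_insert.1 hz with rfl | hz
            · rw [if_pos rfl]; exact one hu _
            · rw [Finset.mem_singleton.1 hz, if_neg n]; exact r')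
          (by rw [Finset.sum_pair n.symm]; simpa [n] using y)
        exact ⟨by simpa using this i (by simp), by simpa [n] using this i' (by simp)⟩
      have a1 := ind γ₂ (-γ₁) ((ac σ σ.2 _ _ _ r _).2.2.2 (by
        have y := Submodule.sub_mem _ (Submodule.smul_mem _ γ₂ k1) (Submodule.smul_mem _ γ₁ k2)
        refine (congrArg (· ∈ I2 A m s a (a j)) ?_).mp y
        rw [map_add, map_smul, map_smul]
        simp only [Algebra.smul_def, map_neg]
        ring))
      have a2 := ind 1 0 ((ac σ σ.2 _ _ _ r _).2.2.2 (by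
        simpa [neg_eq_zero.1 a1.2] using k1))
      exact one_ne_zero a2.1)
  refine ⟨H.map G.subtype, Subgroup.map_subtype_le _, ?_, ?_⟩
  · rwa [Subgroup.relIndex, Subgroup.subgroupOf, Subgroup.comap_map_eq_self_of_injective
      G.subtype_injective]
  · rintro _ ⟨σ, hσ, rfl⟩ e
    refine (mk_eq hu).1 ((hρ σ e).symm.trans ?_)
    obtain ⟨v, rfl⟩ := (Submodule.mem_span_range_iff_exists_fun ℤ).1
      (l2 ▸ Submodule.mem_top : e ∈ Submodule.span ℤ (range a))
    rw [sm, map_sum]
    exact Finset.sum_congr rfl fun x _ => by rw [map_zsmul, hf σ hσ]⟩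

end Vale.Agent.P283R.Uq
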