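import Vale.Agent.P283R.Uq.St

/-!
# P283R, block UQ: the generators of the invariant sections
-/

open Set

noncomputable section

namespace Vale.Agent.P283R.Uq

open Vale.Agent.P287D Vale.Agent.P297Z Vale.Agent.P283R.Cx
open Vale.Agent.P283R.To (mon)
open Vale.Agent.P283R.Tq (Cj Gp cv Ed Ic)
open Vale.Agent.P283R.Tq.I69 (Gr pack cv_dot ed_dot)

namespace I95

variable {L : Type} [Field L] [Algebra ℂ L] {n c r ρ : ℕ} {T : Set (Pl L)} {E : Pl L → Fin n → ℤ}
  {H : Subgroup (L ≃ₐ[ℂ] L)} {γ : L}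

/-- distinguished units of invariant divisors -/
structure Vu (T : Set (Pl L)) (E : Pl L → Fin n → ℤ) (H : Subgroup (L ≃ₐ[ℂ] L))
    (V : (Fin n → ℤ) → L → Prop) : Prop where
  pr : ∀ {u x}, V u x → Tq.Pr T E u x
  mul : ∀ {u u' x y}, V u x → V u' y → V (u + u') (x * y)
  inv : ∀ {u x}, V u x → V (-u) x⁻¹
  one : V 0 1
  smul : ∀ {u x y}, V u x → V u y → ∃ t : ℂ, y = t • x
  sc : ∀ {u x} {t : ℂ}, t ≠ 0 → V u x → V u (t • x)
  act : ∀ σ ∈ H, ∀ {u x}, V u x → V u (σ x)

theorem core [Finite H] (τ : Fin c → L) (b : Fin r → Fin n)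
    {V : (Fin n → ℤ) → L → Prop} (hV : Vu T E H V)
    (hτ : ∀ i, Fix H (τ i) ∧ ∀ P ∈ T, 0 ≤ P.ord (τ i)) (γ0 : γ ≠ 0) (hγ : Fix H γ)
    (hb : ∀ j, ∀ P ∈ T, 0 ≤ E P (b j))
    (gen : ∀ v φ, φ ≠ 0 → (∀ P ∈ T, P.ord γ = 0 → 0 ≤ P.ord φ + v ⬝ᵥ E P) → ∃ m : ℕ,
      γ ^ m * φ ∈ Submodule.span ℂ {x | ∃ (α : Fin c → ℕ) (β : Fin r → ℕ) (η : L),
        V (v - ∑ j, β j • Pi.single (b j) 1) η ∧ x = (∏ i, τ i ^ α i) * η})
    (rk : ∀ (m : ℕ) (v : Fin m → Fin n → ℤ), LinearIndependent ℤ v →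
      (∀ i, ∃ θ, V (v i) θ) → m ≤ ρ) :
    ∃ (N : ℕ) (s : Fin N → L) (a : Fin N → Fin n → ℤ), N ≤ c + r + ρ + 2 ∧ Ic T E H γ s a := by
  classical
  have := Fintype.ofFinite H
  let Λ : Submodule ℤ (Fin n → ℤ) := AddSubgroup.toIntSubmodule
    { carrier := {v | ∃ η, V v η ∧ Fix H η}
      zero_mem' := ⟨1, hV.one, fun σ _ => map_one σ⟩
      add_mem' := fun ⟨x, a, a'⟩ ⟨y, b, b'⟩ =>
        ⟨x * y, hV.mul a b, fun σ h => by rw [map_mul, a' σ h, b' σ h]⟩
      neg_mem' := fun ⟨x, a, a'⟩ => ⟨x⁻¹, hV.inv a, fun σ h => by rw [map_inv₀, a' σ h]⟩ }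
  let B := Module.finBasis ℤ Λ
  have hB : ∀ i : Option (Fin (Module.finrank ℤ Λ)), ∃ η,
      V (i.elim (-∑ j, (B j : Fin n → ℤ)) fun j => B j) η ∧ Fix H η := fun i => by
    cases i with
    | none => exact Λ.neg_mem (Λ.sum_mem fun j _ => (B j).2)
    | some j => exact (B j).2
  choose η hη using hB
  have le := rk _ (fun j => (B j : Fin n → ℤ))
    (B.linearIndependent.map' Λ.subtype Λ.ker_subtype) fun j => ⟨_, (hη (some j)).1⟩
  obtain ⟨s, a, h⟩ := pack (T := T) (E := E) (H := H) (γ := γ)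
    (ι := Fin c ⊕ Fin r ⊕ Option (Option (Fin (Module.finrank ℤ Λ))))
    (Sum.elim (fun i => if τ i = 0 then 1 else τ i) (Sum.elim (fun _ => 1) fun i => i.elim γ⁻¹ η))
    (Sum.elim 0 (Sum.elim (fun j => Pi.single (b j) 1) fun i => i.elim 0 fun i =>
      i.elim (-∑ j, (B j : Fin n → ℤ)) fun j => B j)) (by
      rintro (i | j | _ | i)
      · by_cases z : τ i = 0
        · simp [z, Fix]
        · simpa [z] using ⟨(hτ i).1, fun P hP _ => (hτ i).2 P hP⟩
      · simpa [Fix] using fun P hP _ => hb j P hP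
      · exact ⟨inv_ne_zero γ0, fun σ h => (map_inv₀ σ γ).trans (by rw [hγ σ h]; rfl),
          fun P _ z => by simp [Pl.ord_inv, z]⟩
      · exact ⟨(hV.pr (hη i).1).1, (hη i).2, fun P hP _ => ((hV.pr (hη i).1).2 P hP).ge⟩) (by
      intro M g hM v φ φ0 f hφ
      have un : ∀ u ∈ Λ, ∀ x, V u x → x ∈ M u := fun u hu x hx => by
        let S : AddSubmonoid (Fin n → ℤ) :=
          { carrier := {v | ∃ η, V v η ∧ η ∈ M v}
            zero_mem' := ⟨1, hV.one, g.2⟩
            add_mem' := fun ⟨x, a, a'⟩ ⟨y, b, b'⟩ => ⟨x * y, hV.mul a b, g.1 a' b'⟩ }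
        have s0 : -∑ j, (B j : Fin n → ℤ) ∈ S := ⟨_, (hη none).1, hM (.inr (.inr (some none)))⟩
        have s1 : ∀ j, (B j : Fin n → ℤ) ∈ S := fun j =>
          ⟨_, (hη (some j)).1, hM (.inr (.inr (some (some j))))⟩
        have s2 : ∀ j, -(B j : Fin n → ℤ) ∈ S := fun j => by
          have := S.add_mem s0 (S.sum_mem (t := Finset.univ.erase j) fun j _ => s1 j)
          rwa [← Finset.add_sum_erase _ _ (Finset.mem_univ j), neg_add, neg_add_cancel_right] at this
        have s3 : u ∈ S := by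
          have e := congrArg Subtype.val (B.sum_repr ⟨u, hu⟩)
          rw [Submodule.coe_sum] at e
          refine (show _ = u from e) ▸ S.sum_mem fun j _ => ?_
          obtain ⟨k, z | z⟩ := (B.repr ⟨u, hu⟩ j).eq_nat_or_neg
          · simpa [z] using S.nsmul_mem (s1 j) k
          · simpa [z] using S.nsmul_mem (s2 j) k
        obtain ⟨y, a, a'⟩ := s3
        obtain ⟨t, rfl⟩ := hV.smul a hx
        exact (M u).smul_mem t a'
      let π : L →ₗ[ℂ] L := ∑ σ : H, σ.1.toLinearMap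
      have πa : ∀ x, π x = ∑ σ : H, σ.1 x := fun x => by simp [π]
      have πm : ∀ x y, Fix H x → π (x * y) = x * π y := fun x y h => by
        rw [πa, πa, Finset.mul_sum]
        exact Finset.sum_congr rfl fun σ _ => by rw [map_mul, h σ σ.2]
      have πf : ∀ x, Fix H (π x) := fun x σ h => by
        rw [πa, map_sum]
        exact Fintype.sum_equiv (Equiv.mulLeft ⟨σ, h⟩) _ _ fun _ => rfl
      have πu : ∀ u x, V u x → π x ∈ M u := fun u x hx => by
        have k : ∀ σ : H, ∃ t : ℂ, σ.1 x = t • x := fun σ => hV.smul hx (hV.act σ σ.2 hx)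
        choose t ht using k
        have e : π x = (∑ σ, t σ) • x := by rw [πa, Finset.sum_smul]; simp only [ht]
        by_cases z : ∑ σ, t σ = 0
        · rw [e, z, zero_smul]
          exact zero_mem _
        have p : V u (π x) := e ▸ hV.sc z hx
        exact un u ⟨_, p, πf x⟩ _ p
      obtain ⟨m, hm⟩ := gen v φ φ0 hφ
      have k : π (γ ^ m * φ) ∈ M v := by
        refine Submodule.span_le (p := (M v).comap π).2 ?_ hm
        rintro _ ⟨α, β, x, hx, rfl⟩
        have k1 : ∏ i, τ i ^ α i ∈ M 0 := by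
          simpa using Lx.G3.prod_mem g.1 g.2 Finset.univ fun i => g.pw (x := τ i) (u := 0) (by
            have := hM (.inl i)
            by_cases z : τ i = 0
            · exact z ▸ zero_mem _
            · simpa [z] using this) (α i)
        have k2 := Lx.G3.prod_mem g.1 g.2 Finset.univ fun j => g.pw (hM (.inr (.inl j))) (β j)
        have := g.1 (g.1 k1 (πu _ x hx)) k2
        change π _ ∈ M v
        rw [πm _ _ fun σ h => by simp only [map_prod, map_pow, (hτ _).1 σ h]]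
        simpa using this
      have e : π (γ ^ m * φ) = (Fintype.card H : ℂ) • (γ ^ m * φ) := by
        rw [πa, Finset.sum_congr rfl fun σ _ => by rw [map_mul, map_pow, hγ σ σ.2, f σ σ.2]]
        simp [Nat.cast_smul_eq_nsmul]
      rw [e, Submodule.smul_mem_iff _ (Nat.cast_ne_zero.2 Fintype.card_ne_zero)] at k
      have := g.1 (g.pw (hM (.inr (.inr none))) m) k
      simpa [γ0] using this)
  exact ⟨_, s, a, by simp; omega, h⟩

variable {k : ℕ} {D : Pl L → Fin k → ℤ} {π : Ac L k} {U : (Fin k → ℤ) → L → Prop}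

theorem u_one (h : Un T D H π U) : U 0 1 := (h.cst 1).2 ⟨1, one_ne_zero, (map_one _).symm⟩

theorem u_pow (h : Un T D H π U) {e : Fin k → ℤ} {θ : L} (a : U e θ) (m : ℤ) :
    U (m • e) (θ ^ m) := by
  have : ∀ m : ℕ, U ((m : ℤ) • e) (θ ^ m) := fun m => by
    induction m with
    | zero => simpa using u_one h
    | succ m ih => simpa only [Nat.cast_succ, add_smul, one_smul, pow_succ] using h.mul _ _ _ _ ih a
  obtain ⟨m, rfl | rfl⟩ := m.eq_nat_or_neg
  · simpa using this m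
  · simpa using h.inv _ _ (this m)

theorem u_mon (h : Un T D H π U) {w : Fin n → Fin k → ℤ} {θ : Fin n → L} (a : ∀ i, U (w i) (θ i))
    (v : Fin n → ℤ) : U (cv w v) (mon θ v) := by
  have : ∀ S : Finset (Fin n), U (∑ i ∈ S, v i • w i) (∏ i ∈ S, θ i ^ v i) := fun S => by
    induction S using Finset.induction_on with
    | empty => simpa using u_one h
    | insert i S hi ih =>
      rw [Finset.sum_insert hi, Finset.prod_insert hi]
      exact h.mul _ _ _ _ (u_pow h (a i) _) ih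
  exact this _

theorem cv_add (w : Fin n → Fin k → ℤ) (u v : Fin n → ℤ) : cv w (u + v) = cv w u + cv w v := by
  simp [cv, add_smul, Finset.sum_add_distrib]

theorem cv_neg (w : Fin n → Fin k → ℤ) (u : Fin n → ℤ) : cv w (-u) = -cv w u := by simp [cv]

theorem vu (h : Un T D H π U) {w : Fin n → Fin k → ℤ} {ξ : Fin n → L}
    (g : ∀ i, Eg U π H (w i) (ξ i)) :
    Vu T (Ed D ξ w) H fun u x => U (cv w u) (x * mon ξ u) := by
  have ξ0 : ∀ i, ξ i ≠ 0 := fun i => (g i).1
  have m0 := To.mon_ne ξ0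
  refine ⟨fun {u x} a => ?_, fun {u u' x y} a b => ?_, fun {u x} a => ?_, ?_,
    fun {u x y} a b => ?_, fun {u x t} t0 a => ?_, fun σ hσ {u x} a => ?_⟩
  · obtain ⟨a0, a1⟩ := h.pr _ _ a
    refine ⟨left_ne_zero_of_mul a0, fun P hP => ?_⟩
    rw [ed_dot ξ0, ← add_assoc, ← Pl.ord_mul _ (left_ne_zero_of_mul a0) (m0 u)]
    exact a1 P hP
  · have := h.mul _ _ _ _ a b
    rwa [mul_mul_mul_comm, ← To.mon_add ξ0, ← cv_add] at this
  · have := h.inv _ _ a
    rwa [mul_inv, ← cv_neg, show (mon ξ u)⁻¹ = mon ξ (-u) by simp [mon]] at this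
  · simpa [cv, mon] using u_one h
  · have := h.mul _ _ _ _ b (h.inv _ _ a)
    rw [add_neg_cancel] at this
    obtain ⟨t, -, e⟩ := (h.cst _).1 this
    have x0 := left_ne_zero_of_mul (h.pr _ _ a).1
    refine ⟨t, ?_⟩
    rw [Algebra.smul_def, ← e]
    have := m0 u
    field_simp
  · have := h.mul _ _ _ _ ((h.cst _).2 ⟨t, t0, rfl⟩) a
    rwa [zero_add, ← mul_assoc, ← Algebra.smul_def] at this
  · choose θ h1 h2 using fun i => (g i).2 σ hσ
    have := h.mul _ _ _ _ (h.act σ hσ _ _ a) (u_mon h h1 u)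
    have e1 : π σ (cv w u) + cv (fun i => w i - π σ (w i)) u = cv w u := by
      simp only [cv, map_sum, map_zsmul, smul_sub, Finset.sum_sub_distrib, add_sub_cancel]
    have e2 : σ (mon ξ u) * mon θ u = mon ξ u := by
      simp only [mon, map_prod, map_zpow₀, ← Finset.prod_mul_distrib, ← mul_zpow, h2]
    rwa [e1, map_mul, mul_assoc, e2] at this

end I95

open I95 in
/-- **ICX** -/
theorem icx95 : ICX := by
  intro d L _ _ k N T D s a A m H π U pd c k₀ r ρ τ γ ζ w z w' hτ γA γ0 γf hζ hz gen rk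
  have := pd.gp.fin
  have nn : ∀ x ∈ A, ∀ P ∈ T, 0 ≤ P.ord x := fun x hx P hP => by
    by_cases x0 : x = 0
    · simp [x0]
    · simpa using (pd.cox.sec 0 x x0).1 ((pd.zero x).1 hx) P hP
  have inv : ∀ i, Eg U π H (Fin.append w w' i) (Fin.append ζ z i) := fun i => by
    induction i using Fin.addCases with
    | left i => simpa using hζ i
    | right j => simpa using (hz j).2
  have ξ0 : ∀ i, Fin.append ζ z i ≠ 0 := fun i => (inv i).1
  have m0 := To.mon_ne ξ0
  refine I95.core τ (Fin.natAdd k₀) (vu pd.un inv)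
    (fun i => ⟨(hτ i).2, nn _ (hτ i).1⟩) γ0 γf (fun j P hP => ?_) (fun v φ φ0 h => ?_)
    fun n v li h => rk n v li fun i => ⟨_, (h i).choose_spec⟩
  · simpa [Ed] using (pd.cox.sec _ _ (hz j).2.1).1 (hz j).1 P hP
  · have ψ0 := mul_ne_zero φ0 (m0 v)
    obtain ⟨b, hb⟩ := ((pd.cox.fin (φ * mon (Fin.append ζ z) v) (cv (Fin.append w w') v)).image
      fun P => (P.ord (φ * mon (Fin.append ζ z) v) + cv (Fin.append w w') v ⬝ᵥ D P).natAbs).bddAbove
    obtain ⟨n, hn⟩ := gen _ _ ((pd.cox.sec (cv (Fin.append w w') v) _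
      (mul_ne_zero (pow_ne_zero b γ0) ψ0)).2 fun P hP => by
        rw [Pl.ord_mul _ (pow_ne_zero b γ0) ψ0, Pl.ord_pow, add_assoc]
        have h1 := nn γ γA P hP
        by_cases o : P.ord γ = 0
        · have := h P hP o
          rw [ed_dot ξ0, ← add_assoc, ← Pl.ord_mul _ φ0 (m0 v)] at this
          simpa [o] using this
        · have h2 : (b : ℤ) ≤ b * P.ord γ := le_mul_of_one_le_right (by omega) (by omega)
          by_cases y : P.ord (φ * mon (Fin.append ζ z) v) + cv (Fin.append w w') v ⬝ᵥ D P = 0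
          · omega
          · have := hb ⟨P, ⟨hP, y⟩, rfl⟩
            dsimp only at this
            omega)
    refine ⟨n + b, ?_⟩
    have := Submodule.span_le (p := Submodule.comap (LinearMap.mulRight ℂ
      (mon (Fin.append ζ z) v)⁻¹) (Submodule.span ℂ {x | ∃ (α : Fin c → ℕ) (β : Fin r → ℕ) (η : L),
        U (cv (Fin.append w w') (v - ∑ j, β j • Pi.single (Fin.natAdd k₀ j) 1))
          (η * mon (Fin.append ζ z) (v - ∑ j, β j • Pi.single (Fin.natAdd k₀ j) 1)) ∧
          x = (∏ i, τ i ^ α i) * η})).2 (by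
      rintro _ ⟨α, β, θ, hθ, rfl⟩
      have e0 : ∑ j, β j • Pi.single (Fin.natAdd k₀ j) (1 : ℤ) =
          Fin.append (0 : Fin k₀ → ℤ) fun j => (β j : ℤ) := funext fun i => by
        refine Fin.addCases (fun i => ?_) (fun i => ?_) i
        · simp [Finset.sum_apply, Fin.ext_iff, show ∀ x : Fin r, (i : ℕ) ≠ k₀ + x
            from fun x => by omega]
        · simp [Finset.sum_apply, Pi.single_apply]
      refine Submodule.subset_span ⟨α, β, (∏ j, z j ^ β j) * θ * (mon (Fin.append ζ z) v)⁻¹,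
        ?_, by simp [mul_assoc]⟩
      have e1 : mon (Fin.append ζ z) (-Fin.append (0 : Fin k₀ → ℤ) fun j => (β j : ℤ)) =
          (∏ j, z j ^ β j)⁻¹ := by simp [mon, Fin.prod_univ_add]
      have e2 : cv (Fin.append w w') (Fin.append (0 : Fin k₀ → ℤ) fun j => (β j : ℤ)) =
          cv w' fun j => β j := by simp [cv, Fin.sum_univ_add]
      have z1 : ∏ j, z j ^ β j ≠ 0 :=
        Finset.prod_ne_zero_iff.2 fun j _ => pow_ne_zero _ (hz j).2.1
      have := m0 v
      rw [e0, sub_eq_add_neg, To.mon_add ξ0, e1, cv_add, cv_neg, e2, ← sub_eq_add_neg]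
      convert hθ using 1
      field_simp) hn
    rwa [Submodule.mem_comap, LinearMap.mulRight_apply, ← mul_assoc, ← mul_assoc, ← pow_add,
      mul_inv_cancel_right₀ (m0 v)] at this

end Vale.Agent.P283R.Uq
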