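import Vale.Agent.P283R.Uq.Kxs93

/-!
# P283R, block UQ: the ring upstairs is approximated by the ring downstairs
-/

open Set

noncomputable section

namespace Vale.Agent.P283R.Uq

open Vale.Agent.P283R.Lx (Nz)

namespace D59

variable {A B : Type} [CommRing A] [CommRing B] [Algebra ℂ A] [Algebra ℂ B]

/-- successive approximation -/
theorem apx (φ : A →ₐ[ℂ] B) (m' : Ideal B) (res : ∀ b : B, ∃ c : ℂ, b - algebraMap ℂ B c ∈ m')
    (h : m' ≤ (m'.comap φ).map φ ⊔ m' ^ 2) (n : ℕ) (μ : B) : ∃ x, μ - φ x ∈ m' ^ n := by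
  have le : (m'.comap φ).map φ ≤ m' := Ideal.map_comap_le
  have k : ∀ n : ℕ, m' ≤ (m'.comap φ).map φ ⊔ m' ^ (n + 1) := fun n => by
    induction n with
    | zero => simp
    | succ n i =>
      refine h.trans (sup_le le_sup_left ?_)
      rw [sq]
      refine (Ideal.mul_mono_left i).trans ?_
      rw [Ideal.sup_mul, ← pow_succ]
      exact sup_le_sup_right Ideal.mul_le_left _
  induction n generalizing μ with
  | zero => exact ⟨0, by simp⟩
  | succ n i =>
    obtain ⟨c, hc⟩ := res μ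
    obtain ⟨j, hj, ν, hν, e⟩ := Submodule.mem_sup.1 (k n hc)
    have : ∀ b : B, ∃ x, b * j - φ x ∈ m' ^ (n + 1) := by
      clear e
      induction hj using Submodule.span_induction with
      | mem y hy =>
        obtain ⟨a, ha, rfl⟩ := hy
        intro b
        obtain ⟨x, hx⟩ := i b
        refine ⟨x * a, ?_⟩
        rw [map_mul, ← sub_mul, pow_succ]
        exact Ideal.mul_mem_mul hx ha
      | zero => exact fun b => ⟨0, by simp⟩
      | add y z _ _ hy hz =>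
        intro b
        obtain ⟨x, hx⟩ := hy b
        obtain ⟨x', hx'⟩ := hz b
        exact ⟨x + x', by convert add_mem hx hx' using 1; rw [map_add]; ring⟩
      | smul a y _ hy => exact fun b => by simpa [mul_assoc] using hy (b * a)
    obtain ⟨x, hx⟩ := this 1
    refine ⟨algebraMap ℂ A c + x, ?_⟩
    convert add_mem hx hν using 1
    rw [map_add, φ.commutes]
    linear_combination -e

/-- a root of a fraction -/
theorem root (φ : A →ₐ[ℂ] B) (m' : Ideal B) [hm : m'.IsPrime]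
    (res : ∀ b : B, ∃ c : ℂ, b - algebraMap ℂ B c ∈ m') {g : B} {N : ℕ} {t x : A} (N0 : 0 < N)
    (ht : φ t ∉ m') (hx : N = 1 ∨ φ x ∉ m') (e : g ^ N * φ t = φ x) :
    ∃ c : ℂ, g - algebraMap ℂ B c ∈ (m'.comap φ).map φ ⊔ m' ^ 2 := by
  obtain ⟨c, hc⟩ := res g
  refine ⟨c, ?_⟩
  let u := ∑ i ∈ Finset.range N, g ^ i * algebraMap ℂ B c ^ (N - 1 - i)
  have e1 : u * (g - algebraMap ℂ B c) = g ^ N - algebraMap ℂ B c ^ N :=
    (Commute.all _ _).geom_sum₂_mul N
  have m1 : (u * φ t) * (g - algebraMap ℂ B c) ∈ (m'.comap φ).map φ := by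
    have : (u * φ t) * (g - algebraMap ℂ B c) = φ (x - algebraMap ℂ A (c ^ N) * t) := by
      rw [map_sub, map_mul, φ.commutes, map_pow, ← e]
      linear_combination φ t * e1
    rw [this]
    refine Ideal.mem_map_of_mem _ ?_
    rw [Ideal.mem_comap, ← this]
    exact m'.mul_mem_left _ hc
  have q : Ideal.Quotient.mk m' g = Ideal.Quotient.mk m' (algebraMap ℂ B c) :=
    Ideal.Quotient.eq.2 hc
  have nu : u * φ t ∉ m' := fun z => (hm.mem_or_mem z).elim (fun z => by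
    rw [← Ideal.Quotient.eq_zero_iff_mem] at z
    simp only [u, map_sum, map_mul, map_pow, q] at z
    rw [Finset.sum_congr rfl (g := fun _ => Ideal.Quotient.mk m' (algebraMap ℂ B c) ^ (N - 1))
      fun i hi => by rw [← pow_add]; congr 1; have := Finset.mem_range.1 hi; omega] at z
    rw [Finset.sum_const, Finset.card_range, nsmul_eq_mul] at z
    have : CharZero (B ⧸ m') := charZero_of_injective_algebraMap (algebraMap ℂ (B ⧸ m')).injective
    rcases mul_eq_zero.1 z with z | z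
    · exact N0.ne' (Nat.cast_eq_zero.1 z)
    · rcases hx with rfl | hx
      · simp at z
      · refine hx ?_
        rw [← e, ← Ideal.Quotient.eq_zero_iff_mem, map_mul, map_pow, q,
          pow_eq_zero_of_le (Nat.sub_le N 1) z, zero_mul]) ht
  obtain ⟨c', hc'⟩ := res (u * φ t)
  have c0 : c' ≠ 0 := fun z => nu (by simpa [z] using hc')
  have m2 := Submodule.sub_mem _ (Submodule.mem_sup_left (T := m' ^ 2) m1)
    (Submodule.mem_sup_right (sq m' ▸ Ideal.mul_mem_mul hc' hc))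
  convert Ideal.mul_mem_left _ (algebraMap ℂ B c'⁻¹) m2 using 1
  rw [← sub_mul, sub_sub_cancel, ← mul_assoc, ← map_mul, inv_mul_cancel₀ c0, map_one, one_mul]

end D59

variable {L L' : Type} [Field L] [Algebra ℂ L] [Field L'] [Algebra ℂ L'] [Algebra L L']
  [IsScalarTower ℂ L L'] {A : Subalgebra ℂ L} {m : Ideal A} {A' : Subalgebra ℂ L'} {m' : Ideal A'}

/-- the clause `den` -/
theorem den59 (res : ∀ μ : A', ∃ z : ℂ, μ - algebraMap ℂ A' z ∈ m') (hm : m'.IsMaximal)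
    (nz : ∀ x ∈ A, algebraMap L L' x ∈ A' ∧ (Nz A m x ↔ Nz A' m' (algebraMap L L' x)))
    (hA : ∀ μ ∈ A', μ ∈ Algebra.adjoin ℂ {g | g ∈ A' ∧ ∃ N : ℕ, 0 < N ∧ ∃ t x, Nz A m t ∧ x ∈ A ∧
      (N = 1 ∨ Nz A m x) ∧ g ^ N * algebraMap L L' t = algebraMap L L' x})
    (n : ℕ) (μ : A') : ∃ x ∈ A, ∃ ν ∈ m' ^ n, (μ : L') = algebraMap L L' x + ν := by
  let φ : A →ₐ[ℂ] A' := ((IsScalarTower.toAlgHom ℂ L L').comp A.val).codRestrict A'
    fun x => (nz x x.2).1
  have z : ∀ {x} (h : Nz A m x), φ ⟨x, h.1⟩ ∉ m' := fun {x} h => ((nz x h.1).2.1 h).2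
  have k : ∀ g (hg : g ∈ A'), ∃ c : ℂ,
      (⟨g, hg⟩ : A') - algebraMap ℂ A' c ∈ (m'.comap φ).map φ ⊔ m' ^ 2 := fun g hg => by
    have := hA g hg
    suffices ∃ h : g ∈ A', ∃ c : ℂ,
      (⟨g, h⟩ : A') - algebraMap ℂ A' c ∈ (m'.comap φ).map φ ⊔ m' ^ 2 from this.2
    clear hg
    induction this using Algebra.adjoin_induction with
    | mem g h =>
      obtain ⟨h, N, N0, t, x, ht, hx, o, e⟩ := h
      exact ⟨h, D59.root φ m' res (x := ⟨x, hx⟩) N0 (z ht) (o.imp_right z) (Subtype.ext e)⟩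
    | algebraMap c => exact ⟨A'.algebraMap_mem c, c,
        (sub_self (algebraMap ℂ A' c)).symm ▸ Ideal.zero_mem _⟩
    | add x y _ _ hx hy =>
      obtain ⟨h, c, hc⟩ := hx
      obtain ⟨h', c', hc'⟩ := hy
      refine ⟨add_mem h h', c + c', ?_⟩
      convert add_mem hc hc' using 1
      rw [map_add]
      exact (add_sub_add_comm (⟨x, h⟩ : A') ⟨y, h'⟩ _ _)
    | mul x y _ _ hx hy =>
      obtain ⟨h, c, hc⟩ := hx
      obtain ⟨h', c', hc'⟩ := hy
      refine ⟨mul_mem h h', c * c', ?_⟩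
      convert add_mem (Ideal.mul_mem_right ⟨y, h'⟩ _ hc)
        (Ideal.mul_mem_left _ (algebraMap ℂ A' c) hc') using 1
      rw [map_mul]
      show (⟨x, h⟩ : A') * ⟨y, h'⟩ - _ = _
      ring
  obtain ⟨x, hx⟩ := D59.apx φ m' res (fun g hg => by
    obtain ⟨c, hc⟩ := k g g.2
    have le : (m'.comap φ).map φ ⊔ m' ^ 2 ≤ m' :=
      sup_le Ideal.map_comap_le (Ideal.pow_le_self two_ne_zero)
    have : algebraMap ℂ A' c ∈ m' := by simpa using sub_mem hg (le hc)
    rcases eq_or_ne c 0 with rfl | c0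
    · simpa using hc
    · exact (hm.ne_top (m'.eq_top_of_isUnit_mem this (c0.isUnit.map _))).elim) n μ
  exact ⟨x, x.2, _, hx, (add_sub_cancel (algebraMap L L' x) (μ : L')).symm⟩

/-- **DNS** -/
theorem dns59 : DNS := by
  intro L F _ _ _ _ _ _ A m A' γ S n _ hm hγ n0 hS e m' hm' nz res
  have sub : ∀ g ∈ insert (algebraMap L F γ⁻¹) (algebraMap L F '' A ∪ S), g ∈ A' := fun g hg =>
    e ▸ Algebra.subset_adjoin hg
  have one : Nz A m 1 := ⟨one_mem _, fun h => hm.ne_top ((Ideal.eq_top_iff_one _).2 h)⟩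
  have γ0 : γ ≠ 0 := by
    rintro rfl
    exact hγ.2 (zero_mem m)
  refine den59 res hm' (fun x hx => ⟨sub _ (.inr (.inl ⟨x, hx, rfl⟩)), nz x hx⟩) fun μ hμ => ?_
  refine Algebra.adjoin_mono (fun g hg => And.intro (sub g hg) ?_) (e ▸ hμ)
  rcases hg with rfl | ⟨x, hx, rfl⟩ | hg
  · exact ⟨1, one_pos, γ, 1, hγ, one_mem _, .inl rfl, by
      rw [pow_one, ← map_mul, inv_mul_cancel₀ γ0]⟩
  · exact ⟨1, one_pos, 1, x, one, hx, .inl rfl, by rw [pow_one, map_one, mul_one]⟩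
  · obtain ⟨x, ν, h1, h2⟩ := hS g hg
    exact ⟨n, n0, γ ^ ν, γ ^ ν * x, ⟨pow_mem hγ.1 ν, fun h => hγ.2 (hm.isPrime.mem_of_pow_mem ν h)⟩,
      h1.1, .inr h1, by rw [h2, ← map_mul, mul_comm]⟩

end Vale.Agent.P283R.Uq
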