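import Vale.Agent.P283R.Uq.Kxs93

/-!
# P283R, block UQ: a point over the point
-/

open Set

noncomputable section

namespace Vale.Agent.P283R.Uq

open Vale.Agent.P283R.Lx (Nz)

/-- **PTS** -/
theorem pts17 : PTS := by
  intro L F _ _ _ _ _ _ A m A' γ S n hA hm hγ hn hS hA'
  have := (Subalgebra.fg_iff_finiteType A).1 hA
  let φ : A →+* F := (algebraMap L F).comp A.val.toRingHom
  have hb : Function.Bijective φ.rangeRestrict :=
    ⟨fun x y h => Subtype.ext ((algebraMap L F).injective (congrArg Subtype.val h)),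
      φ.rangeRestrict_surjective⟩
  obtain ⟨V, hV, hV'⟩ := Ideal.image_subset_nonunits_valuationSubring (m.map φ.rangeRestrict)
    (fun h => hm.ne_top ((Ideal.map_eq_top_of_bijective _ hb).1 h))
  have h1 : ∀ x ∈ A, algebraMap L F x ∈ V := fun x hx => hV ⟨⟨x, hx⟩, rfl⟩
  let ψ : A →+* V := φ.codRestrict V fun x => h1 x x.2
  have h2 : m = (IsLocalRing.maximalIdeal V).comap ψ :=
    hm.eq_of_le (Ideal.comap_ne_top _ (IsLocalRing.maximalIdeal.isMaximal V).ne_top) fun x hx =>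
      V.coe_mem_nonunits_iff.1 (hV' ⟨_, Ideal.mem_map_of_mem _ hx, rfl⟩)
  have h3 : ∀ x : A, x ∈ m ↔ algebraMap L F x ∈ V.nonunits := fun x => by
    rw [h2]
    exact (V.coe_mem_nonunits_iff (a := ψ x)).symm
  obtain ⟨hγ, hγ'⟩ := hγ
  have h4 := mt (h3 _).2 hγ'
  rw [V.mem_nonunits_iff_or, not_or, not_not, ← map_inv₀] at h4
  have γ0 : γ ≠ 0 := fun h => h4.1 (by simp [h])
  have h5 : ∀ (x : L) (ν : ℕ), algebraMap L F x =
      algebraMap L F (γ ^ ν * x) * algebraMap L F γ⁻¹ ^ ν := fun x ν => by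
    rw [← map_pow, ← map_mul, mul_right_comm, ← mul_pow, mul_inv_cancel₀ γ0, one_pow, one_mul]
  let W : Subalgebra ℂ F :=
    { V.toSubring.toSubsemiring with
      algebraMap_mem' := fun z => by
        rw [IsScalarTower.algebraMap_apply ℂ L F]
        exact h1 _ (A.algebraMap_mem z) }
  have h6 : A' ≤ W := by
    rw [hA']
    refine Algebra.adjoin_le ?_
    rintro _ (rfl | ⟨x, hx, rfl⟩ | hβ)
    · exact h4.2
    · exact h1 x hx
    · obtain ⟨x, ν, ⟨hx, -⟩, e⟩ := hS _ hβ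
      have := (V.valuation_le_one_iff _).2 (V.mul_mem _ _ (h1 _ hx) (pow_mem h4.2 ν))
      rw [← h5, ← e, map_pow, pow_le_one_iff hn.ne'] at this
      exact (V.valuation_le_one_iff _).1 this
  let ψ' : A' →+* V := A'.val.toRingHom.codRestrict V fun x => h6 x.2
  let m' : Ideal A' := (IsLocalRing.maximalIdeal V).comap ψ'
  have h7 : ∀ x : A', x ∈ m' ↔ (x : F) ∈ V.nonunits := fun x =>
    (V.coe_mem_nonunits_iff (a := ψ' x)).symm
  have h8 : ∀ x ∈ A, algebraMap L F x ∈ A' := fun x hx =>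
    hA' ▸ Algebra.subset_adjoin (Or.inr (Or.inl ⟨x, hx, rfl⟩))
  have h9 : algebraMap L F γ⁻¹ ∈ A' := hA' ▸ Algebra.subset_adjoin (Or.inl rfl)
  have hp : m'.IsPrime := Ideal.comap_isPrime _ _
  have g1 : ∀ (x : L) (hx : x ∈ A), ∃ z : ℂ,
      Ideal.Quotient.mk m' ⟨_, h8 x hx⟩ = algebraMap ℂ _ z := fun x hx => by
    obtain ⟨z, hz⟩ := Lx.O15.val m ⟨x, hx⟩
    refine ⟨z, (Ideal.Quotient.eq (y := algebraMap ℂ A' z)).2 ((h7 _).2 ?_)⟩
    have := (h3 _).1 hz
    simpa [← IsScalarTower.algebraMap_apply] using this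
  have g2 : IsIntegral ℂ (Ideal.Quotient.mk m' ⟨_, h9⟩) := by
    obtain ⟨z, hz⟩ := g1 γ hγ
    have e : Ideal.Quotient.mk m' ⟨_, h9⟩ * algebraMap ℂ _ z = 1 := by
      rw [← hz, ← map_mul, ← map_one (Ideal.Quotient.mk m')]
      congr 1
      ext
      simp [γ0]
    have z0 : z ≠ 0 := by
      rintro rfl
      simp at e
    have : Ideal.Quotient.mk m' ⟨_, h9⟩ = algebraMap ℂ _ z⁻¹ := by
      rw [← one_mul (algebraMap ℂ _ z⁻¹), ← e, mul_assoc, ← map_mul, mul_inv_cancel₀ z0, map_one,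
        mul_one]
    exact this ▸ isIntegral_algebraMap
  have g3 : ∀ (x : L) (hx : x ∈ A), IsIntegral ℂ (Ideal.Quotient.mk m' ⟨_, h8 x hx⟩) :=
    fun x hx => (g1 x hx).elim fun _ h => h ▸ isIntegral_algebraMap
  have g4 : ∀ x ∈ Algebra.adjoin ℂ (insert (algebraMap L F γ⁻¹) (algebraMap L F '' A ∪ S)),
      ∀ hx : x ∈ A', IsIntegral ℂ (Ideal.Quotient.mk m' ⟨x, hx⟩) := fun x hx => by
    induction hx using Algebra.adjoin_induction with
    | mem x hx =>
      intro hx'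
      obtain rfl | ⟨x, hx, rfl⟩ | hβ := hx
      · exact g2
      · exact g3 x hx
      · obtain ⟨y, ν, ⟨hy, -⟩, e⟩ := hS _ hβ
        refine IsIntegral.of_pow hn ?_
        have : Ideal.Quotient.mk m' ⟨x, hx'⟩ ^ n =
            Ideal.Quotient.mk m' ⟨_, h8 _ hy⟩ * Ideal.Quotient.mk m' ⟨_, h9⟩ ^ ν := by
          rw [← map_pow, ← map_pow, ← map_mul]
          exact congrArg _ (Subtype.ext (e.trans (h5 y ν)))
        exact this ▸ (g3 _ hy).mul (g2.pow ν)
    | algebraMap z => exact fun _ => isIntegral_algebraMap (x := z)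
    | add x y hx hy ix iy =>
      exact fun _ => (ix (hA' ▸ hx)).add (iy (hA' ▸ hy))
    | mul x y hx hy ix iy =>
      exact fun _ => (ix (hA' ▸ hx)).mul (iy (hA' ▸ hy))
  have : Algebra.IsIntegral ℂ (A' ⧸ m') := ⟨fun x => by
    obtain ⟨x, rfl⟩ := Ideal.Quotient.mk_surjective x
    exact g4 x (hA' ▸ x.2) x.2⟩
  have g5 := IsAlgClosed.algebraMap_bijective_of_isIntegral (k := ℂ) (K := A' ⧸ m')
  refine ⟨m', Ideal.Quotient.maximal_of_isField _
    ((RingEquiv.ofBijective _ g5).symm.toMulEquiv.isField (Field.toIsField ℂ)), fun x hx =>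
    ⟨fun h => ⟨h8 x hx, fun h' => h.2 ((h3 _).2 ((h7 _).1 h'))⟩,
      fun h => ⟨hx, fun h' => h.2 ((h7 _).2 ((h3 _).1 h'))⟩⟩, fun μ => ?_⟩
  obtain ⟨z, hz⟩ := g5.2 (Ideal.Quotient.mk m' μ)
  exact ⟨z, Ideal.Quotient.eq.1 hz.symm⟩

end Vale.Agent.P283R.Uq
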