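import Vale.Agent.P283R.Uq.Kxs93

/-!
# P283R, block UQ: the points over a point of the quotient are conjugate
-/

open Set

noncomputable section

namespace Vale.Agent.P283R.Uq

open Vale.Agent.P283R.Lx (Nz)
open Vale.Agent.P283R.Lx.O15

theorem trs21 : TRS := by
  classical
  intro F _ _ A m H τ hm fin st hτ nz
  have := Fintype.ofFinite H
  let r : ∀ σ : F ≃ₐ[ℂ] F, (∀ x ∈ A, σ x ∈ A) → A →+* A := fun σ h =>
    (σ : F →+* F).restrict A A h
  have sur : Function.Surjective (r τ fun x => (hτ x).1) := fun y =>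
    ⟨⟨τ.symm y, (hτ _).2 (by simp)⟩, Subtype.ext (τ.apply_symm_apply y)⟩
  have mx := Ideal.comap_isMaximal_of_surjective _ sur (K := m)
  by_cases k : ((m.comap (r τ fun x => (hτ x).1) : Ideal A) : Set A) ⊆
      ⋃ h ∈ ((Finset.univ : Finset H) : Set H), ((m.comap (r h (st h h.2)) : Ideal A) : Set A)
  · obtain ⟨h, -, le⟩ := (Ideal.subset_union_prime 1 1 fun h _ _ _ =>
      Ideal.comap_isPrime _ m).1 k
    have e := mx.eq_of_le (Ideal.comap_isPrime (r h (st h h.2)) m).ne_top le
    have q : ∀ x ∈ A, Nz A m (h.1 x) ↔ Nz A m (τ x) := fun x a => by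
      rw [← not_iff_not, not_nz (st h h.2 x a), not_nz ((hτ x).1 a)]
      exact (SetLike.ext_iff.1 e ⟨x, a⟩).symm
    refine ⟨h.1⁻¹, inv_mem h.2, fun x => ⟨fun z => ?_, fun z => ?_⟩⟩
    · exact (q _ (st _ (inv_mem h.2) x z.1)).1 (by simpa using z)
    · simpa using (q _ ((hτ _).2 z.1)).2 z
  · obtain ⟨x, a, b⟩ := not_subset.1 k
    simp only [mem_iUnion, not_exists] at b
    have p : ∀ S : Finset H, Nz A m (∏ h ∈ S, h.1 x) := fun S => by
      induction S using Finset.induction_on with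
      | empty => simpa using nz_one hm.ne_top
      | insert h S n ih =>
        rw [Finset.prod_insert n]
        exact nz_mul hm.isPrime ⟨st h h.2 x x.2, b h (Finset.mem_univ h)⟩ ih
    have := nz _ (fun σ h => by
      rw [map_prod]
      exact Fintype.prod_equiv (Equiv.mulLeft ⟨σ, h⟩) _ _ fun _ => rfl) (p Finset.univ)
    rw [← Finset.mul_prod_erase _ _ (Finset.mem_univ 1), map_mul] at this
    exact (this.2 (m.mul_mem_right ⟨_, (hτ _).1 (p _).1⟩ a)).elim

end Vale.Agent.P283R.Uq
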