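import Vale.Agent.P283R.Uq.Kxr93
import Vale.Agent.P283R.Uq.Pts17
import Vale.Agent.P283R.Uq.Den59
import Vale.Agent.P283R.Uq.Trs21

/-!
# P283R, block UQ: the extension by roots
-/

namespace Vale.Agent.P283R.Uq

/-- **KX** -/
theorem kx93 : KX := kxr93 pts17 dns59 trs21

end Vale.Agent.P283R.Uq
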