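import Vale.Agent.P283R.Uq.St
import Vale.Agent.P283R.Tq.Spn35

/-!
# P283R, block UQ: the degrees of the units
-/

open Set

noncomputable section

namespace Vale.Agent.P283R.Uq

open Vale.Agent.P287D Vale.Agent.P297Z Vale.Agent.P283M Vale.Agent.P283R.Cx
open Vale.Agent.P283R.Lx (Nz Ie)
open Vale.Agent.P283R.Lx.K33 (I2 IeS)
open Vale.Agent.P283R.Lx.O15
open Vale.Agent.P283R.Tq.S35

theorem lam18 : LAM := fun _ _ _ _ _ _ _ T D s a A m J _ _ _ X => by
  have sp : ∀ e θ, Tq.Pr T D e θ → θ ∈ Sp s a e := fun e θ h =>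
    (X.cox.sec e θ h.1).2 fun P p => (h.2 P p).ge
  refine ⟨fun e θ h => ?_, eq_top_iff.2 fun e _ => ?_⟩
  · have p := X.un.pr e θ h
    by_contra n
    have : Sp s a e ≤ IeS X.zero m e := Submodule.span_le.2 (by
      rintro _ ⟨c, rfl, rfl⟩
      by_cases z : ∀ j ∈ J, c j = 0
      · exact (n (dg_mem _ c fun j b => Submodule.subset_span ⟨j, fun hj => b (z j hj), rfl⟩)).elim
      · push Not at z
        obtain ⟨j, hj, b⟩ := z
        obtain ⟨y, hy, e⟩ := split (s := s) (a := a) b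
        have := ie_mul (X.ie j hj) hy
        rwa [add_sub_cancel, ← e] at this)
    exact (this (sp e θ p)).2 _ (sp _ _ (pr_inv p))
      (by rw [mul_inv_cancel₀ p.1]; exact nz_one X.max.ne_top)
  · obtain ⟨e', b, hb, c, hc, b0, c0⟩ := X.cox.fr1 e
    obtain ⟨u, hu⟩ := ex_mon hb b0
    obtain ⟨v, hv⟩ := ex_mon hc c0
    rw [← add_sub_cancel_right e e', ← hu, ← hv]
    exact sub_mem (dg_mem _ u fun j _ => Submodule.subset_span ⟨j, rfl⟩)
      (dg_mem _ v fun j _ => Submodule.subset_span ⟨j, rfl⟩)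

end Vale.Agent.P283R.Uq
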