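import Vale.Agent.P283R.Uq.St

/-!
# P283R, block UQ: few generators after a localisation
-/

open Set

noncomputable section

namespace Vale.Agent.P283R.Uq

open Vale.Agent.P287D Vale.Agent.P283M Vale.Agent.P283R.Cx
open Vale.Agent.P283R.Lx (Nz Ie)
open Vale.Agent.P283R.Lx.K33 (I2)
open Vale.Agent.P283R.Lx.O15 Vale.Agent.P283R.Lx.G3
open Vale.Agent.P283R.Tq (cv)

namespace P27

variable {L : Type} [Field L] [Algebra ℂ L] {k N N' : ℕ} {T : Set (Pl L)}
  {D : Pl L → Fin k → ℤ} {s : Fin N → L} {a : Fin N → Fin k → ℤ} {s' : Fin N' → L}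
  {a' : Fin N' → Fin k → ℤ} {g φ : L} {e : Fin k → ℤ} {G : Subgroup (L ≃ₐ[ℂ] L)} {π : Ac L k}
  {U : (Fin k → ℤ) → L → Prop}

theorem pw (h : φ ∈ Sp s a e) (n : ℕ) : φ ^ n ∈ Sp s a (n • e) := by
  simpa using Lx.G3.prod_mem (M := Sp s a) sp_mul (one_sp s a) (Finset.range n) fun _ => h

theorem pm (hg : g ∈ Sp s a 0) (n : ℕ) (h : φ ∈ Sp s a e) : g ^ n * φ ∈ Sp s a e := by
  simpa using sp_mul (pw hg n) h

/-- the localisation of a homogeneous part -/
def Lw (hg : g ∈ Sp s a 0) (e : Fin k → ℤ) : Submodule ℂ L where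
  carrier := {φ | ∃ n : ℕ, g ^ n * φ ∈ Sp s a e}
  add_mem' := fun {x y} ⟨n, h⟩ ⟨n', h'⟩ => ⟨n + n', by
    have := add_mem (pm hg n' h) (pm hg n h')
    rwa [show g ^ n' * (g ^ n * x) + g ^ n * (g ^ n' * y) = g ^ (n + n') * (x + y) by ring] at this⟩
  zero_mem' := ⟨0, by simp⟩
  smul_mem' := fun c x ⟨n, h⟩ => ⟨n, by
    rw [mul_smul_comm]
    exact Submodule.smul_mem _ c h⟩

theorem dn (g0 : g ≠ 0) (h3 : g⁻¹ ∈ Sp s a 0) {n : ℕ} (h : g ^ n * φ ∈ Sp s a e) :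
    φ ∈ Sp s a e := by
  have := pm h3 n h
  rwa [← mul_assoc, ← mul_pow, inv_mul_cancel₀ g0, one_pow, one_mul] at this

theorem cox (c : Cox T D s a) (hg : g ∈ Sp s a 0) (g0 : g ≠ 0) (ne : ∀ j, s' j ≠ 0)
    (h1 : ∀ j, ∃ n : ℕ, g ^ n * s' j ∈ Sp s a (a' j)) (h2 : ∀ e, Sp s a e ≤ Sp s' a' e)
    (h3 : g⁻¹ ∈ Sp s' a' 0) : Cox {P ∈ T | P.ord g = 0} D s' a' := by
  have o : ∀ (P : Pl L) (n : ℕ) φ, φ ≠ 0 → P.ord (g ^ n * φ) = n * P.ord g + P.ord φ :=
    fun P n φ φ0 => by rw [P.ord_mul (pow_ne_zero n g0) φ0, P.ord_pow]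
  refine ⟨ne, fun e φ φ0 => ⟨fun h P hP => ?_, fun h => ?_⟩,
    fun φ e => (c.fin φ e).subset fun P h => ⟨h.1.1, h.2⟩, fun φ => ?_, fun e => ?_⟩
  · obtain ⟨n, hn⟩ := sp_le (M := Lw hg) (fun {e e' x y} ⟨n, h⟩ ⟨n', h'⟩ => ⟨n + n', by
      have := sp_mul h h'
      rwa [show g ^ n * x * (g ^ n' * y) = g ^ (n + n') * (x * y) by ring] at this⟩)
      ⟨0, by simpa using one_sp s a⟩ h1 e h
    have := (c.sec e _ (mul_ne_zero (pow_ne_zero n g0) φ0)).1 hn P hP.1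
    rwa [o P n φ φ0, hP.2, mul_zero, zero_add] at this
  · obtain ⟨n, hn⟩ := ((c.fin φ e).image fun P => (P.ord φ + e ⬝ᵥ D P).natAbs).bddAbove
    refine dn g0 h3 (n := n) (h2 e ((c.sec e _ (mul_ne_zero (pow_ne_zero n g0) φ0)).2
      fun P hP => ?_))
    have p := (c.sec 0 g g0).1 hg P hP
    rw [zero_dotProduct, add_zero] at p
    rw [o P n φ φ0, add_assoc]
    rcases p.eq_or_lt with q | q
    · simpa [← q] using h P ⟨hP, q.symm⟩
    · by_cases z : P.ord φ + e ⬝ᵥ D P = 0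
      · rw [z]
        positivity
      · have : (P.ord φ + e ⬝ᵥ D P).natAbs ≤ n := hn ⟨P, ⟨hP, z⟩, rfl⟩
        have : (n : ℤ) * 1 ≤ n * P.ord g := mul_le_mul_of_nonneg_left q (Nat.cast_nonneg n)
        omega
  · obtain ⟨e, b, b1, c, c1, c2⟩ := c.fr0 φ
    exact ⟨e, b, h2 _ b1, c, h2 _ c1, c2⟩
  · obtain ⟨e', b, b1, c, c1, c2⟩ := c.fr1 e
    exact ⟨e', b, h2 _ b1, c, h2 _ c1, c2⟩

theorem u1 (un : Un T D G π U) : U 0 1 := (un.cst 1).2 ⟨1, one_ne_zero, (map_one _).symm⟩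

theorem u_sp (c : Cox T D s a) (un : Un T D G π U) (h : U e φ) : φ ∈ Sp s a e :=
  (c.sec e φ (un.pr e φ h).1).2 fun P p => ((un.pr e φ h).2 P p).ge

theorem u_prod (un : Un T D G π U) {ι : Type} (S : Finset ι) {x : ι → L} {v : ι → Fin k → ℤ}
    (h : ∀ i, U (v i) (x i)) : U (∑ i ∈ S, v i) (∏ i ∈ S, x i) := by
  classical
  induction S using Finset.induction_on with
  | empty => simpa using u1 un
  | insert j S hj ih =>
    rw [Finset.prod_insert hj, Finset.sum_insert hj]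
    exact un.mul _ _ _ _ (h j) ih

/-- all units are monomials in a basis -/
theorem uni (un : Un T D G π U) {r : ℕ} {v : Fin r → Fin k → ℤ} {x : Fin r → L}
    (h : ∀ i, U (v i) (x i)) (hv : ∀ e, (∃ θ, U e θ) → e ∈ Submodule.span ℤ (range v))
    (h1 : ∀ i, x i ∈ Sp s a (v i)) (h2 : (∏ i, x i)⁻¹ ∈ Sp s a (-∑ i, v i)) (u : U e φ) :
    φ ∈ Sp s a e := by
  classical
  have x0 : ∀ i, x i ≠ 0 := fun i => (un.pr _ _ (h i)).1
  have key : ∀ e ∈ AddSubgroup.closure (range v),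
      ∃ θ, U e θ ∧ θ ∈ Sp s a e ∧ θ⁻¹ ∈ Sp s a (-e) := fun e he => by
    induction he using AddSubgroup.closure_induction with
    | mem e he =>
      obtain ⟨i, rfl⟩ := he
      refine ⟨x i, h i, h1 i, ?_⟩
      have := sp_mul h2 (Lx.G3.prod_mem (M := Sp s a) sp_mul (one_sp s a) (Finset.univ.erase i) h1)
      rwa [← Finset.mul_prod_erase _ x (Finset.mem_univ i),
        ← Finset.add_sum_erase _ v (Finset.mem_univ i), mul_inv, inv_mul_cancel_right₀
          (Finset.prod_ne_zero_iff.2 fun j _ => x0 j), neg_add, neg_add_cancel_right] at this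
    | zero => exact ⟨1, u1 un, one_sp s a, by simpa using one_sp s a⟩
    | add e e' _ _ p q =>
      obtain ⟨θ, p1, p2, p3⟩ := p
      obtain ⟨θ', q1, q2, q3⟩ := q
      exact ⟨θ * θ', un.mul _ _ _ _ p1 q1, sp_mul p2 q2, by
        rw [mul_inv, neg_add]; exact sp_mul p3 q3⟩
    | neg e _ p =>
      obtain ⟨θ, p1, p2, p3⟩ := p
      exact ⟨θ⁻¹, un.inv _ _ p1, p3, by rwa [inv_inv, neg_neg]⟩
  obtain ⟨θ, p1, p2, -⟩ := key e (by
    rw [← Submodule.span_int_eq_addSubgroupClosure]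
    exact hv e ⟨φ, u⟩)
  have := un.mul _ _ _ _ u (un.inv _ _ p1)
  rw [add_neg_cancel] at this
  obtain ⟨c, -, hc⟩ := (un.cst _).1 this
  rw [mul_inv_eq_iff_eq_mul₀ (un.pr _ _ p1).1, ← Algebra.smul_def] at hc
  exact hc ▸ Submodule.smul_mem _ c p2

theorem mo {c r : ℕ} {τ : Fin c → L} {z : Fin r → L} {w : Fin r → Fin k → ℤ}
    (h1 : ∀ i, τ i ∈ Sp s a 0) (h2 : ∀ j, z j ∈ Sp s a (w j)) (h3 : ∀ e θ, U e θ → θ ∈ Sp s a e)
    (e : Fin k → ℤ) : Mo U τ z w e ≤ Sp s a e := by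
  refine Submodule.span_le.2 ?_
  rintro _ ⟨α, β, θ, u, rfl⟩
  have := sp_mul (sp_mul
    (Lx.G3.prod_mem (M := Sp s a) sp_mul (one_sp s a) Finset.univ fun i => pw (h1 i) (α i))
    (Lx.G3.prod_mem (M := Sp s a) sp_mul (one_sp s a) Finset.univ fun j => pw (h2 j) (β j)))
    (h3 _ _ u)
  simpa [cv] using this

/-- **the generators** -/
theorem gen {A : Subalgebra ℂ L} {m : Ideal A} (cx : Cox T D s a) (un : Un T D G π U)
    (hz : ∀ x, x ∈ A ↔ x ∈ Sp s a 0) (hm : m ≠ ⊤) {c n r : ℕ} {τ : Fin c → A} {z : Fin n → L}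
    {w : Fin n → Fin k → ℤ} {v : Fin r → Fin k → ℤ} (τm : ∀ i, τ i ∈ m)
    (z0 : ∀ j, z j ≠ 0) (zs : ∀ j, z j ∈ Sp s a (w j))
    (hv : ∀ e, (∃ θ, U e θ) ↔ e ∈ Submodule.span ℤ (range v)) (hg : g ∈ A) (g0 : g ≠ 0)
    (nk : ∀ e, ∀ φ ∈ Sp s a e, ∃ n : ℕ, g ^ n * φ ∈ Mo U (fun i => (τ i : L)) z w e) :
    ∃ (y : Fin (r + c + 2) → L) (b : Fin (r + c + 2) → Fin k → ℤ), (∀ j, ∃ θ, U (b j) θ) ∧
      Cox {P ∈ T | P.ord g = 0} D (Fin.append z y) (Fin.append w b) := by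
  choose x hx using fun i => (hv (v i)).2 (Submodule.subset_span ⟨i, rfl⟩)
  have u0 := un.inv _ _ (u_prod un Finset.univ hx)
  let y : Fin (r + c + 2) → L :=
    Fin.append (Fin.append x fun i => τ i + 1) ![(∏ i, x i)⁻¹, g⁻¹]
  let b : Fin (r + c + 2) → Fin k → ℤ := Fin.append (Fin.append v fun _ => 0) ![-∑ i, v i, 0]
  have cs : ∀ q : L → (Fin k → ℤ) → Prop, (∀ i, q (x i) (v i)) → (∀ i, q (τ i + 1) 0) →
      q (∏ i, x i)⁻¹ (-∑ i, v i) → q g⁻¹ 0 → ∀ j, q (y j) (b j) := fun q q1 q2 q3 q4 j => by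
    induction j using Fin.addCases with
    | left j =>
      induction j using Fin.addCases with
      | left j => simpa [y, b] using q1 j
      | right j => simpa [y, b] using q2 j
    | right j =>
      simp only [y, b, Fin.append_right]
      fin_cases j
      exacts [q3, q4]
  have gy : ∀ j, y j ∈ Sp (Fin.append z y) (Fin.append w b) (b j) := fun j => by
    simpa using Lx.G3.gen_sp (Fin.append z y) (Fin.append w b) (Fin.natAdd n j)
  have g3 : g⁻¹ ∈ Sp (Fin.append z y) (Fin.append w b) 0 := by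
    have := gy (Fin.natAdd _ 1)
    simp only [y, b, Fin.append_right] at this
    exact this
  refine ⟨y, b, cs (fun _ e => ∃ θ, U e θ) (fun i => ⟨_, hx i⟩) (fun _ => ⟨_, u1 un⟩) ⟨_, u0⟩
    ⟨_, u1 un⟩, cox cx ((hz g).1 hg) g0 (fun j => ?_) (fun j => ?_) (fun e φ h => ?_) g3⟩
  · induction j using Fin.addCases with
    | left j => simpa using z0 j
    | right j =>
      rw [Fin.append_right]
      refine cs (fun φ _ => φ ≠ 0) (fun i => (un.pr _ _ (hx i)).1) (fun i e => hm ?_)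
        (un.pr _ _ u0).1 (inv_ne_zero g0) j
      have : τ i = -1 := Subtype.ext (eq_neg_of_add_eq_zero_left e)
      exact (Ideal.eq_top_iff_one _).2 (by simpa [this] using τm i)
  · induction j using Fin.addCases with
    | left j => exact ⟨0, by simpa using zs j⟩
    | right j =>
      rw [Fin.append_right, Fin.append_right]
      exact cs (fun φ e => ∃ n : ℕ, g ^ n * φ ∈ Sp s a e)
        (fun i => ⟨0, by simpa using u_sp cx un (hx i)⟩)
        (fun i => ⟨0, by simpa using add_mem ((hz _).1 (τ i).2) (one_sp s a)⟩)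
        ⟨0, by simpa only [pow_zero, one_mul] using u_sp cx un u0⟩
        ⟨1, by simpa [g0] using one_sp s a⟩ j
  · obtain ⟨n', hn⟩ := nk e φ h
    refine dn g0 g3 (mo (fun i => ?_) (fun j => ?_) (fun e θ u => uni un hx
      (fun e h => (hv e).1 h) (fun i => ?_) ?_ u) e hn)
    · have := gy (Fin.castAdd _ (Fin.natAdd _ i))
      simp only [y, b, Fin.append_right, Fin.append_left] at this
      simpa using sub_mem this (one_sp _ _)
    · simpa using Lx.G3.gen_sp (Fin.append z y) (Fin.append w b) (Fin.castAdd _ j)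
    · have := gy (Fin.castAdd _ (Fin.castAdd _ i))
      simpa only [y, b, Fin.append_left] using this
    · have := gy (Fin.natAdd _ 0)
      simp only [y, b, Fin.append_right] at this
      exact this

end P27

end Vale.Agent.P283R.Uq
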