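import Vale.Agent.P283R.Uq.St2
import Vale.Agent.P283R.Uq.Gen27

/-!
# P283R, block UQ: the localisation of the sections
-/

open Set

noncomputable section

namespace Vale.Agent.P283R.Uq

open Vale.Agent.P287D Vale.Agent.P283M Vale.Agent.P283R.Cx
open Vale.Agent.P283R.Lx.O15 Vale.Agent.P283R.Lx.G3

theorem gen18 {L : Type} [Field L] [Algebra ℂ L] {k N : ℕ} (s : Fin N → L)
    (a : Fin N → Fin k → ℤ) (j : Fin N) : s j ∈ Sp s a (a j) := by
  have := mon_mem s a (Pi.single j 1)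
  rwa [dg_single, Finset.prod_eq_single j (fun i _ n => by simp [n]) (by simp),
    Pi.single_eq_same, pow_one] at this

theorem lcx18 : LCX := fun L _ _ k N T D s a g c hg g0 =>
  P27.cox c hg g0 (Fin.cases (inv_ne_zero g0) c.ne)
    (Fin.cases ⟨1, by simpa [g0] using one_sp s a⟩ fun j => ⟨0, by simpa using gen18 s a j⟩)
    (sp_le (M := Sp (Fin.cons g⁻¹ s : Fin (N + 1) → L) (Fin.cons 0 a)) sp_mul (one_sp _ _)
      fun j => gen18 (Fin.cons g⁻¹ s : Fin (N + 1) → L) (Fin.cons 0 a) j.succ)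
    (gen18 (Fin.cons g⁻¹ s : Fin (N + 1) → L) (Fin.cons 0 a) 0)

end Vale.Agent.P283R.Uq
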