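import Vale.Agent.P283R.Uq.St
import Vale.Agent.P283R.Tq.Act15

/-!
# P283R, block UQ: the action on the sections
-/

open Set

noncomputable section

namespace Vale.Agent.P283R.Uq

open Vale.Agent.P297Z Vale.Agent.P287D Vale.Agent.P283M Vale.Agent.P283R.Cx
open Vale.Agent.P283R.Lx (Ie)
open Vale.Agent.P283R.Lx.K33 (I2)
open Vale.Agent.P283R.Tq (Cj Rel Gp)
open Vale.Agent.P283R.Tq.A15 (ex rel_inv rel_neg rel_add back)

namespace A15

variable {L : Type} [Field L] [Algebra ℂ L] {d k N : ℕ} {T : Set (Pl L)}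
  {D : Pl L → Fin k → ℤ} {s : Fin N → L} {a : Fin N → Fin k → ℤ} {A : Subalgebra ℂ L}
  {m : Ideal A} {G : Subgroup (L ≃ₐ[ℂ] L)} {σ : L ≃ₐ[ℂ] L} {e e' : Fin k → ℤ} {θ φ : L}

/-- from the action on the degrees to `Rel` -/
theorem rel_of {π : Ac L k} (h : Pm T D G π) (hσ : σ ∈ G) (p : Tq.Pr T D (e' - π σ e) θ) :
    Rel T D σ e e' θ :=
  ⟨p.1, fun P hP P' c => by
    have h1 := (h.rel σ hσ e).2 P hP P' c
    have h2 := p.2 P hP
    rw [Pl.ord_one] at h1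
    rw [sub_dotProduct] at h2
    omega⟩

variable (h : Cox T D s a) (g : Gp T A m G) (hσ : σ ∈ G) (r : Rel T D σ e e' θ)

include h g hσ r

theorem sp (hφ : φ ∈ Sp s a e) : σ φ * θ ∈ Sp s a e' := by
  by_cases p0 : φ = 0
  · simp [p0]
  have s0 : σ φ ≠ 0 := by simpa using p0
  refine (h.sec _ _ (mul_ne_zero s0 r.1)).2 fun P hP => ?_
  obtain ⟨P', c⟩ := ex σ P
  have h1 := (h.sec _ _ p0).1 hφ P' (g.stT σ hσ P hP P' c)
  have h2 : P.ord (σ φ * θ) = P.ord (σ φ) + P.ord θ := Pl.ord_mul _ s0 r.1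
  rwa [r.2 P hP P' c, c, ← add_assoc, ← h2] at h1

theorem ie (hφ : φ ∈ Ie A m s a e) : σ φ * θ ∈ Ie A m s a e' :=
  ⟨sp h g hσ r hφ.1, fun ψ x z =>
    hφ.2 _ (sp h g (inv_mem hσ) (rel_inv g hσ (rel_neg r)) x) (by
      have := g.stm _ (inv_mem hσ) _ z
      rwa [mul_assoc, map_mul, mul_comm θ, map_mul, ← inv_inv θ, AlgEquiv.aut_inv,
        AlgEquiv.symm_apply_apply] at this)⟩

theorem i2 (x : ∀ f, ∃ f' η, Rel T D σ f f' η) (hφ : φ ∈ I2 A m s a e) :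
    σ φ * θ ∈ I2 A m s a e' := by
  refine (Submodule.span_le (p := (I2 A m s a e').comap
    (LinearMap.mulRight ℂ θ ∘ₗ σ.toLinearMap))).2 ?_ hφ
  rintro _ ⟨f, u, hu, y, hy, rfl⟩
  obtain ⟨f', η, q⟩ := x f
  have q' := rel_add r (rel_neg q)
  rw [← sub_eq_add_neg, ← sub_eq_add_neg] at q'
  refine Submodule.subset_span ⟨f', _, ie h g hσ q hu, _, ie h g hσ q' hy, ?_⟩
  have := q.1
  show σ (u * y) * θ = _
  rw [map_mul]; field_simp

end A15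

open A15 in
/-- **ACT** -/
theorem act15 : ACT := by
  intro d L _ _ k N T D s a A m G π U h σ hσ e e' θ u φ
  have r := rel_of h.pm hσ (h.un.pr _ _ u)
  have c := h.cox
  have g := h.gp
  have r' := rel_inv g hσ r
  have i := inv_mem hσ
  exact ⟨⟨sp c g hσ r, fun z => back σ r.1 φ ▸ sp c g i r' z⟩,
    ⟨ie c g hσ r, fun z => back σ r.1 φ ▸ ie c g i r' z⟩,
    ⟨i2 c g hσ r fun f => ⟨_, _, h.pm.rel σ hσ f⟩,
      fun z => back σ r.1 φ ▸ i2 c g i r' (fun f => ⟨_, _, h.pm.rel _ i f⟩) z⟩⟩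

open A15 in
/-- **INV** -/
theorem inv15 : INV := by
  intro d L _ _ k N T D s a A m G π U h e z ⟨z0, hz⟩
  refine ⟨z0, fun σ hσ P hP P' c => ?_⟩
  obtain ⟨θ, u, w⟩ := hz σ hσ
  have r := rel_of h.pm hσ (h.un.pr _ _ u)
  have h1 := congrArg P.ord w
  rw [Pl.ord_mul _ ((map_ne_zero σ).2 z0) r.1, ← c] at h1
  rw [r.2 P hP P' c, ← h1, add_assoc]

end Vale.Agent.P283R.Uq
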