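import Vale.Agent.P283R.Uq.St2
import Vale.Agent.P283R.Uq.Act15

/-!
# P283R, block UQ: the invariant sections of one degree come from below
-/

open Set

noncomputable section

namespace Vale.Agent.P283R.Uq

open Vale.Agent.P287D Vale.Agent.P297Z Vale.Agent.P283M Vale.Agent.P283R.Cx
open Vale.Agent.P283R.Lx (Nz Ie)
open Vale.Agent.P283R.Lx.K33
open Vale.Agent.P283R.Lx.O15

namespace N21

variable {L : Type} [Field L] [Algebra ℂ L] {d k N : ℕ} {T : Set (Pl L)} {D : Pl L → Fin k → ℤ}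
  {s : Fin N → L} {a : Fin N → Fin k → ℤ} {A : Subalgebra ℂ L} {m : Ideal A}
  {G : Subgroup (L ≃ₐ[ℂ] L)} {π : Ac L k}

theorem act (R : Rw d T D s a A m G π) {σ : L ≃ₐ[ℂ] L} (h : σ ∈ G) {e : Fin k → ℤ} {φ : L}
    (hφ : φ ∈ Sp s a e) : σ φ ∈ Sp s a (π σ e) := by
  simpa using A15.sp R.cox R.gp h (R.pm.rel σ h e) hφ

theorem stab (R : Rw d T D s a A m G π) : Stab G A := fun σ h x b =>
  (R.zero _).2 (by simpa using act R h ((R.zero _).1 b))

end N21

open N21

theorem nky21 : NKY := by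
  classical
  intro L L' _ _ _ _ _ _ d k N N' T D s a A m G π γ T' D' s' a' A' m' G' G'' π' R K e he
  have R' := K.rw
  have := R'.gp.fin
  have := Fintype.ofFinite G''
  obtain ⟨τ, hτ, fin, n, pw⟩ :=
    Tq.tau27 L' d A' m' G'' R'.ff R'.fg R'.max R'.gp.fin (stab R') R'.gp.stm
  have up : ∀ φ ∈ Sp s a e, algebraMap L L' φ ∈ Sp s' a' e := fun φ h => by
    rcases eq_or_ne φ 0 with rfl | φ0
    · simp
    refine (R'.cox.sec _ _ ((map_ne_zero _).2 φ0)).2 fun Q hQ => ?_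
    obtain ⟨P, hP, l⟩ := (K.lies Q).1 hQ
    rw [l.ord φ, (K.unr Q hQ P l).1, (K.unr Q hQ P l).2, one_mul]
    exact (R.cox.sec _ _ φ0).1 h P hP.1
  choose r r1 r2 r3 using fun σ : G'' => K.res σ σ.2
  let av : L' →ₗ[ℂ] L' := ∑ σ : G'', σ.1.toLinearMap
  have a0 : ∀ x, av x = ∑ σ : G'', σ.1 x := fun x => by simp [av]
  have a1 : ∀ x y, Fix G'' x → av (x * y) = x * av y := fun x y h => by
    rw [a0, a0, Finset.mul_sum]
    exact Finset.sum_congr rfl fun σ _ => by rw [map_mul, h σ σ.2]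
  have a2 : ∀ x, Fix G'' (av x) := fun x σ h => by
    rw [a0, map_sum]
    exact Fintype.sum_equiv (Equiv.mulLeft ⟨σ, h⟩) _ _ fun _ => rfl
  have a3 : ∀ x ∈ Sp s' a' e, av x ∈ Sp s' a' e := fun x h => by
    rw [a0]
    refine sum_mem fun σ _ => ?_
    have := act R' σ.2 h
    rwa [r3, he _ (r1 σ)] at this
  let W : Submodule ℂ L' := Submodule.span ℂ
    {x | ∃ μ ∈ A', ∃ χ ∈ Sp s a e, Fix G χ ∧ x = μ * algebraMap L L' χ}
  have a4 : ∀ φ ∈ Sp s a e, av (algebraMap L L' φ) ∈ W := fun φ h => by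
    have q : av (algebraMap L L' φ) = algebraMap L L' (∑ σ, r σ φ) := by
      rw [a0, map_sum]
      exact Finset.sum_congr rfl fun σ _ => r2 σ φ
    refine Submodule.subset_span ⟨1, one_mem _, ∑ σ, r σ φ, sum_mem fun σ _ => ?_, fun σ hσ => ?_,
      by rw [q, one_mul]⟩
    · exact he _ (r1 σ) ▸ act R (r1 σ) h
    · obtain ⟨σ', h', z⟩ := K.sur σ hσ
      exact (algebraMap L L').injective (by rw [← z, ← q, a2 _ σ' h'])
  have hW : ∀ i, ∀ x ∈ W, τ i * x ∈ W := fun i x hx => mul_comm x _ ▸ span_mul (by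
    rintro _ ⟨μ, hμ, χ, h1, h2, rfl⟩
    exact Submodule.subset_span ⟨μ * τ i, mul_mem hμ (τ i).2, χ, h1, h2, mul_right_comm _ _ _⟩) hx
  let M : Submodule ℂ L' :=
    { carrier := {x | x ∈ Sp s' a' e ∧ Fix G'' x}
      add_mem' := fun x y => ⟨add_mem x.1 y.1, fun σ h => by rw [map_add, x.2 σ h, y.2 σ h]⟩
      zero_mem' := ⟨zero_mem _, fun σ _ => map_zero σ⟩
      smul_mem' := fun c x y => ⟨Submodule.smul_mem _ c y.1, fun σ h => by
        rw [map_smul, y.2 σ h]⟩ }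
  have hM : ∀ i, ∀ x ∈ M, τ i * x ∈ M := fun i x h =>
    ⟨sp_tau R'.zero e i x h.1, fun σ z => by rw [map_mul, (hτ i).2 σ z, h.2 σ z]⟩
  have : Algebra.FiniteType ℂ (Algebra.adjoin ℂ (range τ)) :=
    (Subalgebra.fg_iff_finiteType _).1 (Subalgebra.fg_def.2 ⟨_, finite_range _, rfl⟩)
  have : IsNoetherianRing (Algebra.adjoin ℂ (range τ)) := Algebra.FiniteType.isNoetherianRing ℂ _
  let J : Ideal (Algebra.adjoin ℂ (range τ)) :=
    (Ideal.span (range τ)).comap (Algebra.adjoin ℂ (range τ)).val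
  obtain ⟨g, g1, g2⟩ := nak0 J (sb τ W hW) (sb τ M hM)
    ((fg Lx.fim40 R'.zero fin e).of_le fun x h => h.1) fun x hx Q q1 q2 => by
      have sm : ∀ (c : ℂ), ∀ y ∈ Q, c • y ∈ Q := fun c y u => by
        have := Submodule.smul_mem _ (algebraMap ℂ (Algebra.adjoin ℂ (range τ)) c) u
        have q : algebraMap ℂ (Algebra.adjoin ℂ (range τ)) c • y = c • y :=
          (Algebra.smul_def c y).symm
        exact q ▸ this
      have k1 : ∀ y ∈ Tm τ s' a' e, av y ∈ Q := fun y hy => by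
        induction hy using Submodule.span_induction with
        | mem _ b =>
          obtain ⟨i, y, hy, rfl⟩ := b
          rw [a1 _ _ (hτ i).2]
          exact q2 ⟨τ i, Algebra.subset_adjoin ⟨i, rfl⟩⟩
            (Ideal.subset_span (s := range τ) ⟨i, rfl⟩) _ ⟨a3 y hy, a2 y⟩
        | zero => simp
        | add _ _ _ _ u v => exact map_add av _ _ ▸ add_mem u v
        | smul c _ _ u => exact map_smul av _ _ ▸ sm c _ u
      have k2 : ∀ y ∈ Submodule.span ℂ {x | ∃ μ ∈ A', ∃ φ ∈ Sp s a e, x = μ * algebraMap L L' φ},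
          av y ∈ Q := fun y hy => by
        induction hy using Submodule.span_induction with
        | mem _ b =>
          obtain ⟨μ, hμ, φ, h, rfl⟩ := b
          obtain ⟨z, hz, ν, hν, q⟩ := K.den n ⟨μ, hμ⟩
          rw [show μ = _ from q, add_mul, map_add, ← map_mul]
          exact add_mem (q1 (a4 _ (zero_add e ▸ sp_mul ((R.zero _).1 hz) h)))
            (k1 _ (tm_of R'.zero (pw hν) (up φ h)))
        | zero => simp
        | add _ _ _ _ u v => exact map_add av _ _ ▸ add_mem u v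
        | smul c _ _ u => exact map_smul av _ _ ▸ sm c _ u
      have k3 := sm (Fintype.card G'' : ℂ)⁻¹ _ (k2 x (K.gen e x hx.1))
      rwa [a0, Finset.sum_congr rfl fun σ _ => hx.2 σ.1 σ.2, Finset.sum_const, Finset.card_univ,
        ← Nat.cast_smul_eq_nsmul ℂ, inv_smul_smul₀ (Nat.cast_ne_zero.2 Fintype.card_ne_zero)] at k3
  exact ⟨_, nz_of R'.max.ne_top (fun i => (hτ i).1) g1, fun ψ h1 h2 => g2 ψ ⟨h1, h2⟩⟩

end Vale.Agent.P283R.Uq
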