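import Vale.Agent.P283R.Uq.St2

/-!
# P283R, block UQ: the image of a neighbourhood under a finite quotient
-/

open Set Polynomial

noncomputable section

namespace Vale.Agent.P283R.Uq

open Vale.Agent.P287D Vale.Agent.P283M Vale.Agent.P283R.Cx Vale.Agent.P297Z
open Vale.Agent.P283R.Lx (Nz)

/-- **OPN** -/
theorem opn27 : OPN := fun L _ _ A m G g hm fin st hg => by
  classical
  have := Fintype.ofFinite G
  have := hm.isPrime
  let x : G → A := fun σ => ⟨σ.1 g, st σ.1 σ.2 g hg.1⟩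
  let h : ℂ → A := fun t => ∏ σ, (algebraMap ℂ A t - x σ) - algebraMap ℂ A t ^ Fintype.card G
  have g0 : g ≠ 0 := fun e => hg.2 (by
    have : (⟨_, hg.1⟩ : A) = 0 := Subtype.ext e
    exact this ▸ m.zero_mem)
  obtain ⟨t, ht⟩ : ∃ t, h t ∉ m := by
    by_contra! H
    have : Nontrivial (A ⧸ m) := Ideal.Quotient.nontrivial_iff.2 hm.ne_top
    have : IsDomain (A ⧸ m) := Ideal.Quotient.isDomain m
    have e := eq_of_infinite_eval_eq (∏ σ, (X - C (Ideal.Quotient.mk m (x σ))))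
      (X ^ Fintype.card G) ((infinite_range_of_injective (algebraMap ℂ (A ⧸ m)).injective).mono (by
        rintro _ ⟨t, rfl⟩
        have := Ideal.Quotient.eq.2 (H t)
        simpa [eval_prod] using this))
    have := congrArg (eval (Ideal.Quotient.mk m (x 1))) e
    rw [eval_prod, Finset.prod_eq_zero (Finset.mem_univ 1) (by simp), eval_pow, eval_X] at this
    exact hg.2 (Ideal.Quotient.eq_zero_iff_mem.1 (eq_zero_of_pow_eq_zero this.symm))
  have hc : (h t : L) = ∏ σ : G, (algebraMap ℂ L t - σ.1 g) - algebraMap ℂ L t ^ Fintype.card G := by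
    simp [h, x]
  refine ⟨h t, ⟨(h t).2, ht⟩, fun τ hτ => ?_, fun Q hQ h0 => ?_⟩
  · rw [hc, map_sub, map_pow, map_prod, τ.commutes]
    congr 1
    exact Fintype.prod_equiv (Equiv.mulLeft (⟨τ, hτ⟩ : G)) _ _ fun σ => by simp
  · by_contra! H
    let ψ : A →+* Q.ring := A.val.toRingHom.codRestrict Q.ring fun a => hQ a a.2
    have hn : ∀ a : A, (a : L) ≠ 0 →
        (a ∈ (IsLocalRing.maximalIdeal Q.ring).comap ψ ↔ Q.ord a ≠ 0) := fun a a0 => by
      have p := (Pl.ord_nonneg_iff Q.toPlace a0).2 (hQ a a.2)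
      have q := Pl.ord_nonneg_iff Q.toPlace (inv_ne_zero a0)
      rw [Pl.ord_inv] at q
      refine (ValuationSubring.coe_mem_nonunits_iff (a := ψ a)).symm.trans
        ((ValuationSubring.mem_nonunits_iff_or _).trans ?_)
      change (a : L) = 0 ∨ (a : L)⁻¹ ∉ Q.ring ↔ Q.toPlace.ord a ≠ 0
      rw [← q, or_iff_right a0]
      omega
    refine (hn (h t) fun e => ht ((Subtype.ext e : h t = 0) ▸ m.zero_mem)).1
      (Ideal.Quotient.eq.1 ?_) h0
    rw [map_prod, map_pow, ← Finset.card_univ, ← Finset.prod_const]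
    refine Finset.prod_congr rfl fun σ _ => ?_
    obtain ⟨Q', -, c⟩ := Cf.Ds.cj σ.1 Q
    rw [map_sub, Ideal.Quotient.eq_zero_iff_mem.2 ((hn (x σ) ((map_ne_zero σ.1).2 g0)).2
      (c g ▸ H σ.1 σ.2 Q' c)), sub_zero]

end Vale.Agent.P283R.Uq
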