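import Vale.Agent.P283R.Uq.St

/-!
# P283R, block UQ: a minimal subfamily
-/

open Set

noncomputable section

namespace Vale.Agent.P283R.Uq

open Vale.Agent.P287D Vale.Agent.P283M Vale.Agent.P283R.Cx
open Vale.Agent.P283R.Lx (Nz Ie)
open Vale.Agent.P283R.Lx.K33 (I2)

variable {L : Type} [Field L] [Algebra ℂ L] {k N n : ℕ} {T : Set (Pl L)} {D : Pl L → Fin k → ℤ}
  {G : Subgroup (L ≃ₐ[ℂ] L)} {π : Ac L k} {U : (Fin k → ℤ) → L → Prop} {s : Fin N → L}
  {a : Fin N → Fin k → ℤ} {A : Subalgebra ℂ L} {m : Ideal A} {z : Fin n → L}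
  {w : Fin n → Fin k → ℤ}

namespace M77

variable (U z w) in
/-- the span of the `z j * θ`, `j ∈ J` -/
def Sy (J : Finset (Fin n)) (e : Fin k → ℤ) : Submodule ℂ L :=
  Submodule.span ℂ {y | ∃ j ∈ J, ∃ θ, U (e - w j) θ ∧ y = z j * θ}

theorem uni (un : Un T D G π U) {e : Fin k → ℤ} {θ θ' : L} (h : U e θ) (h' : U e θ') :
    ∃ c : ℂ, θ' = c • θ := by
  obtain ⟨c, -, hc⟩ := (un.cst _).1 (by simpa using un.mul _ _ _ _ h' (un.inv _ _ h))
  exact ⟨c, by rw [Algebra.smul_def, ← hc, inv_mul_cancel_right₀ (un.pr _ _ h).1]⟩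

theorem sum_mem {J I : Finset (Fin n)} {e : Fin k → ℤ} {θ : Fin n → L} (γ : Fin n → ℂ)
    (le : I ⊆ J) (h : ∀ j ∈ I, U (e - w j) (θ j)) :
    ∑ j ∈ I, γ j • (z j * θ j) ∈ Sy U z w J e :=
  Submodule.sum_mem _ fun j hj =>
    Submodule.smul_mem _ _ (Submodule.subset_span ⟨j, le hj, _, h j hj, rfl⟩)

theorem ex (un : Un T D G π U) {J : Finset (Fin n)} {e : Fin k → ℤ} {φ : L}
    (hφ : φ ∈ Sy U z w J e) : ∃ (I : Finset (Fin n)) (θ : Fin n → L) (γ : Fin n → ℂ), I ⊆ J ∧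
      (∀ j ∈ I, U (e - w j) (θ j)) ∧ φ = ∑ j ∈ I, γ j • (z j * θ j) := by
  classical
  let θ : Fin n → L := fun j => if h : ∃ θ, U (e - w j) θ then h.choose else 0
  have hθ : ∀ j, (∃ θ, U (e - w j) θ) → U (e - w j) (θ j) := fun j h => by
    simp only [θ, dif_pos h]; exact h.choose_spec
  suffices h : ∃ γ : Fin n → ℂ,
      φ = ∑ j ∈ J.filter fun j => ∃ θ, U (e - w j) θ, γ j • (z j * θ j) by
    obtain ⟨γ, h⟩ := h
    exact ⟨_, θ, γ, Finset.filter_subset _ _, fun j hj => hθ j (Finset.mem_filter.1 hj).2, h⟩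
  induction hφ using Submodule.span_induction with
  | mem x hx =>
    obtain ⟨j, hj, η, hη, rfl⟩ := hx
    obtain ⟨c, rfl⟩ := uni un (hθ j ⟨η, hη⟩) hη
    refine ⟨Pi.single j c, ?_⟩
    rw [Finset.sum_eq_single_of_mem j (Finset.mem_filter.2 ⟨hj, _, hη⟩), Pi.single_eq_same,
      mul_smul_comm]
    intro i _ ne
    rw [Pi.single_eq_of_ne ne, zero_smul]
  | zero => exact ⟨0, by simp⟩
  | add x y _ _ hx hy =>
    obtain ⟨γ, rfl⟩ := hx
    obtain ⟨γ', rfl⟩ := hy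
    exact ⟨γ + γ', by simp only [Pi.add_apply, add_smul, Finset.sum_add_distrib]⟩
  | smul r x _ hx =>
    obtain ⟨γ, rfl⟩ := hx
    exact ⟨r • γ, by simp only [Pi.smul_apply, smul_eq_mul, mul_smul, Finset.smul_sum]⟩

end M77

open M77 in
theorem min77 (cx : Cox T D s a) (un : Un T D G π U) (z : Fin n → L) (w : Fin n → Fin k → ℤ)
    (sp : ∀ e, ∀ φ ∈ Ie A m s a e, ∃ (I : Finset (Fin n)) (θ : Fin n → L) (γ : Fin n → ℂ),
      (∀ j ∈ I, U (e - w j) (θ j)) ∧ φ - ∑ j ∈ I, γ j • (z j * θ j) ∈ I2 A m s a e) :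
    ∃ J : Finset (Fin n), (∀ e, ∀ φ ∈ Ie A m s a e,
      ∃ (I : Finset (Fin n)) (θ : Fin n → L) (γ : Fin n → ℂ), I ⊆ J ∧
        (∀ j ∈ I, U (e - w j) (θ j)) ∧ φ - ∑ j ∈ I, γ j • (z j * θ j) ∈ I2 A m s a e) ∧
      ∀ (e : Fin k → ℤ) (I : Finset (Fin n)) (θ : Fin n → L) (γ : Fin n → ℂ), I ⊆ J →
        (∀ j ∈ I, U (e - w j) (θ j)) → ∑ j ∈ I, γ j • (z j * θ j) ∈ I2 A m s a e →
        ∀ j ∈ I, γ j = 0 := by
  classical
  let P : Finset (Fin n) → Prop := fun J =>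
    ∀ e, ∀ φ ∈ Ie A m s a e, φ ∈ Sy U z w J e ⊔ I2 A m s a e
  have p0 : P Finset.univ := fun e φ hφ => by
    obtain ⟨I, θ, γ, h1, h2⟩ := sp e φ hφ
    exact Submodule.mem_sup.2 ⟨_, sum_mem γ (Finset.subset_univ I) h1, _, h2, add_sub_cancel _ _⟩
  obtain ⟨J, hJ, mn⟩ := Finset.exists_min_image (Finset.univ.filter P) Finset.card
    ⟨_, Finset.mem_filter.2 ⟨Finset.mem_univ _, p0⟩⟩
  replace hJ : P J := (Finset.mem_filter.1 hJ).2
  refine ⟨J, fun e φ hφ => ?_, fun e I θ γ le hθ h j hj => by_contra fun ne => ?_⟩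
  · obtain ⟨x, hx, y, hy, rfl⟩ := Submodule.mem_sup.1 (hJ e φ hφ)
    obtain ⟨I, θ, γ, h1, h2, rfl⟩ := ex un hx
    exact ⟨I, θ, γ, h1, h2, by rwa [add_sub_cancel_left]⟩
  · have p1 : P (J.erase j) := fun e' φ hφ => by
      refine (show Sy U z w J e' ⊔ I2 A m s a e' ≤ Sy U z w (J.erase j) e' ⊔ I2 A m s a e' from
        sup_le (Submodule.span_le.2 ?_) le_sup_right) (hJ e' φ hφ)
      rintro _ ⟨i, hi, η, hη, rfl⟩
      by_cases c : i = j
      · subst c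
        have t0 := (un.pr _ _ (hθ i hj)).1
        have u : U (e' - e) (η * (θ i)⁻¹) := by
          have := un.mul _ _ _ _ hη (un.inv _ _ (hθ i hj))
          rwa [show e' - w i + -(e - w i) = e' - e by abel] at this
        have h1 := Tq.E87.i2_sp h (Tq.E87.pr_sp cx (un.pr _ _ u))
        rw [add_sub_cancel] at h1
        have h2 : ∑ x ∈ I.erase i, γ x • (z x * (θ x * (η * (θ i)⁻¹))) ∈ Sy U z w (J.erase i) e' :=
          sum_mem γ (Finset.erase_subset_erase _ le) fun x hx => by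
            have := un.mul _ _ _ _ (hθ x (Finset.mem_of_mem_erase hx)) u
            rwa [show e - w x + (e' - e) = e' - w x by abel] at this
        have e1 : z i * η = (γ i)⁻¹ • ((∑ x ∈ I, γ x • (z x * θ x)) * (η * (θ i)⁻¹) -
            ∑ x ∈ I.erase i, γ x • (z x * (θ x * (η * (θ i)⁻¹)))) := by
          rw [← Finset.add_sum_erase I _ hj, add_mul, Finset.sum_mul]
          simp only [smul_mul_assoc, mul_assoc, add_sub_cancel_right]
          rw [inv_smul_smul₀ ne, mul_left_comm (θ i), mul_inv_cancel₀ t0, mul_one]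
        rw [SetLike.mem_coe, e1]
        exact Submodule.smul_mem _ _
          (sub_mem (Submodule.mem_sup_right h1) (Submodule.mem_sup_left h2))
      · exact Submodule.mem_sup_left
          (Submodule.subset_span ⟨i, Finset.mem_erase.2 ⟨c, hi⟩, η, hη, rfl⟩)
    exact (mn _ (Finset.mem_filter.2 ⟨Finset.mem_univ _, p1⟩)).not_gt
      (Finset.card_erase_lt_of_mem (le hj))

theorem min77' (cx : Cox T D s a) (un : Un T D G π U) (z : Fin n → L) (w : Fin n → Fin k → ℤ)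
    (sp : ∀ e, ∀ φ ∈ Ie A m s a e, ∃ (I : Finset (Fin n)) (θ : Fin n → L) (γ : Fin n → ℂ),
      (∀ j ∈ I, U (e - w j) (θ j)) ∧ φ - ∑ j ∈ I, γ j • (z j * θ j) ∈ I2 A m s a e) :
    ∃ n' ≤ n, ∃ b : Fin n' → Fin n, Function.Injective b ∧ (∀ e, ∀ φ ∈ Ie A m s a e,
      ∃ (I : Finset (Fin n')) (θ : Fin n' → L) (γ : Fin n' → ℂ),
        (∀ j ∈ I, U (e - w (b j)) (θ j)) ∧ φ - ∑ j ∈ I, γ j • (z (b j) * θ j) ∈ I2 A m s a e) ∧
      ∀ (e : Fin k → ℤ) (I : Finset (Fin n')) (θ : Fin n' → L) (γ : Fin n' → ℂ),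
        (∀ j ∈ I, U (e - w (b j)) (θ j)) → ∑ j ∈ I, γ j • (z (b j) * θ j) ∈ I2 A m s a e →
        ∀ j ∈ I, γ j = 0 := by
  classical
  obtain ⟨J, h1, h2⟩ := min77 cx un z w sp
  let b : Fin J.card → Fin n := fun i => J.equivFin.symm i
  have bi : Function.Injective b := Subtype.val_injective.comp J.equivFin.symm.injective
  have bJ : ∀ i, b i ∈ J := fun i => (J.equivFin.symm i).2
  have hb : ∀ j ∈ J, ∃ i, b i = j := fun j hj => ⟨J.equivFin ⟨j, hj⟩, by simp [b]⟩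
  refine ⟨J.card, by simpa using J.card_le_univ, b, bi, fun e φ hφ => ?_,
    fun e I θ γ hθ h j hj => ?_⟩
  · obtain ⟨I, θ, γ, le, u, h⟩ := h1 e φ hφ
    refine ⟨Finset.univ.filter fun i => b i ∈ I, θ ∘ b, γ ∘ b,
      fun j hj => u _ (Finset.mem_filter.1 hj).2, ?_⟩
    convert h using 2
    refine Finset.sum_bij (fun i _ => b i) (fun i hi => (Finset.mem_filter.1 hi).2)
      (fun _ _ _ _ e => bi e) (fun j hj => ?_) fun _ _ => rfl
    obtain ⟨i, rfl⟩ := hb j (le hj)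
    exact ⟨i, Finset.mem_filter.2 ⟨Finset.mem_univ _, hj⟩, rfl⟩
  · have := h2 e (I.image b) (Function.extend b θ 0) (Function.extend b γ 0)
      (fun x hx => by
        obtain ⟨i, -, rfl⟩ := Finset.mem_image.1 hx
        exact bJ i)
      (fun x hx => by
        obtain ⟨i, hi, rfl⟩ := Finset.mem_image.1 hx
        rw [bi.extend_apply]
        exact hθ i hi)
      (by
        rw [Finset.sum_image fun _ _ _ _ e => bi e]
        simpa only [bi.extend_apply] using h) (b j) (Finset.mem_image_of_mem _ hj)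
    rwa [bi.extend_apply] at this

end Vale.Agent.P283R.Uq
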