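import Vale.Agent.P283R.Uq.Gen27
import Vale.Agent.P283R.Uq.Min77
import Vale.Agent.P283R.Uq.Loc79
import Vale.Agent.P283R.Tq.Sep87

/-!
# P283R, block UQ: pointed data after an invariant localisation
-/

open Set

noncomputable section

namespace Vale.Agent.P283R.Uq

open Vale.Agent.P287D Vale.Agent.P283M Vale.Agent.P283R.Cx
open Vale.Agent.P283R.Lx (Nz Ie)
open Vale.Agent.P283R.Lx.K33 (I2 IeS)
open Vale.Agent.P283R.Lx.O15
open Vale.Agent.P283R.Tq (cv)

namespace P27

variable {L : Type} [Field L] [Algebra ℂ L] {d k N : ℕ} {T : Set (Pl L)}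
  {D : Pl L → Fin k → ℤ} {s : Fin N → L} {a : Fin N → Fin k → ℤ} {A : Subalgebra ℂ L}
  {m : Ideal A} {g φ : L} {e : Fin k → ℤ} {G : Subgroup (L ≃ₐ[ℂ] L)} {π : Ac L k}
  {U : (Fin k → ℤ) → L → Prop}

/-- a function acts by its value modulo the square of the ideal -/
theorem act0 (p : Bu d T D s a A m G π U) (hg : Nz A m g) :
    ∃ c : ℂ, c ≠ 0 ∧ ∀ e, ∀ φ ∈ Ie A m s a e, g * φ - c • φ ∈ I2 A m s a e := by
  have : Algebra.FiniteType ℂ A := (Subalgebra.fg_iff_finiteType A).1 p.fg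
  have := p.max
  obtain ⟨c, hc⟩ := val m ⟨g, hg.1⟩
  refine ⟨c, fun z => hg.2 (by simpa [z] using hc), fun e φ h =>
    Submodule.subset_span ⟨0, _, ie_base p.zero hc, φ, by rwa [sub_zero], ?_⟩⟩
  simp [Algebra.smul_def, sub_mul]

theorem nz_pow (hm : m.IsMaximal) (hg : Nz A m g) : ∀ n : ℕ, Nz A m (g ^ n)
  | 0 => by simpa using nz_one hm.ne_top
  | n + 1 => pow_succ g n ▸ nz_mul hm.isPrime (nz_pow hm hg n) hg

end P27

open P27 in
/-- **PNTR** -/
theorem pntr27 : PNTR := by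
  rintro act tau nak d l L _ _ k N T D s a A m G π U p ⟨n, r, z, w, v, le, zi, hv, sp⟩
  classical
  obtain ⟨n', le', b, -, sp', mn⟩ := min77' p.cox p.un z w sp
  have stab : Stab G A := fun σ hσ x hx => (p.zero _).2 (by
    simpa using (act d L k N T D s a A m G π U p σ hσ 0 0 1
      (by simpa using u1 p.un) x).1.1 ((p.zero _).1 hx))
  obtain ⟨τ, hτ, fin, hn⟩ := tau L d A m G p.ff p.fg p.max p.gp.fin stab p.gp.stm
  obtain ⟨g, ga, gn, nk⟩ := nak d L k N T D s a A m G π U p _ _ τ (fun j => z (b j))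
    (fun j => w (b j)) (fun j => zi _) sp' (fun i => (hτ i).1) fin hn
  have gf : Fix G g := fun σ hσ => by
    clear gn nk
    induction ga using Algebra.adjoin_induction with
    | mem x hx => obtain ⟨i, rfl⟩ := hx; exact (hτ i).2 σ hσ
    | algebraMap c => exact σ.commutes c
    | add x y _ _ hx hy => rw [map_add, hx, hy]
    | mul x y _ _ hx hy => rw [map_mul, hx, hy]
  have g0 : g ≠ 0 := fun e => gn.2 (by
    have : (⟨_, gn.1⟩ : A) = 0 := Subtype.ext e
    exact this ▸ m.zero_mem)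
  have z0 : ∀ j, z (b j) ≠ 0 := fun j e => one_ne_zero (mn (w (b j)) {j} (fun _ => 1) (fun _ => 1)
    (fun i hi => by simpa [Finset.mem_singleton.1 hi] using u1 p.un) (by simp [e]) j
    (Finset.mem_singleton_self j))
  obtain ⟨y, β, out, cx⟩ := gen p.cox p.un p.zero p.max.ne_top (fun i => (hτ i).1) z0
    (fun j => (zi _).1) hv gn.1 g0 nk
  obtain ⟨A', m', p', nz, ie, i2⟩ := loc79 p gn gf cx
  let J : Finset (Fin (n' + (r + (d + 1) + 2))) := Finset.univ.map (Fin.castAddEmb _)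
  have hJ : ∀ j ∈ J, ∃ i, j = Fin.castAdd _ i := fun j hj =>
    let ⟨i, _, e⟩ := Finset.mem_map.1 hj; ⟨i, e.symm⟩
  have iJ : ∀ j ∈ J, Fin.append (fun j => z (b j)) y j ∈
      Ie A' m' _ _ (Fin.append (fun j => w (b j)) β j) := fun j hj => by
    obtain ⟨i, rfl⟩ := hJ j hj
    exact (ie _ _).2 ⟨0, by simpa using zi (b i)⟩
  refine ⟨g, _, _, _, A', m', J, gn, gf, ⟨p', by omega, fun j hj => ?_, iJ, fun e φ h => ?_,
    fun e I θ γ hI u h => ?_, fun i hi j hj ij => ?_⟩, fun x => (nz x).1⟩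
  · induction j using Fin.addCases with
    | left j => exact absurd (Finset.mem_map_of_mem _ (Finset.mem_univ j)) hj
    | right j => simpa using out j
  · obtain ⟨q, hq⟩ := (ie e φ).1 h
    obtain ⟨I, θ, γ, u, h'⟩ := sp' e _ hq
    obtain ⟨c, c0, hc⟩ := act0 p' ((nz (g ^ q)).2 ⟨0, by simpa using nz_pow p.max gn q⟩)
    refine ⟨I.map (Fin.castAddEmb _), Fin.append θ 0, Fin.append (fun j => c⁻¹ * γ j) 0,
      Finset.map_subset_map.2 (Finset.subset_univ _), fun j hj => ?_, ?_⟩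
    · obtain ⟨i, hi, rfl⟩ := Finset.mem_map.1 hj
      simpa using u i hi
    · have := Submodule.smul_mem _ c⁻¹
        (sub_mem ((i2 e _).2 ⟨0, by rw [pow_zero, one_mul]; exact h'⟩) (hc e φ h))
      rw [sub_sub_sub_cancel_left, smul_sub, inv_smul_smul₀ c0, Finset.smul_sum] at this
      simpa [mul_smul] using this
  · obtain ⟨I, -, rfl⟩ := Finset.subset_map_iff.1 hI
    have u' : ∀ j ∈ I, U (e - w (b j)) (θ (Fin.castAdd _ j)) := fun j hj => by
      simpa using u _ (Finset.mem_map_of_mem _ hj)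
    obtain ⟨q, hq⟩ := (i2 e _).1 h
    obtain ⟨c, c0, hc⟩ := act0 p (nz_pow p.max gn q)
    simp only [Finset.sum_map, Fin.castAddEmb_apply, Fin.append_left] at hq
    have := Submodule.smul_mem _ c⁻¹ (sub_mem hq (hc e _ (sum_mem (S := IeS p.zero m e)
      fun j hj => Submodule.smul_mem (IeS p.zero m e) (γ (Fin.castAdd _ j)) (by
        have := ie_mul (zi (b j)) (u_sp p.cox p.un (u' j hj))
        rwa [add_sub_cancel] at this))))
    rw [sub_sub_cancel, inv_smul_smul₀ c0] at this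
    intro j hj
    obtain ⟨i, hi, rfl⟩ := Finset.mem_map.1 hj
    exact mn e I _ (fun j => γ (Fin.castAdd _ j)) u' this i hi
  · have np : ∀ j ∈ J, ¬ Tq.Pr {P ∈ T | P.ord g = 0} D (Fin.append (fun j => w (b j)) β j)
        (Fin.append (fun j => z (b j)) y j) := fun j hj c => (iJ j hj).2 _
      ((cx.sec _ _ (inv_ne_zero c.1)).2 fun P h => by
        have := c.2 P h
        rw [P.ord_inv, neg_dotProduct]
        omega) (by rw [mul_inv_cancel₀ c.1]; exact nz_one p'.max.ne_top)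
    exact Tq.sep87 cx (np i hi) (np j hj) ij

end Vale.Agent.P283R.Uq
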