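import Vale.Agent.P283R.Uq.St

/-!
# P283R, block UQ: the localisation at an invariant function
-/

open Set

noncomputable section

namespace Vale.Agent.P283R.Uq

open Vale.Agent.P287D Vale.Agent.P283M Vale.Agent.P283R.Cx Vale.Agent.P297Z
open Vale.Agent.P283R.Lx (Nz Ie)
open Vale.Agent.P283R.Lx.K33 (I2 IeS)
open Vale.Agent.P283R.Lx.O15

variable {L : Type} [Field L] [Algebra ℂ L] {d k N N' : ℕ} {T : Set (Pl L)}
  {D : Pl L → Fin k → ℤ} {G : Subgroup (L ≃ₐ[ℂ] L)} {π : Ac L k} {U : (Fin k → ℤ) → L → Prop}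
  {s : Fin N → L} {a : Fin N → Fin k → ℤ} {A : Subalgebra ℂ L} {m : Ideal A} {g : L}
  {s' : Fin N' → L} {a' : Fin N' → Fin k → ℤ}

namespace L77

/-- the localised ring -/
def Al (hg : g ∈ A) : Subalgebra ℂ L where
  carrier := {x | ∃ n : ℕ, g ^ n * x ∈ A}
  mul_mem' := by
    rintro x y ⟨i, hi⟩ ⟨j, hj⟩
    exact ⟨i + j, by rw [pow_add, mul_mul_mul_comm]; exact mul_mem hi hj⟩
  add_mem' := by
    rintro x y ⟨i, hi⟩ ⟨j, hj⟩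
    refine ⟨i + j, ?_⟩
    rw [show g ^ (i + j) * (x + y) = g ^ j * (g ^ i * x) + g ^ i * (g ^ j * y) by ring]
    exact add_mem (mul_mem (pow_mem hg _) hi) (mul_mem (pow_mem hg _) hj)
  algebraMap_mem' := fun r => ⟨0, by simp⟩

/-- the localised ideal -/
def Ml (m : Ideal A) (hg : g ∈ A) : Ideal (Al hg) where
  carrier := {x | ∃ (n : ℕ) (h : g ^ n * x ∈ A), (⟨_, h⟩ : A) ∈ m}
  zero_mem' := ⟨0, by simp, by
    convert m.zero_mem using 1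
    exact Subtype.ext (by simp)⟩
  add_mem' := by
    rintro x y ⟨i, hi, hi'⟩ ⟨j, hj, hj'⟩
    have e : g ^ (i + j) * ((x + y : Al hg) : L) = g ^ j * (g ^ i * x) + g ^ i * (g ^ j * y) := by
      rw [Subalgebra.coe_add]; ring
    refine ⟨i + j, e ▸ add_mem (mul_mem (pow_mem hg _) hi) (mul_mem (pow_mem hg _) hj), ?_⟩
    convert m.add_mem (m.mul_mem_left ⟨_, pow_mem hg j⟩ hi') (m.mul_mem_left ⟨_, pow_mem hg i⟩ hj')
      using 1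
    exact Subtype.ext e
  smul_mem' := by
    rintro ⟨c, i, hi⟩ y ⟨j, hj, hj'⟩
    have e : g ^ (i + j) * (((⟨c, i, hi⟩ : Al hg) • y : Al hg) : L) = (g ^ i * c) * (g ^ j * y) := by
      rw [smul_eq_mul, Subalgebra.coe_mul]; ring
    refine ⟨i + j, e ▸ mul_mem hi hj, ?_⟩
    convert m.mul_mem_left ⟨_, hi⟩ hj' using 1
    exact Subtype.ext e

theorem nz_pow (hm : m.IsPrime) (hg : Nz A m g) (n : ℕ) : Nz A m (g ^ n) := by
  induction n with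
  | zero => rw [pow_zero]; exact nz_one hm.ne_top
  | succ n ih => rw [pow_succ]; exact nz_mul hm ih hg

theorem nz_iff (hm : m.IsPrime) (hg : Nz A m g) {x : L} :
    Nz (Al hg.1) (Ml m hg.1) x ↔ ∃ n : ℕ, Nz A m (g ^ n * x) := by
  refine ⟨fun ⟨⟨n, h⟩, h'⟩ => ⟨n, h, fun c => h' ⟨n, h, c⟩⟩, fun ⟨n, h⟩ => ⟨⟨n, h.1⟩, ?_⟩⟩
  rintro ⟨j, hj, hj'⟩
  refine (nz_mul hm (nz_pow hm hg j) h).2 ?_
  convert m.mul_mem_left ⟨_, pow_mem hg.1 n⟩ hj' using 1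
  exact Subtype.ext (mul_left_comm _ _ _)

theorem cst (fg : A.FG) (hm : m.IsMaximal) {x : L} (hx : Nz A m x) :
    ∃ c : ℂ, c ≠ 0 ∧ ∃ h : x - algebraMap ℂ L c ∈ A, (⟨_, h⟩ : A) ∈ m := by
  have : Algebra.FiniteType ℂ A := (Subalgebra.fg_iff_finiteType _).1 fg
  obtain ⟨c, hc⟩ := val m ⟨x, hx.1⟩
  refine ⟨c, ?_, sub_mem hx.1 (A.algebraMap_mem c), hc⟩
  rintro rfl
  exact hx.2 (by simpa using hc)

theorem ie_i2 (hz : ∀ x, x ∈ A ↔ x ∈ Sp s a 0) {x φ : L} {e : Fin k → ℤ} (h : x ∈ A)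
    (hx : (⟨x, h⟩ : A) ∈ m) (hφ : φ ∈ Ie A m s a e) : x * φ ∈ I2 A m s a e :=
  Submodule.subset_span ⟨0, x, ie_base hz hx, φ, by rwa [sub_zero], rfl⟩

end L77

open L77 in
theorem loc77 (b : Bu d T D s a A m G π U) (hg : Nz A m g) (fx : Fix G g) (ne : ∀ j, s' j ≠ 0)
    (h : ∀ e φ, φ ∈ Sp s' a' e ↔ ∃ n : ℕ, g ^ n * φ ∈ Sp s a e) :
    ∃ (A' : Subalgebra ℂ L) (m' : Ideal A'),
      Bu d {P ∈ T | P.ord g = 0} D s' a' A' m' G π U ∧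
      (∀ x, Nz A' m' x → ∃ n : ℕ, Nz A m (g ^ n * x)) ∧
      (∀ e, ∀ φ ∈ Ie A m s a e, φ ∈ Ie A' m' s' a' e) ∧
      (∀ e, ∀ φ ∈ Ie A' m' s' a' e, ∃ ψ ∈ Ie A m s a e, φ - ψ ∈ I2 A' m' s' a' e) ∧
      (∀ e, I2 A m s a e ≤ I2 A' m' s' a' e) ∧
      ∀ e, ∀ φ ∈ Ie A m s a e, φ ∈ I2 A' m' s' a' e → φ ∈ I2 A m s a e := by
  have hm := b.max.isPrime
  have nz := fun x => nz_iff hm hg (x := x)
  have g0 : g ≠ 0 := fun e => hg.2 (by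
    have : (⟨_, hg.1⟩ : A) = 0 := Subtype.ext e
    exact this ▸ m.zero_mem)
  have gp : ∀ n : ℕ, g ^ n ∈ Sp s a 0 := fun n => (b.zero _).1 (pow_mem hg.1 n)
  have up : ∀ e, ∀ φ ∈ Sp s a e, φ ∈ Sp s' a' e := fun e φ x => (h e φ).2 ⟨0, by simpa using x⟩
  have hz : ∀ x, x ∈ Al hg.1 ↔ x ∈ Sp s' a' 0 := fun x =>
    ((h 0 x).trans (exists_congr fun n => (b.zero _).symm)).symm
  have i1 : ∀ e φ, φ ∈ Ie (Al hg.1) (Ml m hg.1) s' a' e ↔ ∃ n : ℕ, g ^ n * φ ∈ Ie A m s a e := by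
    refine fun e φ => ⟨fun x => ?_, fun ⟨n, x⟩ => ⟨(h e φ).2 ⟨n, x.1⟩, fun ψ y c => ?_⟩⟩
    · obtain ⟨n, y⟩ := (h e φ).1 x.1
      exact ⟨n, y, fun ψ z c => x.2 ψ (up _ _ z) ((nz _).2 ⟨n, by rwa [← mul_assoc]⟩)⟩
    · obtain ⟨i, y⟩ := (h _ ψ).1 y
      obtain ⟨j, c⟩ := (nz _).1 c
      have y' := sp_mul (gp j) y
      rw [zero_add] at y'
      refine x.2 _ y' ?_
      have := nz_mul hm (nz_pow hm hg (n + i)) c
      rwa [show g ^ (n + i) * (g ^ j * (φ * ψ)) = g ^ n * φ * (g ^ j * (g ^ i * ψ)) by ring] at this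
  have i2 : ∀ e, ∀ φ ∈ Ie A m s a e, φ ∈ Ie (Al hg.1) (Ml m hg.1) s' a' e := fun e φ x =>
    (i1 e φ).2 ⟨0, by simpa using x⟩
  have mu : ∀ {x : L} (h : x ∈ A), (⟨x, h⟩ : A) ∈ m →
      ∃ h' : x ∈ Al hg.1, (⟨x, h'⟩ : Al hg.1) ∈ Ml m hg.1 := fun {x} h c =>
    ⟨⟨0, by simpa using h⟩, 0, by simpa using h, by simpa using c⟩
  have key : ∀ (j : ℕ) (P : Pl L) {ψ : L}, ψ ≠ 0 →
      P.ord (g ^ j * ψ) = j * P.ord g + P.ord ψ := fun j P ψ ψ0 => by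
    rw [Pl.ord_mul _ (pow_ne_zero _ g0) ψ0, Pl.ord_pow]
  have sec : ∀ e ψ, ψ ≠ 0 → (ψ ∈ Sp s' a' e ↔
      ∀ P ∈ {P ∈ T | P.ord g = 0}, 0 ≤ P.ord ψ + e ⬝ᵥ D P) := fun e ψ ψ0 => by
    rw [h]
    constructor
    · rintro ⟨j, hj⟩ P ⟨hP, h0⟩
      have := (b.cox.sec e _ (mul_ne_zero (pow_ne_zero _ g0) ψ0)).1 hj P hP
      rwa [key _ _ ψ0, h0, mul_zero, zero_add] at this
    · intro H
      obtain ⟨j, hj⟩ := ((b.cox.fin ψ e).image fun P => (P.ord ψ + e ⬝ᵥ D P).natAbs).bddAbove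
      refine ⟨j, (b.cox.sec e _ (mul_ne_zero (pow_ne_zero _ g0) ψ0)).2 fun P hP => ?_⟩
      rw [key _ _ ψ0, add_assoc]
      have nn : 0 ≤ P.ord g := by
        simpa using (b.cox.sec 0 g g0).1 ((b.zero _).1 hg.1) P hP
      rcases nn.eq_or_lt with h0 | h0
      · rw [← h0, mul_zero, zero_add]
        exact H P ⟨hP, h0.symm⟩
      · have j0 : (j : ℤ) ≤ j * P.ord g := le_mul_of_one_le_right (Int.natCast_nonneg j) h0
        by_cases z : P.ord ψ + e ⬝ᵥ D P = 0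
        · omega
        · have : (P.ord ψ + e ⬝ᵥ D P).natAbs ≤ j := hj ⟨P, ⟨hP, z⟩, rfl⟩
          omega
  have cx : Cox {P ∈ T | P.ord g = 0} D s' a' := ⟨ne, sec,
    fun φ e => (b.cox.fin φ e).subset fun P c => ⟨c.1.1, c.2⟩,
    fun φ => by
      obtain ⟨e, x, h1, y, h2, h3⟩ := b.cox.fr0 φ
      exact ⟨e, x, up _ _ h1, y, up _ _ h2, h3⟩,
    fun e => by
      obtain ⟨e', x, h1, y, h2, h3⟩ := b.cox.fr1 e
      exact ⟨e', x, up _ _ h1, y, up _ _ h2, h3⟩⟩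
  have fg : (Al hg.1).FG := Tq.T20.fg0 hz
  have mx : (Ml m hg.1).IsMaximal := by
    refine Ideal.isMaximal_iff.2 ⟨fun c => ((nz 1).2 ⟨0, by simpa using nz_one hm.ne_top⟩).2 c,
      fun J x le c hx => ?_⟩
    obtain ⟨n, y⟩ := (nz x).1 ⟨x.2, c⟩
    obtain ⟨r, r0, y1, y2⟩ := cst b.fg b.max y
    obtain ⟨y3, y4⟩ := mu y1 y2
    have h1 := J.sub_mem (J.mul_mem_left ⟨g ^ n, 0, by simpa using pow_mem hg.1 n⟩ hx) (le y4)
    have h2 := J.mul_mem_left (algebraMap ℂ _ r⁻¹) h1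
    convert h2 using 1
    refine Subtype.ext ?_
    simp only [Subalgebra.coe_mul, Subalgebra.coe_sub, Subalgebra.coe_one, sub_sub_cancel,
      Subalgebra.coe_algebraMap]
    rw [← map_mul, inv_mul_cancel₀ r0, map_one]
  have red : ∀ e, ∀ φ ∈ Sp s' a' e, ∀ n : ℕ, ∃ (r : ℂ) (x : L) (h' : x ∈ Al hg.1),
      (⟨x, h'⟩ : Al hg.1) ∈ Ml m hg.1 ∧ φ - r • (g ^ n * φ) = x * φ := fun e φ _ n => by
    obtain ⟨r, r0, y1, y2⟩ := cst b.fg b.max (nz_pow hm hg n)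
    obtain ⟨y3, y4⟩ := mu y1 y2
    refine ⟨r⁻¹, (-r⁻¹) • (g ^ n - algebraMap ℂ L r), Subalgebra.smul_mem _ y3 _,
      Submodule.smul_of_tower_mem _ (-r⁻¹) y4, ?_⟩
    rw [smul_mul_assoc, sub_mul, ← Algebra.smul_def, smul_sub, smul_smul, neg_mul,
      inv_mul_cancel₀ r0, neg_smul, neg_smul, one_smul]
    abel
  refine ⟨Al hg.1, Ml m hg.1, ⟨b.ff, cx, hz, fg, mx, ⟨b.gp.fin, fun σ hσ P c P' e =>
    ⟨b.gp.stT σ hσ P c.1 P' e, by rw [e, fx σ hσ]; exact c.2⟩, fun σ hσ x c => ?_⟩,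
    ⟨fun σ hσ e => ⟨(b.pm.rel σ hσ e).1, fun P c => (b.pm.rel σ hσ e).2 P c.1⟩, b.pm.one, b.pm.cmp⟩,
    ⟨fun e θ u => ⟨(b.un.pr e θ u).1, fun P c => (b.un.pr e θ u).2 P c.1⟩, b.un.mul, b.un.inv,
      b.un.cst, b.un.act⟩, fun e φ hφ => ?_⟩, fun x => (nz x).1, i2, fun e φ hφ => ?_,
    fun e => Submodule.span_mono ?_, fun e φ hφ c => ?_⟩
  · obtain ⟨n, c⟩ := (nz x).1 c
    have := b.gp.stm σ hσ _ c
    rw [map_mul, map_pow, fx σ hσ] at this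
    exact (nz _).2 ⟨n, this⟩
  · obtain ⟨n, c⟩ := (h e φ).1 hφ
    rcases b.orb e _ c with c | ⟨θ, γ, u, c⟩
    · exact .inl ((i1 e φ).2 ⟨n, c⟩)
    · obtain ⟨r, x, x1, x2, e1⟩ := red e φ hφ n
      refine .inr ⟨θ, r * γ, u, ?_⟩
      have h1 : x * φ ∈ IeS hz (Ml m hg.1) e := by
        have := ie_mul (ie_base hz x2) hφ
        rwa [zero_add] at this
      have h2 : r • (g ^ n * φ - γ • θ) ∈ IeS hz (Ml m hg.1) e :=
        Submodule.smul_mem _ r (i2 e _ c)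
      have := add_mem h1 h2
      rwa [← e1, smul_sub, smul_smul, sub_add_sub_cancel] at this
  · obtain ⟨n, c⟩ := (i1 e φ).1 hφ
    obtain ⟨r, x, x1, x2, e1⟩ := red e φ hφ.1 n
    exact ⟨r • (g ^ n * φ), (IeS b.zero m e).smul_mem r c, e1 ▸ ie_i2 hz x1 x2 hφ⟩
  · rintro _ ⟨e1, x, hx, y, hy, rfl⟩
    exact ⟨e1, x, i2 _ _ hx, y, i2 _ _ hy, rfl⟩
  · have pw : ∀ n : ℕ, ∀ x ∈ I2 A m s a e, g ^ n * x ∈ I2 A m s a e := fun n x hx => by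
      have := Tq.E87.i2_sp hx (gp n)
      rwa [add_zero, mul_comm] at this
    have dn : ∀ x ∈ I2 (Al hg.1) (Ml m hg.1) s' a' e, ∃ n : ℕ, g ^ n * x ∈ I2 A m s a e := by
      intro x hx
      induction hx using Submodule.span_induction with
      | mem x hx =>
        obtain ⟨e1, x, hx, y, hy, rfl⟩ := hx
        obtain ⟨i, hx⟩ := (i1 _ _).1 hx
        obtain ⟨j, hy⟩ := (i1 _ _).1 hy
        exact ⟨i + j, Submodule.subset_span ⟨e1, _, hx, _, hy, by ring⟩⟩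
      | zero => exact ⟨0, by simp⟩
      | add x y _ _ hx hy =>
        obtain ⟨i, hx⟩ := hx
        obtain ⟨j, hy⟩ := hy
        refine ⟨i + j, ?_⟩
        rw [show g ^ (i + j) * (x + y) = g ^ j * (g ^ i * x) + g ^ i * (g ^ j * y) by ring]
        exact add_mem (pw _ _ hx) (pw _ _ hy)
      | smul r x _ hx =>
        obtain ⟨i, hx⟩ := hx
        exact ⟨i, by rw [mul_smul_comm]; exact Submodule.smul_mem _ r hx⟩
    obtain ⟨n, c⟩ := dn φ c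
    obtain ⟨r, r0, y1, y2⟩ := cst b.fg b.max (nz_pow hm hg n)
    have := Submodule.smul_mem _ r⁻¹ (sub_mem c (ie_i2 b.zero y1 y2 hφ))
    rwa [sub_mul, sub_sub_cancel, ← Algebra.smul_def, inv_smul_smul₀ r0] at this

end Vale.Agent.P283R.Uq
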