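import Vale.Agent.P283R.Uq.St2
import Vale.Agent.P283R.Uq.Act39
import Vale.Agent.P283R.Uq.Loc77
import Vale.Agent.P283R.Tq.Spn35

/-!
# P283R, block UQ: the units which are to be adjoined
-/

open Set

noncomputable section

namespace Vale.Agent.P283R.Uq

open Vale.Agent.P297Z Vale.Agent.P287D Vale.Agent.P283M Vale.Agent.P283R.Cx
open Vale.Agent.P283R.Lx (Nz Ie Orb)
open Vale.Agent.P283R.Lx.O15
open Vale.Agent.P283R.Tq (Cj Rel Gp cv)
open Vale.Agent.P283R.Tq.A15 (ex rel_neg)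
open Vale.Agent.P283R.Tq.S35 (pr_mul pr_inv pr_pow pr_prod)

namespace P39

variable {L : Type} [Field L] [Algebra ℂ L] {d k N r : ℕ} {T : Set (P287D.Pl L)}
  {D : P287D.Pl L → Fin k → ℤ} {s : Fin N → L} {a : Fin N → Fin k → ℤ} {A : Subalgebra ℂ L}
  {m : Ideal A} {G : Subgroup (L ≃ₐ[ℂ] L)} {π : Ac L k} {σ : L ≃ₐ[ℂ] L} {e : Fin k → ℤ}
  {γ u : L}

omit [Algebra ℂ L] in
theorem zsum {ι : Type} {z : L} (z0 : z ≠ 0) (I : Finset ι) (f : ι → ℤ) :
    z ^ ∑ i ∈ I, f i = ∏ i ∈ I, z ^ f i := by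
  classical
  induction I using Finset.induction_on with
  | empty => simp
  | insert i I hi ih => rw [Finset.sum_insert hi, Finset.prod_insert hi, zpow_add₀ z0, ih]

theorem nz_prod {ι : Type} (hm : m.IsPrime) (I : Finset ι) {f : ι → L}
    (h : ∀ i, Nz A m (f i)) : Nz A m (∏ i ∈ I, f i) :=
  Finset.prod_induction f _ (fun _ _ => nz_mul hm) (nz_one hm.ne_top) fun i _ => h i

theorem nz0 (h : Nz A m u) : u ≠ 0 := by
  rintro rfl
  exact h.2 m.zero_mem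

theorem pr_zpow (h : Tq.Pr T D e u) (n : ℤ) : Tq.Pr T D (n • e) (u ^ n) :=
  ⟨zpow_ne_zero _ h.1, fun P hP => by
    have x : P.ord (u ^ n) = n * P.ord u := Pl.ord_zpow _ _ _
    rw [x, smul_dotProduct, smul_eq_mul, ← mul_add, h.2 P hP, mul_zero]⟩

variable (h : Rw d T D s a A m G π)

include h

theorem ge (hx : u ∈ A) (u0 : u ≠ 0) {P : P287D.Pl L} (hP : P ∈ T) : 0 ≤ P.ord u := by
  simpa using (h.cox.sec _ _ u0).1 ((h.zero u).1 hx) P hP

theorem loc (g : Nz A m γ) (p : Tq.Pr (Tz T γ) D 0 u) : ∃ n : ℕ, γ ^ n * u ∈ A := by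
  have g0 := nz0 g
  obtain ⟨n, hn⟩ := ((h.cox.fin u 0).image fun P => (P.ord u).natAbs).bddAbove
  refine ⟨n, (h.zero _).2 ((h.cox.sec _ _ (mul_ne_zero (pow_ne_zero _ g0) p.1)).2 fun P hP => ?_)⟩
  have b := ge h g.1 g0 hP
  have x : P.ord (γ ^ n * u) = P.ord (γ ^ n) + P.ord u := Pl.ord_mul _ (pow_ne_zero _ g0) p.1
  have y : P.ord (γ ^ n) = n * P.ord γ := Pl.ord_pow _ _ _
  rw [zero_dotProduct, add_zero, x, y]
  by_cases z : 0 ≤ P.ord u
  · exact add_nonneg (mul_nonneg (Int.natCast_nonneg n) b) z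
  have : (P.ord u).natAbs ≤ n := hn ⟨P, ⟨hP, fun q => z (by simpa using q.ge)⟩, rfl⟩
  have g1 : 1 ≤ P.ord γ := by_contra fun q => z (by simpa using (p.2 P ⟨hP, by omega⟩).ge)
  have := mul_le_mul_of_nonneg_left g1 (Int.natCast_nonneg n)
  omega

theorem on1 (g : Nz A m γ) (p : Tq.Pr (Tz T γ) D 0 u) : ∃ y : ℂ, y ≠ 0 ∧ On1 T D A m γ (y • u) := by
  have hm := h.max.isPrime
  obtain ⟨n, hn⟩ := loc h g p
  obtain ⟨n', hn'⟩ := loc h g (neg_zero (G := Fin k → ℤ) ▸ pr_inv p)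
  have z : Nz A m (γ ^ n * u) := ⟨hn, fun c => (L77.nz_pow hm g (n + n')).2 (by
    convert m.mul_mem_right ⟨_, hn'⟩ c using 1
    refine Subtype.ext ?_
    show γ ^ (n + n') = γ ^ n * u * (γ ^ n' * u⁻¹)
    have := p.1
    field_simp
    ring)⟩
  obtain ⟨x, x0, hx, mx⟩ := L77.cst h.fg h.max z
  obtain ⟨y, y0, hy, my⟩ := L77.cst h.fg h.max (L77.nz_pow hm g n)
  have q : γ ^ n * ((y / x) • u - 1) =
      (y / x) • (γ ^ n * u - algebraMap ℂ L x) - (γ ^ n - algebraMap ℂ L y) := by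
    have : algebraMap ℂ L x ≠ 0 := by simpa using x0
    simp only [Algebra.smul_def, map_div₀]
    field_simp
    ring
  refine ⟨y / x, div_ne_zero y0 x0, ⟨smul_ne_zero (div_ne_zero y0 x0) p.1, fun P hP => ?_⟩, n,
    q ▸ sub_mem (A.smul_mem hx _) hy, fun c => c.2 ?_⟩
  · rw [P.ord_smul (div_ne_zero y0 x0)]
    exact p.2 P hP
  · convert m.sub_mem (m.smul_of_tower_mem (y / x) mx) my using 1
    exact Subtype.ext q

theorem pr_act (fx : Fix G γ) (hσ : σ ∈ G) (p : Tq.Pr (Tz T γ) D e u) :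
    Tq.Pr (Tz T γ) D (π σ e) (σ u) :=
  ⟨by simpa using p.1, fun P hP => by
    obtain ⟨P', c⟩ := ex σ P
    have x := (h.pm.rel σ hσ e).2 P hP.1 P' c
    have y := p.2 P' ⟨h.gp.stT σ hσ P hP.1 P' c, by rw [c, fx σ hσ]; exact hP.2⟩
    rw [Pl.ord_one, zero_add] at x
    rwa [c, x] at y⟩

end P39

open P39 in
/-- **PRE** -/
theorem pre39 : PRE := by
  intro L _ _ d k N T D s a A m G π h F _ _ _ t p r v w o
  classical
  have := h.gp.fin
  have := Fintype.ofFinite G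
  have hm := h.max.isPrime
  choose w' hw' nz using o.inv
  have w0 : ∀ j, w j ≠ 0 := fun j => left_ne_zero_of_mul (nz0 (nz j))
  have w0' : ∀ j, w' j ≠ 0 := fun j => right_ne_zero_of_mul (nz0 (nz j))
  have ex : ∀ (σ : G) j, ∃ n, π σ (v j) = cv v n := fun σ j => by
    have q := h.pm.rel σ σ.2 (v j)
    obtain ⟨n, hn⟩ := (Submodule.mem_span_range_iff_exists_fun ℤ).1
      (o.spn _ _ (A39.sp h.cox h.gp σ.2 q (o.mem j)) fun i =>
        i.2 _ (A39.sp h.cox h.gp σ.2 (rel_neg q) (hw' j)) (by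
          simpa using h.gp.stm σ σ.2 _ (nz j)))
    exact ⟨n, hn.symm⟩
  choose M hM using ex
  have cmp : ∀ (ρ σ : G) j l, M (ρ * σ) j l = ∑ i, M σ j i * M ρ i l := fun ρ σ j l => by
    refine (Fintype.linearIndependent_iffₛ.1 o.ind) _ (fun l => ∑ i, M σ j i * M ρ i l) ?_ l
    refine (hM (ρ * σ) j).symm.trans ?_
    rw [Subgroup.coe_mul, h.pm.cmp _ ρ.2 _ σ.2, hM σ j, cv, map_sum]
    simp only [map_zsmul, hM, cv, Finset.smul_sum, Finset.sum_smul, mul_smul]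
    exact Finset.sum_comm
  have nf : ∀ (σ : G) j, Nz A m (σ.1 (w j * w' j)) := fun σ j => h.gp.stm σ σ.2 _ (nz j)
  let γ : L := ∏ σ : G, ∏ j, σ.1 (w j * w' j)
  have g : Nz A m γ := nz_prod hm _ fun σ => nz_prod hm _ (nf σ)
  have fx : Fix G γ := fun τ hτ => by
    simp only [γ]
    rw [map_prod]
    exact Fintype.prod_equiv (Equiv.mulLeft ⟨τ, hτ⟩) _ _ fun σ => by rw [map_prod]; rfl
  have pw : ∀ j, Tq.Pr (Tz T γ) D (v j) (w j) := fun j => ⟨w0 j, fun P hP => by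
    have e1 : P.ord γ = ∑ σ : G, ∑ j, P.ord (σ.1 (w j * w' j)) :=
      (P.ord_prod _ fun σ _ => nz0 (nz_prod hm _ (nf σ))).trans
        (Finset.sum_congr rfl fun σ _ => P.ord_prod _ fun j _ => nz0 (nf σ j))
    have e2 := fun (σ : G) j => ge h (nf σ j).1 (nz0 (nf σ j)) hP.1
    have e3 : P.ord (w j * w' j) = 0 := (Finset.sum_eq_zero_iff_of_nonneg fun j _ => e2 1 j).1
      ((Finset.sum_eq_zero_iff_of_nonneg fun σ _ => Finset.sum_nonneg fun j _ => e2 σ j).1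
        (e1.symm.trans hP.2) 1 (Finset.mem_univ _)) j (Finset.mem_univ _)
    have e4 : P.ord (w j * w' j) = P.ord (w j) + P.ord (w' j) := Pl.ord_mul _ (w0 j) (w0' j)
    have e5 := (h.cox.sec _ _ (w0 j)).1 (o.mem j) P hP.1
    have e6 := (h.cox.sec _ _ (w0' j)).1 (hw' j) P hP.1
    rw [neg_dotProduct] at e6
    omega⟩
  let n : Fin r → L := fun j => ∏ τ : G, (τ⁻¹).1 (∏ i, w i ^ M τ j i)
  have pn : ∀ j, Tq.Pr (Tz T γ) D 0 (n j * (w j ^ Nat.card G)⁻¹) := fun j => by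
    have x := pr_mul (pr_prod Finset.univ fun (τ : G) _ => pr_act h fx (τ⁻¹).2
      (pr_prod Finset.univ fun i _ => pr_zpow (pw i) (M τ j i)))
      (pr_inv (pr_pow (pw j) (Nat.card G)))
    convert x using 1
    have : ∀ τ : G, π (τ⁻¹).1 (∑ i, M τ j i • v i) = v j := fun τ => by
      rw [← cv, ← hM, ← h.pm.cmp _ (τ⁻¹).2 _ τ.2, ← Subgroup.coe_mul, inv_mul_cancel,
        Subgroup.coe_one, h.pm.one]
    rw [Finset.sum_congr rfl fun τ _ => this τ]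
    simp
  choose y y0 hy using fun j => on1 h g (pn j)
  have en : ∀ j, w j ^ Nat.card G * y j • (n j * (w j ^ Nat.card G)⁻¹) = y j • n j := fun j => by
    rw [mul_smul_comm, mul_left_comm, mul_inv_cancel₀ (pow_ne_zero _ (w0 j)), mul_one]
  refine ⟨γ, _, g, fx, fun j => ⟨pw j, hy j⟩, fun σ hσ j =>
    ⟨M ⟨σ, hσ⟩ j, y j / ∏ i, y i ^ M ⟨σ, hσ⟩ j i, div_ne_zero (y0 j)
      (Finset.prod_ne_zero_iff.2 fun i _ => zpow_ne_zero _ (y0 i)), hM ⟨σ, hσ⟩ j, ?_⟩⟩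
  have ac : σ (n j) = ∏ i, n i ^ M ⟨σ, hσ⟩ j i := by
    simp only [n, ← Finset.prod_zpow]
    rw [map_prod, Finset.prod_comm]
    refine (Fintype.prod_equiv (Equiv.mulRight ⟨σ, hσ⟩) _ _ fun ρ => ?_).symm
    simp only [Equiv.coe_mulRight, cmp, zsum (w0 _), mul_inv_rev, Subgroup.coe_mul,
      AlgEquiv.mul_apply, ← map_zpow₀, ← map_prod]
    rw [← AlgEquiv.mul_apply σ, show σ * (⟨σ, hσ⟩⁻¹ : G).1 = 1 from mul_inv_cancel σ,
      AlgEquiv.one_apply, Finset.prod_comm (f := fun x i => w x ^ (M ⟨σ, hσ⟩ j i * M ρ i x))]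
    simp only [← Finset.prod_zpow, ← zpow_mul, mul_comm]
  have : ∏ i, algebraMap ℂ L (y i) ^ M ⟨σ, hσ⟩ j i ≠ 0 :=
    Finset.prod_ne_zero_iff.2 fun i _ => zpow_ne_zero _ (by simpa using y0 i)
  simp only [en]
  rw [map_smul, ac]
  simp only [Algebra.smul_def, mul_zpow, Finset.prod_mul_distrib, map_div₀, map_prod, map_zpow₀]
  field_simp

end Vale.Agent.P283R.Uq
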