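import Vale.Agent.P283R.Uq.St2

/-!
# P283R, block UQ: the row QTF
-/

set_option linter.all false

open Set

noncomputable section

namespace Vale.Agent.P283R.Uq

open Vale.Agent.P287D Vale.Agent.P283M Vale.Agent.P283R.Cx
open H.Hc (Kf mem_Kf fix_val ff_fix)

/-- **QTF** -/
theorem qtf12 : QTF := by
  intro K L _ _ _ _ _ _ d T H hK hL fH fx st un
  let j : K →+* Kf H := (algebraMap K L).codRestrict (Kf H) fun x => mem_Kf.2 (fx x)
  let _ : Algebra K (Kf H) := j.toAlgebra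
  have t1 : IsScalarTower ℂ K (Kf H) := .of_algebraMap_eq fun x =>
    Subtype.ext (IsScalarTower.algebraMap_apply ℂ K L x)
  have t2 : IsScalarTower K (Kf H) L := .of_algebraMap_eq fun _ => rfl
  have li : ∀ P : Pl L, ∀ R : Pl (Kf H), (∃ Q ∈ T, Lies (algebraMap (Kf H) L) Q R) →
      Lies (algebraMap (Kf H) L) P R → P ∈ T := fun P R ⟨Q, q, a⟩ b =>
    let ⟨σ, s, c⟩ := Tq.T59.conj a b
    st σ s Q q P c
  refine ⟨Kf H, inferInstance, inferInstance, inferInstance, inferInstance, t1, inferInstance, t2,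
    ff_fix hL, fun φ => ⟨fun h => ⟨⟨φ, mem_Kf.2 h⟩, rfl⟩, fun ⟨x, e⟩ => e ▸ fix_val x⟩,
    fun P => ⟨fun h => ?_, fun ⟨R, r, l⟩ => li P R r l⟩, fun R r P l => ?_⟩
  · obtain ⟨R, l⟩ := P283R.H.Hc.down (A := H) hL P
    exact ⟨R, ⟨P, h, l⟩, l⟩
  · obtain ⟨R₀, l₀⟩ := Pb.down hK (ff_fix (A := H) hL) R
    have u := un P (li P R r l) R₀ (l.comp l₀)
    exact Int.eq_one_of_mul_eq_one_right l.e_pos.le
      (u.symm.trans (l.ord (algebraMap K (Kf H) R₀.t))).symm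

end Vale.Agent.P283R.Uq
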