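import Vale.Agent.P283R.Uq.St

/-!
# P283R, block UQ: the rank of the principal combinations, norms of sections
-/

open Set

noncomputable section

namespace Vale.Agent.P283R.Uq

open Vale.Agent.P287D Vale.Agent.P283M Vale.Agent.P283R.Cx
open Vale.Agent.P283R.Tq (Ed)

/-- **RKR** -/
theorem rkr90 : RKR := fun lam d l L _ _ k N T D s a A m J G π U p k₀ ρ w b v hb hv hθ => by
  classical
  obtain ⟨l1, l2⟩ := lam d l L k N T D s a A m J G π U p
  let Φ : ((Fin (k₀ + J.card) → ℤ) × ({j // j ∉ J} → ℤ)) →ₗ[ℤ] (Fin k → ℤ) :=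
    (Fintype.linearCombination ℤ (Fin.append w (a ∘ b))).coprod
      (Fintype.linearCombination ℤ fun j : {j // j ∉ J} => a j)
  have su : Function.Surjective Φ := by
    rw [← LinearMap.range_eq_top, eq_top_iff, ← l2, Submodule.span_le]
    rintro _ ⟨j, rfl⟩
    by_cases h : j ∈ J
    · obtain ⟨i, rfl⟩ := hb j h
      exact ⟨(Pi.single (Fin.natAdd k₀ i) 1, 0), by simp [Φ]⟩
    · exact ⟨(0, Pi.single ⟨j, h⟩ 1), by simp [Φ]⟩
  have ex : ∀ i, ∃ u, (v i, u) ∈ LinearMap.ker Φ := fun i => by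
    obtain ⟨θ, hθ⟩ := hθ i
    have := l1 _ θ hθ
    rw [show a '' {j | j ∉ J} = range fun j : {j // j ∉ J} => a j from image_eq_range _ _,
      ← Fintype.range_linearCombination] at this
    obtain ⟨u, hu⟩ := this
    refine ⟨-u, ?_⟩
    rw [LinearMap.mem_ker, LinearMap.coprod_apply, map_neg, hu, Fintype.linearCombination_apply]
    exact add_neg_cancel _
  choose u hu using ex
  have li : LinearIndependent ℤ fun i => (⟨(v i, u i), hu i⟩ : LinearMap.ker Φ) :=
    LinearIndependent.of_comp ((LinearMap.fst ℤ _ _).comp (LinearMap.ker Φ).subtype) hv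
  have c1 := li.fintype_card_le_finrank
  have c2 := Submodule.finrank_quotient_add_finrank (LinearMap.ker Φ)
  rw [(Φ.quotKerEquivOfSurjective su).finrank_eq, Module.finrank_prod, Module.finrank_pi,
    Module.finrank_pi, Module.finrank_pi, Fintype.card_subtype_compl, Fintype.card_fin,
    Fintype.card_fin, Fintype.card_fin, Fintype.card_coe] at c2
  have c3 : J.card ≤ N := by simpa using J.card_le_univ
  have := p.le
  rw [Fintype.card_fin] at c1
  omega

/-- **DOMR** -/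
theorem domr90 : DOMR := fun lam d l L _ _ k N T D s a A m J H π U p n ζ w hζ hw Z fz => by
  classical
  have g := p.gp
  have ex : ∀ e : Fin k → ℤ, ∃ (v : Fin n → ℤ) (θ : L), θ ≠ 0 ∧
      ∀ P ∈ T, P.ord θ + e ⬝ᵥ D P = v ⬝ᵥ Ed D ζ w P := fun e => by
    have he : e ∈ Submodule.span ℤ (range a) := 
      (lam d l L k N T D s a A m J H π U p).2 ▸ trivial
    induction he using Submodule.span_induction with
    | mem x hx =>
      obtain ⟨j, rfl⟩ := hx
      by_cases h : j ∈ J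
      · obtain ⟨i, hi⟩ := hw j h
        exact ⟨Pi.single i 1, ζ i, (hζ i).1, fun P _ => by simp [Ed, hi]⟩
      · obtain ⟨θ, hθ⟩ := p.out j h
        have := p.un.pr _ _ hθ
        exact ⟨0, θ, this.1, fun P hP => by rw [this.2 P hP, zero_dotProduct]⟩
    | zero => exact ⟨0, 1, one_ne_zero, fun P _ => by simp⟩
    | add x y _ _ hx hy =>
      obtain ⟨v, θ, h0, h⟩ := hx
      obtain ⟨v', θ', h0', h'⟩ := hy
      refine ⟨v + v', θ * θ', mul_ne_zero h0 h0', fun P hP => ?_⟩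
      rw [P.ord_mul h0 h0', add_dotProduct, add_dotProduct, ← h P hP, ← h' P hP]
      ring
    | smul c x _ hx =>
      obtain ⟨v, θ, h0, h⟩ := hx
      refine ⟨c • v, θ ^ c, zpow_ne_zero _ h0, fun P hP => ?_⟩
      rw [P297Z.Pl.ord_zpow, smul_dotProduct, smul_dotProduct, ← h P hP, smul_eq_mul, smul_eq_mul]
      ring
  obtain ⟨B, hB⟩ := (fz.image Z).bddAbove
  obtain ⟨e, θ, θ0, hθ⟩ := Tq.F55.big p.cox fz.toFinset B.toNat
  obtain ⟨v, η, η0, hη⟩ := ex e
  have φ0 : θ / η ≠ 0 := div_ne_zero θ0 η0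
  have hφ : ∀ P ∈ T, max (Z P) 0 ≤ P.ord (θ / η) + v ⬝ᵥ Ed D ζ w P := fun P hP => by
    rw [P.ord_div θ0 η0, ← hη P hP, max_le_iff]
    have h1 := (hθ P hP).1
    refine ⟨?_, by omega⟩
    by_cases z : Z P = 0
    · omega
    · have h2 := (hθ P hP).2 (fz.mem_toFinset.2 ⟨hP, z⟩)
      have h3 : Z P ≤ B := hB ⟨P, ⟨hP, z⟩, rfl⟩
      omega
  have := g.fin
  have := Fintype.ofFinite H
  have s0 : ∀ σ : H, σ.1 (θ / η) ≠ 0 := fun σ => (map_ne_zero σ.1).2 φ0
  refine ⟨(Fintype.card H : ℤ) • v, ∏ σ : H, σ.1 (θ / η), Finset.prod_ne_zero_iff.2 fun σ _ => s0 σ,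
    fun τ hτ => ?_, fun P hP => ?_⟩
  · rw [map_prod]
    exact Fintype.prod_equiv (Equiv.mulLeft ⟨τ, hτ⟩) _ _ fun σ => rfl
  · have t0 : ∀ σ : H, 0 ≤ P.ord (σ.1 (θ / η)) + v ⬝ᵥ Ed D ζ w P := fun σ => by
      obtain ⟨P', -, c⟩ := Cf.Ds.cj σ.1 P
      have e1 : Ed D ζ w P' = Ed D ζ w P := funext fun i => by
        obtain ⟨θ, u, e⟩ := (hζ i).2 σ.1 σ.2
        have a1 := p.un.pr _ _ u
        have a2 := a1.2 P hP
        have a3 := (p.pm.rel σ.1 σ.2 (w i)).2 P hP P' c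
        have a4 := P.ord_mul ((map_ne_zero σ.1).2 (hζ i).1) a1.1
        rw [e, ← c] at a4
        rw [sub_dotProduct] at a2
        simp only [P297Z.Pl.ord_one] at a3
        simp only [Ed]
        omega
      rw [← c, ← e1]
      exact (le_max_right _ _).trans (hφ P' (g.stT σ.1 σ.2 P hP P' c))
    have t1 := Finset.single_le_sum (fun σ _ => t0 σ) (Finset.mem_univ (1 : H))
    rw [Finset.sum_add_distrib, ← P.ord_prod _ fun σ _ => s0 σ, Finset.sum_const, Finset.card_univ,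
      show (1 : H).1 (θ / η) = θ / η from rfl] at t1
    rw [smul_dotProduct, smul_eq_mul, ← nsmul_eq_mul]
    exact (max_le_iff.1 ((hφ P hP).trans t1)).symm

end Vale.Agent.P283R.Uq
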