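import Vale.Agent.P283R.Uq.St

/-!
# P283R, block UQ: the first stage from the rows
-/

open Set

noncomputable section

namespace Vale.Agent.P283R.Uq

open Vale.Agent.P287D Vale.Agent.P283M Vale.Agent.P283R.Cx Vale.Agent.P297Z
open Vale.Agent.P283R.Lx (Nz Ie)
open Vale.Agent.P283R.Tq (Ed Inv)

open Tq.S48 in
/-- **STGR** -/
theorem stgr48 : STGR := by
  intro act inv gal eig tau nak rk icx dom trn d l
  classical
  obtain ⟨J₁, gal⟩ := gal d l
  obtain ⟨J₂, eig⟩ := eig d l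
  refine ⟨J₂ * J₁, fun L _ _ k N T D s a A m J G π U p K _ _ _ _ T₀ k₀ Z w qt pw hw => ?_⟩
  have g := p.gp
  obtain ⟨G₁, le1, i1, fx⟩ := gal L k N T D s a A m J G π U p
  obtain ⟨H, le2, i2, z, hz, spn⟩ := eig L k N T D s a A m J G₁ π U (p.mono le1) fx
  have le := le2.trans le1
  have pH := p.mono le
  have u1 : U 0 1 := (p.un.cst 1).2 ⟨1, one_ne_zero, (map_one _).symm⟩
  have stab : Stab G A := fun σ hσ x hx => (p.zero _).2 (by
    simpa using (act d L k N T D s a A m G π U p.toBu σ hσ 0 0 1 (by simpa using u1) x).1.1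
      ((p.zero _).1 hx))
  obtain ⟨τ, hτ, fin, hn⟩ := tau L d A m G p.ff p.fg p.max g.fin stab g.stm
  let b : Fin J.card → Fin N := fun i => J.equivFin.symm i
  have bJ : ∀ i, b i ∈ J := fun i => (J.equivFin.symm i).2
  have bi : Function.Injective b := fun _ _ e => J.equivFin.symm.injective (Subtype.ext e)
  have hb : ∀ j ∈ J, j ∈ range b := fun j hj => ⟨J.equivFin ⟨j, hj⟩, by simp [b]⟩
  obtain ⟨γ, γa, γn, mo⟩ := nak d L k N T D s a A m G π U p.toBu _ _ τ (z ∘ b) (a ∘ b)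
    (fun i => (hz _ (bJ i)).1) (fun e φ hφ => by
      obtain ⟨I, θ, c, IJ, hθ, r⟩ := spn e φ hφ
      refine ⟨I.preimage b bi.injOn, θ ∘ b, c ∘ b, fun j hj => hθ _ (Finset.mem_preimage.1 hj), ?_⟩
      have := Finset.sum_preimage b I bi.injOn (fun j => c j • (z j * θ j))
        fun j hj n => (n (hb j (IJ hj))).elim
      exact this ▸ r) (fun i => (hτ i).1) fin hn
  have γf : Fix G γ := fun σ hσ => by
    clear γn mo
    induction γa using Algebra.adjoin_induction with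
    | mem x hx => obtain ⟨i, rfl⟩ := hx; exact (hτ i).2 σ hσ
    | algebraMap c => exact σ.commutes c
    | add x y _ _ hx hy => rw [map_add, hx, hy]
    | mul x y _ _ hx hy => rw [map_mul, hx, hy]
  obtain ⟨γ, rfl⟩ := (qt.fix γ).1 γf
  have iζ : ∀ i, Eg U π H (w i) ((fun _ => 1 : Fin k₀ → L) i) := fun i =>
    ⟨one_ne_zero, fun σ hσ => ⟨1, by rw [pw σ (le hσ), sub_self]; exact u1, by simp⟩⟩
  have ia : ∀ i, Eg U π H (Fin.append w (a ∘ b) i) (Fin.append (fun _ => 1) (z ∘ b) i) :=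
    fun i => by
      induction i using Fin.addCases with
      | left i => simpa using iζ i
      | right i => simpa using (hz _ (bJ i)).2
  have γ0 : algebraMap K L γ ≠ 0 := fun e => γn.2 (by
    have : (⟨_, γn.1⟩ : A) = 0 := Subtype.ext e
    exact this ▸ m.zero_mem)
  obtain ⟨N', s', a', lN, ic⟩ := icx d L k N T D s a A m H π U pH.toBu _ k₀ _ (k₀ + l) _ _
    (fun _ => 1) w (z ∘ b) (a ∘ b) (fun i => ⟨(τ i).2, fun σ hσ => (hτ i).2 σ (le hσ)⟩) γn.1 γ0
    (fun σ hσ => γf σ (le hσ)) iζ (fun j => ⟨(hz _ (bJ j)).1.1, (hz _ (bJ j)).2⟩) mo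
    fun n v li h => rk d l L k N T D s a A m J G π U p k₀ n w b v hb li h
  have dm := dom d l L k N T D s a A m J H π U pH _ _ _ ia fun j hj => by
    obtain ⟨i, rfl⟩ := hb j hj
    exact ⟨Fin.natAdd k₀ i, by simp⟩
  refine ⟨γ, γn, Out.mono (trn K L d k₀ J.card N' (d + l + 3) T₀ T G H Z _ γ s' a' p.ff qt g.fin
    le (fun σ hσ P c P' e => funext fun i =>
      (inv d L k N T D s a A m H π U pH.toBu _ _ (ia i)).2 σ hσ P c P' e) (fun Q c P e i => ?_)
    (fin_ed p.cox.fin _ _) ic dm (by omega)) ?_⟩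
  · simp only [Fin.append_left, Pl.ord_one, zero_add]
    exact (hw P ((qt.lies P).2 ⟨Q, c, e⟩) Q e i).symm
  · rw [← Subgroup.relIndex_mul_relIndex H G₁ G le2 le1]
    exact Nat.mul_le_mul i2 i1

end Vale.Agent.P283R.Uq
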