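import Vale.Agent.P283R.Uq.Onq48
import Vale.Agent.P283R.Uq.Frs32
import Vale.Agent.P283R.Uq.Act39
import Vale.Agent.P283R.Uq.Gal62
import Vale.Agent.P283R.Uq.Eigr71
import Vale.Agent.P283R.Uq.Nak40
import Vale.Agent.P283R.Uq.Rk90
import Vale.Agent.P283R.Uq.Lam18
import Vale.Agent.P283R.Uq.Icx95
import Vale.Agent.P283R.Uq.Etg71
import Vale.Agent.P283R.Uq.Lcx18
import Vale.Agent.P283R.Uq.Pre39
import Vale.Agent.P283R.Uq.Kx93
import Vale.Agent.P283R.Uq.Uur15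
import Vale.Agent.P283R.Uq.Emu33
import Vale.Agent.P283R.Uq.Nky21
import Vale.Agent.P283R.Uq.Opn27
import Vale.Agent.P283R.Uq.Qtf12
import Vale.Agent.P283R.Uq.Pnt27
import Vale.Agent.P283R.Uq.Fce55
import Vale.Agent.P283R.Uq.Stgr48

/-!
# P283R, block UQ: the quotients in the short word
-/

open Set CategoryTheory AlgebraicGeometry

noncomputable section

namespace Vale.Agent.P283R.Uq

open Vale.Agent.P287D Sl Sl.Var Sg Sg.T20 F32

/-- **FRF**: few generators -/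
theorem frd_f (l : ℕ → ℕ) : FRD (fun d => l d + 2) fun d _ _ g _ w => Full (l d) g w := by
  intro d X Z f ω z hd hdim hω hf _ hz ⟨k₀, N, V, D₀, zV, le, gen, h1⟩
  classical
  obtain ⟨n, rfl⟩ : ∃ n, d = n + 1 := ⟨d - 1, by omega⟩
  have hK := P283M.Br.ffd X.o _ hdim
  obtain ⟨j, -, fr⟩ := P283M.Br.frm X.o _ hK ω hω
  choose e x x0 hx using h1
  have fc := fac (X := X.o) (W := pre f V) hK fr x0 hx
  have es : (fun m => sections (pre f V) (comb D₀ m)) =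
      Sg.Sec (pls (X := X.o) (pre f V)) (dvs (X := X.o) D₀) :=
    funext fun m => Set.ext fun φ => (sec (X := X.o) D₀ m φ).symm
  refine ⟨Finset.univ.biUnion fun i => (D₀ i).support, fun Ω hΩ =>
    ⟨V, zV, fun W lw hW zW k D k2 _ d2 => ?_⟩⟩
  obtain ⟨x₁, e₁⟩ := hf.2.2.1.surj z
  have sub : pls (X := X.o) (pre f W) ⊆ pls (X := X.o) (pre f V) :=
    image_mono fun E h => lw h
  have g := Sg.shrr Sg.gg27 Sg.fct _ _ _ _ _ (pls (X := X.o) (pre f W)) _ _ _ fc sub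
    (((Sg.out X (pre f W) x₁ (show f x₁ ∈ W from e₁ ▸ zW)).image (Gl.pq (X := X.o))).subset (by
      rintro _ ⟨⟨E, -, rfl⟩, c⟩
      exact ⟨E, fun w => c ⟨E, w, rfl⟩, rfl⟩)) (es ▸ gen)
  have : Nonempty (Fin k) := ⟨⟨0, by omega⟩⟩
  choose! ι hι using d2
  obtain ⟨N', s, a, cx, eb⟩ := tier (l := l (n + 1) + 1) (Sq.fac_mono fc sub) g (by omega)
    (E := dvs (X := X.o) D)
    (fun i => fn (D i).support.finite_toSet fun E a => Finsupp.mem_support_iff.2 fun b =>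
      a ((Cox.up_eq _ (Gl.pq_is E).dom).trans b))
    (fun i => ∑ E ∈ (D₀ i).support, Pi.single (ι E) (D₀ i E)) (cmb (X := X.o) D₀ D ι fun i E c =>
      hι E (hΩ (Finset.mem_biUnion.2 ⟨i, Finset.mem_univ i, c⟩)))
  obtain ⟨u, bs⟩ := Sch.basV (X := X.o) (Z := Z.o) hf hz hW zW
  obtain ⟨m, mx, nz⟩ := Lx.bas0 (X := X.o) (Z := Z.o) hf hz bs
  obtain ⟨m₂, mx₂, h₂⟩ := F3.bas2 (X := X.o) (Z := Z.o) hf hz bs
  have un : ∀ y : Pt X.X, y.map f = z → ∀ x, Lx.Nz _ m x → P283M.Br.UnAt (X := X.o) x y :=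
    fun y hy x w =>
    let ⟨W', _, zW', _, k⟩ := nz x w
    (k y (show y.map f ∈ W from hy ▸ zW)).1 (show y.map f ∈ W' from hy ▸ zW')
  obtain rfl : m₂ = m := mx₂.eq_of_le mx.ne_top fun g k => by_contra fun n =>
    h₂ x₁ e₁ g k (un x₁ e₁ g ⟨g.2, n⟩)
  have rg : ∀ x, x ∈ Algebra.adjoin ℂ (u : Set X.o.K) ↔
      ∀ y : P289.Pt X.o.X, y ∈ f ⁻¹ᵁ W → P283M.Stm.Var.RegAt (V := X.o) x y := fun x =>
    ⟨fun h y hy => P283M.Br.reg_adjoin (fun c hc => bs.reg c hc y hy) h, bs.con x⟩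
  refine ⟨N', s, a, _, m₂, cx, fun x => ?_, Subalgebra.fg_adjoin_finset u, mx, rg,
    fun y hy x => ⟨fun w => ⟨w.1, un y hy x w⟩, fun ⟨h, w⟩ => ⟨h, fun k => h₂ y hy _ k w⟩⟩, eb _ _⟩
  refine (rg x).trans ((Sf.S20.rg (X := X.o) (W := pre f W) D).symm.trans ?_)
  by_cases x0 : x = 0
  · exact ⟨fun _ => x0 ▸ zero_mem _, fun _ c => (c x0).elim⟩
  · exact ⟨fun h => (cx.sec _ _ x0).2 (h x0), fun h _ => (cx.sec _ _ x0).1 h⟩

/-- **FRS**: spherical varieties -/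
theorem frd_s : FRD (fun d => ell d + 1 + 2) fun _ _ _ g _ w =>
    ∃ N V, w.In V ∧ IsSpherical N (pre g V) := by
  intro d X Z f ω z hd hdim b hf e hz ⟨N, V, zV, h⟩
  obtain ⟨x₁, e₁⟩ := hf.2.2.1.surj z
  obtain ⟨k, N', D, h1, h2, h3, -⟩ := Sq.full hd (P283M.Br.ffd X.o _ hdim) le_rfl
    ⟨x₁, show f x₁ ∈ V from e₁ ▸ zV⟩ h
  exact frd_f (fun d => ell d + 1) d X Z f ω z hd hdim b hf e hz
    ⟨k, N', V, D, zV, h1, h2, h3⟩

/-- the first stage -/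
theorem etg48 : ETG := etgr71 lcx18 pre39 kx93 uur15 emu33 nky21 opn27 qtf12
  (pntr27 act39 Tq.tau27 nak40) (stgr48 act39 inv39 (galr62 act39 lam18 Tq.mink93)
    (eigr71 act39 lam18) Tq.tau27 nak40 (rkr90 lam18) icx95 (domr90 lam18) Tq.trn59)

end Vale.Agent.P283R.Uq

namespace Vale.Agent.P283R.Sl

open Var

variable {C C' : ∀ (d : ℕ) (Y W : Var), (Y.X ⟶ W.X) → Y.Form d → Pt W.X → Prop}

theorem quot_or (h : OnN fun d _ _ f _ _ z => QuotOf (C d) f z)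
    (h' : OnN fun d _ _ f _ _ z => QuotOf (C' d) f z) :
    OnN fun d _ _ f _ _ z => QuotOf (fun Y W g η w => C d Y W g η w ∨ C' d Y W g η w) f z :=
  (h.or h').mono fun _ _ _ _ _ _ _ ⟨Y, W, π, g, κ, η, w, a, b, c, e, i, j, k⟩ =>
    k.imp (fun k => ⟨Y, W, π, g, κ, η, w, a, b, c, e, i, j, k⟩)
      fun k => ⟨Y, W, π, g, κ, η, w, a, b, c, e, i, j, k⟩

/-- **finite quotients of fibrations of low complexity** -/
theorem onN_qm : OnN fun d _ _ f _ _ z => QuotOf (d := d) (fun _ _ g η w => MldCx g η w) f z :=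
  Uq.onq48 Uq.fce55 Uq.etg48 Uq.frd_m

/-- **finite quotients of spherical fibrations** -/
theorem onN_qs : OnN fun d _ _ f _ _ z =>
    QuotOf (d := d) (fun _ _ g _ w => ∃ N V, w.In V ∧ IsSpherical N (pre g V)) f z :=
  Uq.onq48 Uq.fce55 Uq.etg48 Uq.frd_s

/-- **finite quotients of fibrations with few generators** -/
theorem onN_qf (l : ℕ → ℕ) : OnN fun d _ _ f _ _ z =>
    QuotOf (d := d) (fun _ _ g _ w => Uq.Full (l d) g w) f z :=
  Uq.onq48 Uq.fce55 Uq.etg48 (Uq.frd_f l)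

/-- **both** -/
theorem onN_q : OnN fun d _ _ f _ _ z => QuotOf (d := d)
    (fun _ _ g η w => MldCx g η w ∨ ∃ N V, w.In V ∧ IsSpherical N (pre g V)) f z :=
  quot_or onN_qm onN_qs

end Vale.Agent.P283R.Sl
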