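import Vale.Agent.P283R.Uq.St2
import Vale.Agent.P283R.Uq.Loc79

/-!
# P283R, block UQ: tools for the first stage
-/

set_option linter.unusedSectionVars false

open Set

noncomputable section

namespace Vale.Agent.P283R.Uq

open Vale.Agent.P287D Vale.Agent.P283M Vale.Agent.P283R.Cx Vale.Agent.P297Z
open Vale.Agent.P283R.Lx (Nz Ie)
open Vale.Agent.P283R.Tq (cv)

namespace E23

variable {K L : Type} [Field K] [Algebra ℂ K] [Field L] [Algebra ℂ L] {d k k₀ N : ℕ}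
  {T : Set (Pl L)} {D : Pl L → Fin k → ℤ} {s : Fin N → L} {a : Fin N → Fin k → ℤ}

theorem loc (c : Cox T D s a) {g : L} (hg : g ∈ Sp s a 0) (g0 : g ≠ 0) {e : Fin k → ℤ} {φ : L}
    (φ0 : φ ≠ 0) (h : ∀ P ∈ T, P.ord g = 0 → 0 ≤ P.ord φ + e ⬝ᵥ D P) :
    ∃ n : ℕ, g ^ n * φ ∈ Sp s a e := by
  obtain ⟨n, hn⟩ := ((c.fin φ e).image fun P => (P.ord φ + e ⬝ᵥ D P).natAbs).bddAbove
  refine ⟨n, (c.sec _ _ (mul_ne_zero (pow_ne_zero _ g0) φ0)).2 fun P hP => ?_⟩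
  have b := (c.sec _ _ g0).1 hg P hP
  rw [zero_dotProduct, add_zero] at b
  rw [Pl.ord_mul _ (pow_ne_zero _ g0) φ0, Pl.ord_pow, add_assoc]
  by_cases z : 0 ≤ P.ord φ + e ⬝ᵥ D P
  · exact add_nonneg (mul_nonneg (Int.natCast_nonneg n) b) z
  have : (P.ord φ + e ⬝ᵥ D P).natAbs ≤ n := hn ⟨P, ⟨hP, fun q => z q.ge⟩, rfl⟩
  have g1 : 1 ≤ P.ord g := by_contra fun q => z (h P hP (by omega))
  have := mul_le_mul_of_nonneg_left g1 (Int.natCast_nonneg n)
  omega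

theorem nz_ne {A : Subalgebra ℂ L} {m : Ideal A} {x : L} (h : Nz A m x) : x ≠ 0 := fun e => h.2 (by
  have : (⟨_, h.1⟩ : A) = 0 := Subtype.ext e
  exact this ▸ m.zero_mem)

theorem ring_of (c : Cox T D s a) {x : L} (hx : x ∈ Sp s a 0) {P : Pl L} (p : P ∈ T) :
    x ∈ P.ring := by
  rcases eq_or_ne x 0 with rfl | x0
  · exact zero_mem _
  · exact (Pl.ord_nonneg_iff _ x0).1 (by simpa using (c.sec _ _ x0).1 hx P p)

theorem split {P : Pl L} {x y : L} (x0 : x ≠ 0) (y0 : y ≠ 0) (hx : x ∈ P.ring) (hy : y ∈ P.ring)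
    (h : P.ord (x * y) = 0) : P.ord x = 0 ∧ P.ord y = 0 := by
  have a := Pl.ord_nonneg_of_mem _ hx
  have b := Pl.ord_nonneg_of_mem _ hy
  rw [Pl.ord_mul _ x0 y0] at h
  omega

theorem cv_dot (w : Fin k₀ → Fin k → ℤ) (e : Fin k₀ → ℤ) (x : Fin k → ℤ) :
    cv w e ⬝ᵥ x = e ⬝ᵥ fun i => w i ⬝ᵥ x := by
  rw [cv, sum_dotProduct]
  exact Finset.sum_congr rfl fun i _ => by rw [smul_dotProduct, smul_eq_mul]

/-- a term of least order -/
theorem term (P : Pl L) {S : Set L} {φ : L} (hφ : φ ∈ Submodule.span ℂ S) (φ0 : φ ≠ 0) :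
    ∃ x ∈ S, x ≠ 0 ∧ P.ord x ≤ P.ord φ := by
  by_contra c
  have : Submodule.span ℂ S ≤ P.sub (-(P.ord φ + 1)) := Submodule.span_le.2 (by
    intro x hx
    rcases eq_or_ne x 0 with rfl | x0
    · exact zero_mem _
    have h1 : P.ord φ + 1 ≤ P.ord x := not_le.1 fun e => c ⟨x, hx, x0, e⟩
    have h2 : (P.ord φ : ℝ) + 1 ≤ P.ord x := by exact_mod_cast h1
    exact .inr (by linarith))
  linarith [(this hφ).resolve_left φ0]

variable [Algebra K L] [IsScalarTower ℂ K L]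

/-- integral elements -/
theorem ov [FiniteDimensional K L] {B : Set (Pl K)} {P : Pl K} {Q : Pl L} {z : L}
    (hP : ∀ x, (∀ R ∈ B, x ∈ R.ring) → x ∈ P.ring) (l : Lies (algebraMap K L) Q P)
    (hz : ∀ R ∈ B, ∀ U, Lies (algebraMap K L) U R → z ∈ U.ring) : z ∈ Q.ring := by
  have k : ∀ i, (minpoly K z).coeff i ∈ P.ring := fun i =>
    hP _ fun R r => Tq.F55.int (hz R r) i
  have hi := Algebra.IsIntegral.isIntegral (R := K) z
  have i : IsIntegral Q.ring z := Fre.int_of ((minpoly.monic hi).map (algebraMap K L))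
    (fun i => ⟨⟨_, (l _).1 (k i)⟩, by rw [Polynomial.coeff_map]; rfl⟩)
    (by rw [Polynomial.eval_map_algebraMap, minpoly.aeval])
  obtain ⟨w, hw⟩ := IsIntegrallyClosed.isIntegral_iff.1 i
  exact hw ▸ w.2

omit [IsScalarTower ℂ K L] in
theorem ord_zero {Q : Pl L} {P : Pl K} (l : Lies (algebraMap K L) Q P) (x : K) :
    Q.ord (algebraMap K L x) = 0 ↔ P.ord x = 0 := by
  rw [l.ord, mul_eq_zero_iff_left l.e_pos.ne']

omit [IsScalarTower ℂ K L] in
theorem ord_le {Q : Pl L} {P : Pl K} (l : Lies (algebraMap K L) Q P) (x y : K)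
    (h : Q.ord (algebraMap K L x) ≤ Q.ord (algebraMap K L y)) : P.ord x ≤ P.ord y := by
  rw [l.ord x, l.ord y] at h
  exact le_of_mul_le_mul_left h l.e_pos

section tower

variable {M : Type} [Field M] [Algebra ℂ M] [Algebra K M] [Algebra M L] [IsScalarTower K M L]

omit [IsScalarTower ℂ K L] in
theorem cmp {Q : Pl L} {R : Pl M} {P : Pl K} (l : Lies (algebraMap M L) Q R)
    (l' : Lies (algebraMap K M) R P) : Lies (algebraMap K L) Q P := by
  rw [IsScalarTower.algebraMap_eq K M L]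
  exact l.comp l'

omit [IsScalarTower ℂ K L] in
theorem mid {Q : Pl L} {R : Pl M} {P : Pl K} (l : Lies (algebraMap M L) Q R)
    (l' : Lies (algebraMap K L) Q P) : Lies (algebraMap K M) R P := by
  rw [IsScalarTower.algebraMap_eq K M L] at l'
  exact l.of_comp l'

omit [IsScalarTower ℂ K L] in
theorem emul {Q : Pl L} {R : Pl M} (l : Lies (algebraMap M L) Q R) (x : K) :
    Q.ord (algebraMap K L x) = Q.ord (algebraMap M L R.t) * R.ord (algebraMap K M x) := by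
  rw [IsScalarTower.algebraMap_apply K M L, l.ord]

end tower

/-- the localisation of the output -/
theorem out (lcx : LCX) {l J : ℕ} {T₀ T₁ : Set (Pl K)} {Z : Pl K → Fin k → ℤ}
    (h : Tq.Out d l J T₀ T₁ Z) (le : T₁ ⊆ T₀) {g : K} (g0 : g ≠ 0) (hg : ∀ R ∈ T₁, g ∈ R.ring) :
    Tq.Out d (l + 1) J (Tz T₁ g) (Tz T₁ g) Z := by
  obtain ⟨K', _, _, _, _, k', N', D', s', a', ff, rk, un, le', cx⟩ := h
  have g1 := (map_ne_zero (algebraMap K K')).2 g0
  have c := lcx K' _ _ _ _ _ _ (algebraMap K K' g) cx ((cx.sec _ _ g1).2 fun Q ⟨R, r, lq⟩ => by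
    rw [zero_dotProduct, add_zero]
    exact Pl.ord_nonneg_of_mem _ ((lq g).1 (hg R r))) g1
  have e : Tz (Tq.up K' T₁) (algebraMap K K' g) = Tq.up K' (Tz T₁ g) := by
    ext Q
    exact ⟨fun ⟨⟨R, r, lq⟩, z⟩ => ⟨R, ⟨r, (ord_zero lq g).1 z⟩, lq⟩,
      fun ⟨R, r, lq⟩ => ⟨⟨R, r.1, lq⟩, (ord_zero lq g).2 r.2⟩⟩
  exact ⟨K', _, _, _, inferInstance, k', N' + 1, D', _, _, ff, rk,
    fun P p => un P (le p.1), by omega, e ▸ c⟩

end E23

end Vale.Agent.P283R.Uq
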