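import Vale.Agent.P283R.Uq.St3
import Vale.Agent.P283R.Uq.Etl23
import Vale.Agent.P283R.Uq.Opn27
import Vale.Agent.P283R.Uq.Qtf12
import Vale.Agent.P283R.Uq.Lcx18

/-!
# P283R, block UQ: the first stage for several points
-/

open Set

noncomputable section

namespace Vale.Agent.P283R.Uq

open Vale.Agent.P287D Vale.Agent.P283M Vale.Agent.P283R.Cx Vale.Agent.P297Z
open Vale.Agent.P283R.Lx (Nz Ie)
open Vale.Agent.P283R.Lx.O15 (nz_mul)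
open Vale.Agent.P283R.Tq (cv Qt Cj Out)

namespace E23

variable {K : Type} [Field K] [Algebra ℂ K] {d l J k : ℕ}

theorem clr {T : Set (Pl K)} {g φ : K} {c : Pl K → ℤ} (g0 : g ≠ 0) (φ0 : φ ≠ 0)
    (hg : ∀ P ∈ T, g ∈ P.ring) (fin : {P | P ∈ T ∧ P.ord φ + c P ≠ 0}.Finite)
    (h : ∀ P ∈ T, P.ord g = 0 → 0 ≤ P.ord φ + c P) :
    ∃ n : ℕ, ∀ P ∈ T, 0 ≤ P.ord (g ^ n * φ) + c P := by
  obtain ⟨n, hn⟩ := (fin.image fun P => (P.ord φ + c P).natAbs).bddAbove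
  refine ⟨n, fun P hP => ?_⟩
  have b := Pl.ord_nonneg_of_mem _ (hg P hP)
  rw [Pl.ord_mul _ (pow_ne_zero _ g0) φ0, Pl.ord_pow, add_assoc]
  by_cases z : 0 ≤ P.ord φ + c P
  · exact add_nonneg (mul_nonneg (Int.natCast_nonneg n) b) z
  have : (P.ord φ + c P).natAbs ≤ n := hn ⟨P, ⟨hP, fun q => z q.ge⟩, rfl⟩
  have g1 : 1 ≤ P.ord g := by_contra fun q => z (h P hP (by omega))
  have := mul_le_mul_of_nonneg_left g1 (Int.natCast_nonneg n)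
  omega

theorem ofin {T : Set (Pl K)} {Z : Pl K → Fin k → ℤ} (h : Out d l J T T Z) (ff : FF K d) (φ : K)
    (e : Fin k → ℤ) : {P | P ∈ T ∧ P.ord φ + e ⬝ᵥ Z P ≠ 0}.Finite := by
  obtain ⟨K', _, _, _, _, k', N', D', s', a', ff', -, un, -, cx⟩ := h
  have := Pb.fin_of_ff ff ff'
  choose dn ld using Pb.down ff ff'
  refine ((cx.fin (algebraMap K K' φ) (Fin.append e 0)).image dn).subset fun P ⟨p, z⟩ => ?_
  obtain ⟨Q, lq⟩ := Pb.up_fin (K' := K') P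
  refine ⟨Q, ⟨⟨P, p, lq⟩, ?_⟩, (ld Q).uniq lq⟩
  rw [lq.ord, (un P p Q lq).1, one_mul]
  simpa [dotProduct, Fin.sum_univ_add, (un P p Q lq).2] using z

/-- the localisation of the first stage -/
theorem otl {T : Set (Pl K)} {Z : Pl K → Fin k → ℤ} {e : Fin k → ℤ} (h : Ot d l J T Z e) {g : K}
    (g0 : g ≠ 0) (hg : ∀ R ∈ T, g ∈ R.ring) : Ot d (l + 1) J (Tz T g) Z e := by
  obtain ⟨K₁, _, _, _, _, T₁, Z₁, ff, dn, ou, tr⟩ := h
  have g1 := (map_ne_zero (algebraMap K K₁)).2 g0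
  have r1 : ∀ Q ∈ T₁, algebraMap K K₁ g ∈ Q.ring := fun Q q =>
    let ⟨P, p, lq, _⟩ := dn Q q
    (lq g).1 (hg P p)
  refine ⟨K₁, _, _, _, inferInstance, Tz T₁ (algebraMap K K₁ g), Z₁, ff, fun Q q => ?_,
    out lcx18 ou le_rfl g1 r1, fun P hP => ?_⟩
  · obtain ⟨P, p, lq, u⟩ := dn Q q.1
    exact ⟨P, ⟨p, (ord_zero lq g).1 q.2⟩, lq, u⟩
  obtain ⟨Q, lq, t1, t2⟩ := tr P fun x hx => hP x fun R r => hx R r.1
  have z : Q.ord (algebraMap K K₁ g) = 0 := (ord_zero lq g).2 (Pl.ord_unit _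
    (hP _ fun R r => ((Pl.ord_eq_zero_iff _ g0).1 r.2).1)
    (hP _ fun R r => ((Pl.ord_eq_zero_iff _ g0).1 r.2).2))
  have oG : ∀ (j : ℕ) {y : K₁}, y ≠ 0 → Q.ord (algebraMap K K₁ g ^ j * y) = Q.ord y :=
    fun j y y0 => by rw [Pl.ord_mul _ (pow_ne_zero _ g1) y0, Pl.ord_pow, z, mul_zero, zero_add]
  refine ⟨Q, lq, fun y hy => ?_, fun ψ ψ0 hψ => ?_⟩
  · rcases eq_or_ne y 0 with rfl | y0
    · exact zero_mem _
    obtain ⟨j, hj⟩ := clr g1 y0 r1 (ofin ou ff y 0) fun R r z => by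
      simpa using Pl.ord_nonneg_of_mem _ (hy R ⟨r, z⟩)
    have := Pl.ord_nonneg_of_mem _ (t1 _ fun R r =>
      (Pl.ord_nonneg_iff _ (mul_ne_zero (pow_ne_zero j g1) y0)).1 (by simpa using hj R r))
    rw [oG j y0] at this
    exact (Pl.ord_nonneg_iff _ y0).1 this
  · obtain ⟨j, hj⟩ := clr g1 ψ0 r1 (ofin ou ff ψ e) fun R r z => hψ R ⟨r, z⟩
    obtain ⟨χ, χ0, c1, c2⟩ := t2 _ (mul_ne_zero (pow_ne_zero j g1) ψ0) hj
    exact ⟨χ, χ0, fun R r => c1 R r.1, oG j ψ0 ▸ c2⟩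

end E23

open E23 in
/-- **ETMR** -/
theorem etmr23 : ETMR := by
  intro nkm etg d l
  obtain ⟨l₀, J₀, etg⟩ := etg d l
  refine ⟨l₀ + 1, J₀, fun L _ _ k N T S D s a A B m G G₀ π b K _ _ _ _ T₀ k₀ Z w e R eb dc qt pw
    hw => ?_⟩
  have fK := Pb.fin_of_ff qt.ff R.ff
  have pr := R.max.isPrime
  have fx : ∀ y, Fix G₀ (algebraMap K L y) := fun y => (qt.fix _).2 ⟨y, rfl⟩
  have sub : ∀ U ∈ T, U ∈ S := fun U u => (dc.eq ▸ u : U ∈ Tz S b).1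
  have rA : ∀ {z}, z ∈ A → ∀ U ∈ T, z ∈ U.ring := fun hz U u => ring_of R.cox ((R.zero _).1 hz) u
  have b0 := nz_ne dc.nz
  have BA : B ≤ A := fun x hx => by
    rcases eq_or_ne x 0 with rfl | x0
    · exact zero_mem _
    exact (R.zero _).2 ((R.cox.sec _ _ x0).2 fun P p => by
      simpa using Pl.ord_nonneg_of_mem _ ((dc.reg _).1 hx P (sub P p)))
  have AB : ∀ x ∈ A, ∃ j : ℕ, b ^ j * x ∈ B := fun x hx => by
    rcases eq_or_ne x 0 with rfl | x0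
    · exact ⟨0, by simp⟩
    obtain ⟨j, hj⟩ := clr b0 x0 ((dc.reg _).1 dc.mem) (dc.sup x 0) fun P p z => by
      simpa using Pl.ord_nonneg_of_mem _ (rA hx P (dc.eq ▸ ⟨p, z⟩))
    exact ⟨j, (dc.reg _).2 fun P p =>
      (Pl.ord_nonneg_iff _ (mul_ne_zero (pow_ne_zero j b0) x0)).1 (by simpa using hj P p)⟩
  have dn : ∀ U ∈ S, ∀ P, Lies (algebraMap K L) U P → P ∈ T₀ ∧
      U.ord (algebraMap K L P.t) = 1 := fun U u P lu => by
    obtain ⟨P₀, p0, l0⟩ := (qt.lies U).1 u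
    obtain rfl := lu.uniq l0
    exact ⟨p0, qt.unr P p0 U lu⟩
  obtain ⟨K₀, _, _, _, _, _, _, _, q0⟩ := qtf12 K L d T G qt.ff R.ff R.gp.fin
    (fun y σ hσ => fx y σ (dc.le hσ)) R.gp.stT fun U u P lu => (dn U (sub U u) P lu).2
  choose dK lK using Pb.down qt.ff q0.ff
  choose d0 l0 using Pb.down q0.ff R.ff
  obtain ⟨γ', n', ot⟩ := etg L k N T D s a A m G π K₀ _ k₀ (fun R => Z (dK R)) w e R eb q0 pw
    fun U u Q lu => hw U (sub U u) _ (cmp lu (lK Q))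
  obtain ⟨g₁, n1, ny⟩ := nkm L d k N T D s a A m G π R S B G₀ b (cv w e) dc fun σ hσ P p P' c => by
    obtain ⟨P₀, -, l⟩ := (qt.lies P).1 p
    rw [cv_dot, cv_dot, ← funext (hw P p P₀ l), ← funext (hw P' (dc.st σ hσ P p P' c) P₀
      (Tq.S48.lies_cj c (fun y => fx y σ hσ) l))]
  have n2 := nz_mul pr n' n1
  obtain ⟨j, hj⟩ := AB _ n2.1
  have n3 := nz_mul pr (L79.nz_pow pr dc.nz j) n2
  let n : Ideal B := m.comap (Subalgebra.inclusion BA)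
  have nB : ∀ x ∈ B, Nz B n x ↔ Nz A m x := fun x hx =>
    ⟨fun h => ⟨BA hx, h.2⟩, fun h => ⟨hx, h.2⟩⟩
  have mx : n.IsMaximal := Ideal.isMaximal_iff.2 ⟨fun c => R.max.ne_top
    ((Ideal.eq_top_iff_one _).2 (by simpa [n] using c)), fun I x le x1 x2 => by
      have := R.max
      have := (Subalgebra.fg_iff_finiteType _).1 R.fg
      obtain ⟨c, hc⟩ := Lx.O15.val m (Subalgebra.inclusion BA x)
      have c0 : c ≠ 0 := fun z => x1 (by simpa [n, z] using hc)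
      have k : x - algebraMap ℂ B c ∈ I := le (by simpa [n] using hc)
      have := I.mul_mem_left (algebraMap ℂ B c⁻¹) (sub_mem x2 k)
      rwa [sub_sub_cancel, ← map_mul, inv_mul_cancel₀ c0, map_one] at this⟩
  obtain ⟨h, nh, fh, op⟩ := opn27 L B n G₀ _ mx dc.fin (fun σ hσ x hx => (dc.reg _).2 fun P p => by
      obtain ⟨P', c1, c2⟩ := Cf.Ds.cj σ P
      exact (c1 x).1 ((dc.reg _).1 hx P' (dc.st σ hσ P p P' c2)))
    ((nB _ (mul_mem dc.mem hj)).2 (nz_mul pr dc.nz n3))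
  obtain ⟨γ, rfl⟩ := (qt.fix h).1 fh
  have nγ := (nB _ nh.1).1 nh
  have γ0 : γ ≠ 0 := (map_ne_zero _).1 (nz_ne nγ)
  have eK : ∀ y, algebraMap K₀ L (algebraMap K K₀ y) = algebraMap K L y := fun y =>
    (IsScalarTower.algebraMap_apply K K₀ L y).symm
  obtain ⟨K₁, _, _, _, _, T₁, Z₁, ff, dw, ou, tr⟩ := otl ot (g := algebraMap K K₀ γ)
    ((map_ne_zero _).2 γ0) fun Q ⟨⟨U, u, lu⟩, _⟩ => (lu _).2 (eK γ ▸ rA nγ.1 U u)
  let _ : Algebra K K₁ := ((algebraMap K₀ K₁).comp (algebraMap K K₀)).toAlgebra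
  have : IsScalarTower K K₀ K₁ := .of_algebraMap_eq fun _ => rfl
  have : IsScalarTower ℂ K K₁ := .of_algebraMap_eq fun y => by
    rw [IsScalarTower.algebraMap_apply K K₀ K₁, ← IsScalarTower.algebraMap_apply ℂ K K₀,
      ← IsScalarTower.algebraMap_apply ℂ K₀ K₁]
  refine ⟨γ, nh.1, nγ, K₁, _, _, _, inferInstance, T₁, Z₁, ff, fun Q q => ?_, ou, fun P hP => ?_⟩
  · obtain ⟨P, ⟨⟨⟨U, u, lu⟩, -⟩, z⟩, lq, e1, e2⟩ := dw Q q
    have k := dn U (sub U u) _ (cmp lu (lK P))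
    have k2 := k.2
    rw [emul lu, q0.unr P ⟨U, u, lu⟩ U lu, one_mul] at k2
    exact ⟨dK P, ⟨k.1, (ord_zero (lK P) γ).1 z⟩, cmp lq (lK P), by rw [emul lq, e1, k2, one_mul], e2⟩
  have ovP : ∀ Q, Lies (algebraMap K L) Q P → ∀ z ∈ B, z ∈ Q.ring := fun Q lq z hz =>
    ov hP lq fun R r U lu => (dc.reg _).1 hz U ((qt.lies U).2 ⟨R, r.1, lu⟩)
  have pγ : P.ord γ = 0 := Pl.ord_unit _
    (hP _ fun R r => ((Pl.ord_eq_zero_iff _ γ0).1 r.2).1)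
    (hP _ fun R r => ((Pl.ord_eq_zero_iff _ γ0).1 r.2).2)
  obtain ⟨U₀, lq0⟩ := Pb.up_fin (K' := L) P
  obtain ⟨σ, hσ, U, cj, zq⟩ := op U₀ (ovP U₀ lq0) ((ord_zero lq0 γ).2 pγ)
  have lq := Tq.S48.lies_cj cj (fun y => fx y σ hσ) lq0
  have z1 := split b0 (nz_ne n3) (ovP U lq _ dc.mem) (ovP U lq _ hj) zq
  have ob : ∀ (i : ℕ) {y : L}, y ≠ 0 → U.ord (b ^ i * y) = U.ord y := fun i y y0 => by
    rw [Pl.ord_mul _ (pow_ne_zero _ b0) y0, Pl.ord_pow, z1.1, mul_zero, zero_add]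
  have oq : ∀ z ∈ A, z ∈ U.ring := fun z hz => by
    rcases eq_or_ne z 0 with rfl | z0
    · exact zero_mem _
    obtain ⟨i, hi⟩ := AB z hz
    exact (Pl.ord_nonneg_iff _ z0).1 (ob i z0 ▸ Pl.ord_nonneg_of_mem _ (ovP U lq _ hi))
  have z2 := split (nz_ne n') (nz_ne n1) (oq _ n'.1) (oq _ n1.1) (ob j (nz_ne n2) ▸ z1.2)
  have nG := nz_mul pr n' nγ
  have zG : U.ord (algebraMap K₀ L γ' * algebraMap K L γ) = 0 := by
    rw [Pl.ord_mul _ (nz_ne n') (nz_ne nγ), z2.1, (ord_zero lq γ).2 pγ, add_zero]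
  have fG : Fix G (algebraMap K₀ L γ' * algebraMap K L γ) := fun τ hτ => by
    rw [map_mul, (q0.fix _).2 ⟨γ', rfl⟩ τ hτ, fx γ τ (dc.le hτ)]
  have key : ∀ V ∈ T, V.ord (algebraMap K₀ L γ' * algebraMap K L γ) = 0 →
      d0 V ∈ Tz (Tz {R : Pl K₀ | ∃ Q ∈ T, Lies (algebraMap K₀ L) Q R} γ') (algebraMap K K₀ γ) ∧
        V.ord (algebraMap K₀ L (d0 V).t) = 1 := fun V v z => by
    have a1 := split (nz_ne n') (nz_ne nγ) (rA n'.1 V v) (rA nγ.1 V v) z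
    exact ⟨⟨⟨⟨V, v, l0 V⟩, (ord_zero (l0 V) _).1 a1.1⟩, (ord_zero (l0 V) _).1 (eK γ ▸ a1.2)⟩,
      q0.unr _ ⟨V, v, l0 V⟩ V (l0 V)⟩
  generalize algebraMap K₀ L γ' * algebraMap K L γ = g at nG zG fG key
  have g0 := nz_ne nG
  have oG : ∀ (j : ℕ) {y : K₀}, y ≠ 0 → U.ord (g ^ j * algebraMap K₀ L y) =
      U.ord (algebraMap K₀ L y) := fun j y y0 => by
    rw [Pl.ord_mul _ (pow_ne_zero _ g0) ((map_ne_zero _).2 y0), Pl.ord_pow, zG, mul_zero, zero_add]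
  obtain ⟨Q, l1, t1, t2⟩ := tr (d0 U) fun y hy => by
    rcases eq_or_ne y 0 with rfl | y0
    · exact zero_mem _
    have y1 := (map_ne_zero (algebraMap K₀ L)).2 y0
    obtain ⟨j, hj⟩ := loc R.cox ((R.zero _).1 nG.1) g0 (e := 0) y1 fun V v z => by
      rw [zero_dotProduct, add_zero]
      exact Pl.ord_nonneg_of_mem _ ((l0 V _).1 (hy _ (key V v z).1))
    have := Pl.ord_nonneg_of_mem _ (oq _ ((R.zero _).2 hj))
    rw [oG j y0] at this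
    exact (l0 U _).2 ((Pl.ord_nonneg_iff _ y1).1 this)
  refine ⟨Q, cmp l1 (mid (l0 U) lq), t1, fun ψ ψ0 hψ => ?_⟩
  obtain ⟨φ, φ0, hφ, le0⟩ := t2 ψ ψ0 hψ
  have φ1 := (map_ne_zero (algebraMap K₀ L)).2 φ0
  obtain ⟨i, hi⟩ := loc R.cox ((R.zero _).1 nG.1) g0 (e := cv w e) φ1 fun V v z => by
    have k := hφ _ (key V v z).1
    rw [(l0 V).ord, (key V v z).2, one_mul, cv_dot,
      ← funext (hw V (sub V v) _ (cmp (l0 V) (lK _)))]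
    exact k
  have j0 := mul_ne_zero (pow_ne_zero i g0) φ1
  obtain ⟨_, ⟨μ, hμ, χ, fχ, hχ, rfl⟩, x0, le⟩ := term U (ny _ hi fun τ hτ => by
    rw [map_mul, map_pow, fG τ hτ, (q0.fix _).2 ⟨φ, rfl⟩ τ hτ]) (mul_ne_zero (nz_ne n1) j0)
  obtain ⟨χ, rfl⟩ := (qt.fix χ).1 fχ
  have χ1 := right_ne_zero_of_mul x0
  refine ⟨χ, (map_ne_zero _).1 χ1, fun R' r => ?_, le_trans ?_ le0⟩
  · obtain ⟨P₁, lp⟩ := Pb.up_fin (K' := L) R'
    have p1 := (qt.lies P₁).2 ⟨R', r.1, lp⟩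
    have := hχ χ1 P₁ p1
    rwa [lp.ord, qt.unr R' r.1 P₁ lp, one_mul, cv_dot, ← funext (hw P₁ p1 R' lp)] at this
  · have := Pl.ord_nonneg_of_mem _ (oq _ hμ)
    rw [Pl.ord_mul _ (left_ne_zero_of_mul x0) χ1, Pl.ord_mul _ (nz_ne n1) j0, z2.2, zero_add,
      oG i φ0] at le
    have k : (d0 U).ord (algebraMap K K₀ χ) ≤ (d0 U).ord φ := ord_le (l0 U) _ _ (by
      rw [eK]
      omega)
    rw [emul l1, l1.ord φ]
    exact mul_le_mul_of_nonneg_left k l1.e_pos.le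

end Vale.Agent.P283R.Uq
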