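import Vale.Agent.P283R.Uq.St3
import Vale.Agent.P283R.Uq.Nky21
import Vale.Agent.P283R.Uq.Pre39

/-!
# P283R, block UQ: the sections which are fixed by the decomposition group come from below
-/

open Set

noncomputable section

namespace Vale.Agent.P283R.Uq

open Vale.Agent.P287D Vale.Agent.P297Z Vale.Agent.P283M Vale.Agent.P283R.Cx
open Vale.Agent.P283R.Lx (Nz Ie)
open Vale.Agent.P283R.Lx.K33
open Vale.Agent.P283R.Lx.O15
open Vale.Agent.P283R.Tq.A15 (ex)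
open N21

/-- **NKM** -/
theorem nkm39 : NKM := by
  classical
  intro L _ _ d k N T D s a A m G π R S B G₀ b e c he
  have := R.gp.fin
  have := c.fin
  have := Fintype.ofFinite G
  have := Fintype.ofFinite G₀
  have hm := R.max.isPrime
  have b0 := P39.nz0 c.nz
  obtain ⟨τ, hτ, fin, n, pw⟩ := Tq.tau27 L d A m G R.ff R.fg R.max R.gp.fin (stab R) R.gp.stm
  have hT : ∀ P, P ∈ T ↔ P ∈ S ∧ P.ord b = 0 := fun P => by rw [c.eq]; rfl
  have rg : ∀ y, y ≠ 0 → (y ∈ B ↔ ∀ P ∈ S, 0 ≤ P.ord y) := fun y y0 => (c.reg y).trans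
    (forall₂_congr fun P _ => (Pl.ord_nonneg_iff _ y0).symm)
  have bA : ∀ y ∈ B, y ∈ A := fun y h => by
    rcases eq_or_ne y 0 with rfl | y0
    · exact zero_mem _
    exact (R.zero y).2 ((R.cox.sec _ _ y0).2 fun P p => by
      simpa using (rg y y0).1 h P ((hT P).1 p).1)
  have sB : ∀ σ : G₀, ∀ y ∈ B, σ.1 y ∈ B := fun σ y h => by
    rcases eq_or_ne y 0 with rfl | y0
    · simp
    refine (rg _ (by simpa using y0)).2 fun P p => ?_
    obtain ⟨P', q⟩ := ex σ.1 P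
    exact q y ▸ (rg y y0).1 h P' (c.st σ σ.2 P p P' q)
  have ib : b⁻¹ ∈ A := (R.zero _).2 ((R.cox.sec _ _ (inv_ne_zero b0)).2 fun P p => by
    have : P.ord b⁻¹ = -P.ord b := Pl.ord_inv _ _
    simp [this, ((hT P).1 p).2])
  let V : Submodule ℂ L := ⨅ P ∈ S, P.sub ((e ⬝ᵥ D P : ℤ) : ℝ)
  have v1 : ∀ x, x ∈ V ↔ (x ≠ 0 → ∀ P ∈ S, 0 ≤ P.ord x + e ⬝ᵥ D P) := fun x => by
    simp only [V, Submodule.mem_iInf]
    exact ⟨fun h x0 P p => by exact_mod_cast (h P p).resolve_left x0, fun h P p =>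
      (eq_or_ne x 0).imp_right fun x0 => by exact_mod_cast h x0 P p⟩
  have v2 : ∀ σ : G₀, ∀ x ∈ V, σ.1 x ∈ V := fun σ x h => (v1 _).2 fun x0 P p => by
    obtain ⟨P', q⟩ := ex σ.1 P
    rw [← q, ← he σ σ.2 P p P' q]
    exact (v1 x).1 h (by simpa using x0) P' (c.st σ σ.2 P p P' q)
  have v3 : ∀ y ∈ B, ∀ x ∈ V, y * x ∈ V := fun y h x h' => (v1 _).2 fun z P p => by
    have q : P.ord (y * x) = P.ord y + P.ord x :=
      Pl.ord_mul _ (left_ne_zero_of_mul z) (right_ne_zero_of_mul z)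
    have := (rg y (left_ne_zero_of_mul z)).1 h P p
    have := (v1 x).1 h' (right_ne_zero_of_mul z) P p
    omega
  have v4 : ∀ x ∈ V, x ∈ Sp s a e := fun x h => by
    rcases eq_or_ne x 0 with rfl | x0
    · exact zero_mem _
    exact (R.cox.sec _ _ x0).2 fun P p => (v1 x).1 h x0 P ((hT P).1 p).1
  have v5 : ∀ x ∈ Sp s a e, ∃ j : ℕ, b ^ j * x ∈ V := fun x h => by
    obtain ⟨j, hj⟩ := ((c.sup x e).image fun P => (P.ord x + e ⬝ᵥ D P).natAbs).bddAbove
    refine ⟨j, (v1 _).2 fun z P p => ?_⟩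
    have x0 := right_ne_zero_of_mul z
    have q : P.ord (b ^ j * x) = P.ord (b ^ j) + P.ord x := Pl.ord_mul _ (pow_ne_zero _ b0) x0
    have q' : P.ord (b ^ j) = j * P.ord b := Pl.ord_pow _ _ _
    have g := (rg b b0).1 c.mem P p
    rw [q, q', add_assoc]
    by_cases w : 0 ≤ P.ord x + e ⬝ᵥ D P
    · exact add_nonneg (mul_nonneg (Int.natCast_nonneg j) g) w
    have : (P.ord x + e ⬝ᵥ D P).natAbs ≤ j := hj ⟨P, ⟨p, fun q => w q.ge⟩, rfl⟩
    have g1 : 1 ≤ P.ord b := by_contra fun q =>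
      w ((R.cox.sec _ _ x0).1 h P ((hT P).2 ⟨p, by omega⟩))
    have := mul_le_mul_of_nonneg_left g1 (Int.natCast_nonneg j)
    omega
  have : ∀ σ : G₀, ∃ y ∈ B, Nz A m y ∧ (σ.1 ∉ G → ¬ Nz A m (σ.1 y)) := fun σ => by
    by_cases h : σ.1 ∈ G
    · exact ⟨1, one_mem _, nz_one hm.ne_top, fun z => (z h).elim⟩
    · exact (c.sep σ σ.2 h).imp fun y z => ⟨z.1, z.2.1, fun _ => z.2.2⟩
  choose y y1 y2 y3 using this
  obtain ⟨x, x0, hx, mx⟩ := L77.cst R.fg R.max (P39.nz_prod hm Finset.univ y2)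
  let Y : L := x⁻¹ • ∏ σ, y σ
  have YB : Y ∈ B := B.smul_mem (prod_mem fun σ _ => y1 σ) _
  let z : G₀ → A := fun σ => ⟨σ.1 Y, bA _ (sB σ Y YB)⟩
  have z1 : ∀ σ : G₀, σ.1 ∈ G → 1 - z σ ∈ m := fun σ h => by
    have q : 1 - Y = (-x⁻¹) • (∏ σ, y σ - algebraMap ℂ L x) := by
      have : algebraMap ℂ L x ≠ 0 := by simpa using x0
      simp only [Y, Algebra.smul_def, map_neg, map_inv₀]
      field_simp
      ring
    by_contra w
    have u := R.gp.stm _ (inv_mem h) (σ.1 (1 - Y)) ⟨by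
      rw [map_sub, map_one]; exact (1 - z σ).2, fun t => w (by
        convert t using 1
        exact Subtype.ext (by simp [z]))⟩
    rw [show σ.1⁻¹ (σ.1 (1 - Y)) = 1 - Y from σ.1.symm_apply_apply _] at u
    refine u.2 ?_
    convert m.smul_of_tower_mem (-x⁻¹) mx using 1
    exact Subtype.ext q
  have z2 : ∀ σ : G₀, σ.1 ∉ G → z σ ∈ m := fun σ h => by
    have w := (not_nz (bA _ (sB σ _ (y1 σ)))).1 (y3 σ h)
    convert m.smul_of_tower_mem x⁻¹ (m.mul_mem_right ⟨σ.1 (∏ ρ ∈ Finset.univ.erase σ, y ρ),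
      bA _ (sB σ _ (prod_mem fun ρ _ => y1 ρ))⟩ w) using 1
    refine Subtype.ext ?_
    show σ.1 (x⁻¹ • ∏ σ, y σ) = x⁻¹ • (σ.1 (y σ) * σ.1 _)
    rw [map_smul, ← map_mul, Finset.mul_prod_erase _ _ (Finset.mem_univ σ)]
  let av : L →ₗ[ℂ] L := ∑ σ : G, σ.1.toLinearMap
  have a0 : ∀ x, av x = ∑ σ : G, σ.1 x := fun x => by simp [av]
  have a1 : ∀ x y, Fix G x → av (x * y) = x * av y := fun x y h => by
    rw [a0, a0, Finset.mul_sum]
    exact Finset.sum_congr rfl fun σ _ => by rw [map_mul, h σ σ.2]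
  have a2 : ∀ x, Fix G (av x) := fun x σ h => by
    rw [a0, map_sum]
    exact Fintype.sum_equiv (Equiv.mulLeft ⟨σ, h⟩) _ _ fun _ => rfl
  have a3 : ∀ x ∈ Sp s a e, av x ∈ Sp s a e := fun x h => by
    rw [a0]
    refine sum_mem fun σ _ => ?_
    rcases eq_or_ne x 0 with rfl | x0
    · simp
    refine (R.cox.sec _ _ (by simpa using x0)).2 fun P p => ?_
    obtain ⟨P', q⟩ := ex σ.1 P
    rw [← q, ← he σ (c.le σ.2) P ((hT P).1 p).1 P' q]
    exact (R.cox.sec _ _ x0).1 h P' (R.gp.stT σ σ.2 P p P' q)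
  let W : Submodule ℂ L := Submodule.span ℂ {x | ∃ μ ∈ A, ∃ χ, Fix G₀ χ ∧
    (χ ≠ 0 → ∀ P ∈ S, 0 ≤ P.ord χ + e ⬝ᵥ D P) ∧ x = μ * χ}
  have hW : ∀ i, ∀ x ∈ W, τ i * x ∈ W := fun i x hx => mul_comm x _ ▸ span_mul (by
    rintro _ ⟨μ, hμ, χ, h1, h2, rfl⟩
    exact Submodule.subset_span ⟨μ * τ i, mul_mem hμ (τ i).2, χ, h1, h2, mul_right_comm _ _ _⟩) hx
  let M : Submodule ℂ L :=
    { carrier := {x | x ∈ Sp s a e ∧ Fix G x}
      add_mem' := fun x y => ⟨add_mem x.1 y.1, fun σ h => by rw [map_add, x.2 σ h, y.2 σ h]⟩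
      zero_mem' := ⟨zero_mem _, fun σ _ => map_zero σ⟩
      smul_mem' := fun c x y => ⟨Submodule.smul_mem _ c y.1, fun σ h => by
        rw [map_smul, y.2 σ h]⟩ }
  have hM : ∀ i, ∀ x ∈ M, τ i * x ∈ M := fun i x h =>
    ⟨sp_tau R.zero e i x h.1, fun σ z => by rw [map_mul, (hτ i).2 σ z, h.2 σ z]⟩
  have : Algebra.FiniteType ℂ (Algebra.adjoin ℂ (range τ)) :=
    (Subalgebra.fg_iff_finiteType _).1 (Subalgebra.fg_def.2 ⟨_, finite_range _, rfl⟩)
  have : IsNoetherianRing (Algebra.adjoin ℂ (range τ)) := Algebra.FiniteType.isNoetherianRing ℂ _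
  let J : Ideal (Algebra.adjoin ℂ (range τ)) :=
    (Ideal.span (range τ)).comap (Algebra.adjoin ℂ (range τ)).val
  obtain ⟨g, g1, g2⟩ := nak0 J (sb τ W hW) (sb τ M hM)
    ((fg Lx.fim40 R.zero fin e).of_le fun x h => h.1) fun ψ hx Q q1 q2 => by
      have sm : ∀ (c : ℂ), ∀ y ∈ Q, c • y ∈ Q := fun c y u => by
        have := Submodule.smul_mem _ (algebraMap ℂ (Algebra.adjoin ℂ (range τ)) c) u
        have q : algebraMap ℂ (Algebra.adjoin ℂ (range τ)) c • y = c • y :=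
          (Algebra.smul_def c y).symm
        exact q ▸ this
      have ns : ∀ (i : ℕ) y, i ≠ 0 → i • y ∈ Q → y ∈ Q := fun i y i0 u => by
        have := sm (i : ℂ)⁻¹ _ u
        rwa [← Nat.cast_smul_eq_nsmul ℂ, inv_smul_smul₀ (Nat.cast_ne_zero.2 i0)] at this
      have k1 : ∀ y ∈ Tm τ s a e, av y ∈ Q := fun y hy => by
        induction hy using Submodule.span_induction with
        | mem _ b =>
          obtain ⟨i, y, hy, rfl⟩ := b
          rw [a1 _ _ (hτ i).2]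
          exact q2 ⟨τ i, Algebra.subset_adjoin ⟨i, rfl⟩⟩
            (Ideal.subset_span (s := range τ) ⟨i, rfl⟩) _ ⟨a3 y hy, a2 y⟩
        | zero => simp
        | add _ _ _ _ u v => exact map_add av _ _ ▸ add_mem u v
        | smul c _ _ u => exact map_smul av _ _ ▸ sm c _ u
      obtain ⟨j, hj⟩ := v5 ψ hx.1
      let χ : L := ∑ σ : G₀, σ.1 ((1 - (1 - Y ^ n) ^ n) * (b ^ j * ψ))
      have c1 : Fix G₀ χ := fun σ h => by
        simp only [χ]
        rw [map_sum]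
        exact Fintype.sum_equiv (Equiv.mulLeft ⟨σ, h⟩) _ _ fun _ => rfl
      have c2 : χ ∈ V := sum_mem fun σ _ => v2 σ _ (v3 _ (sub_mem (one_mem _)
        (pow_mem (sub_mem (one_mem _) (pow_mem YB _)) _)) _ hj)
      have c3 : b⁻¹ ^ j * χ - ∑ σ : G₀, (if σ.1 ∈ G then ψ else 0) ∈ Tm τ s a e := by
        simp only [χ]
        rw [Finset.mul_sum, ← Finset.sum_sub_distrib]
        refine sum_mem fun σ _ => ?_
        split_ifs with h
        · convert tm_of R.zero (pw ((m ^ n).neg_mem (Ideal.pow_mem_pow (Ideal.mem_of_dvd _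
            (one_sub_dvd_one_sub_pow (z σ) n) (z1 σ h)) n))) hx.1 using 1
          simp [z, hx.2 σ h, c.fix σ h]
          field_simp
          ring
        · convert tm_of R.zero (pw (Ideal.mem_of_dvd _ ((sub_sub_cancel 1 (z σ ^ n)) ▸
            one_sub_dvd_one_sub_pow (1 - z σ ^ n) n) (Ideal.pow_mem_pow (z2 σ h) n)))
            (zero_add e ▸ sp_mul ((R.zero _).1 (pow_mem ib j)) (v4 _ (v2 σ _ hj))) using 1
          simp [z]
          ring
      rw [Finset.sum_ite, Finset.sum_const_zero, add_zero, Finset.sum_const] at c3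
      have c4 := k1 _ c3
      rw [a0, Finset.sum_congr rfl fun σ _ => by
        rw [map_sub, map_mul, map_pow, map_inv₀, map_nsmul, c.fix σ σ.2, c1 σ (c.le σ.2),
          hx.2 σ.1 σ.2], Finset.sum_const] at c4
      have c5 := sub_mem (q1 (Submodule.subset_span ⟨_, pow_mem ib j, χ, c1, (v1 χ).1 c2, rfl⟩))
        (ns _ _ Fintype.card_ne_zero c4)
      rw [sub_sub_cancel] at c5
      exact ns _ _ (Finset.card_ne_zero.2 ⟨1, by simp⟩) c5
  exact ⟨_, nz_of R.max.ne_top (fun i => (hτ i).1) g1, fun ψ h1 h2 => g2 ψ ⟨h1, h2⟩⟩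

end Vale.Agent.P283R.Uq
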