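import Vale.Agent.P283R.Uq.Onq48
import Vale.Agent.P283R.Sl.Uq3

/-!
# P283R, block UQ: several points over the base point, the statements
-/

open Set CategoryTheory AlgebraicGeometry

noncomputable section

namespace Vale.Agent.P283R.Uq

open Vale.Agent.P287D Vale.Agent.P283M Vale.Agent.P283R.Cx
open Vale.Agent.P283R.Lx (Nz)
open Vale.Agent.P283R.Tq (Cj Qt)

/-- `G` is the decomposition group of the point in `G₀`, `T` is the set `b ≠ 0` in `S` -/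
structure Dc {L : Type} [Field L] [Algebra ℂ L] {k : ℕ} (T S : Set (Pl L))
    (D : Pl L → Fin k → ℤ) (A B : Subalgebra ℂ L) (m : Ideal A) (G G₀ : Subgroup (L ≃ₐ[ℂ] L))
    (b : L) : Prop where
  fin : Finite G₀
  le : G ≤ G₀
  st : ∀ σ ∈ G₀, ∀ P ∈ S, ∀ P', Cj σ P P' → P' ∈ S
  reg : ∀ x, x ∈ B ↔ ∀ P ∈ S, x ∈ P.ring
  mem : b ∈ B
  nz : Nz A m b
  fix : Fix G b
  eq : T = Tz S b
  sup : ∀ (φ : L) e, {P | P ∈ S ∧ P.ord φ + e ⬝ᵥ D P ≠ 0}.Finite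
  sep : ∀ σ ∈ G₀, σ ∉ G → ∃ y ∈ B, Nz A m y ∧ ¬ Nz A m (σ y)

/-- **NKM**: the sections which are fixed by the decomposition group come from below -/
def NKM : Prop := ForR fun L _ _ _ k _ T D s a A m G _ => ∀ (S : Set (Pl L)) (B : Subalgebra ℂ L)
  (G₀ : Subgroup (L ≃ₐ[ℂ] L)) (b : L) (e : Fin k → ℤ), Dc T S D A B m G G₀ b →
    (∀ σ ∈ G₀, ∀ P ∈ S, ∀ P', Cj σ P P' → e ⬝ᵥ D P' = e ⬝ᵥ D P) → ∃ g, Nz A m g ∧
      ∀ ψ ∈ Sp s a e, Fix G ψ → g * ψ ∈ Submodule.span ℂ {x | ∃ μ ∈ A, ∃ χ, Fix G₀ χ ∧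
        (χ ≠ 0 → ∀ P ∈ S, 0 ≤ P.ord χ + e ⬝ᵥ D P) ∧ x = μ * χ}

/-- **ETM**: the first stage -/
def ETM : Prop := ∀ d l, ∃ l₀ J₀ : ℕ, ∀ (L : Type) [Field L] [Algebra ℂ L] (k N : ℕ)
  (T S : Set (Pl L)) (D : Pl L → Fin k → ℤ) (s : Fin N → L) (a : Fin N → Fin k → ℤ)
  (A B : Subalgebra ℂ L) (m : Ideal A) (G G₀ : Subgroup (L ≃ₐ[ℂ] L)) (π : Ac L k) (b : L)
  (K : Type) [Field K] [Algebra ℂ K] [Algebra K L] [IsScalarTower ℂ K L] (T₀ : Set (Pl K))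
  (k₀ : ℕ) (Z : Pl K → Fin k₀ → ℤ) (w : Fin k₀ → Fin k → ℤ) (e : Fin k₀ → ℤ),
    Rw d T D s a A m G π → Eb d l s a A m → Dc T S D A B m G G₀ b → Qt d T₀ S G₀ →
    (∀ σ ∈ G, ∀ i, π σ (w i) = w i) →
    (∀ P ∈ S, ∀ Q, Lies (algebraMap K L) P Q → ∀ i, Z Q i = w i ⬝ᵥ D P) →
    ∃ γ : K, algebraMap K L γ ∈ B ∧ Nz A m (algebraMap K L γ) ∧ Ot d l₀ J₀ (Tz T₀ γ) Z e

/-- **ETMR** -/
def ETMR : Prop := NKM → ETG → ETM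

open Sl Sl.Var

/-- **ONM**: the quotients -/
def ONM : Prop := ∀ l C, FRD l C → OnN fun d _ _ f _ _ z => QuotAt (C d) f z

/-- **TOM** -/
def TOM : Prop := FCE → ETM → ONM

end Vale.Agent.P283R.Uq
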