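import Mathlib.AlgebraicGeometry.Morphisms.QuasiFinite
import Vale.Agent.P283R.Uq.St3

/-!
# P283R, block UQ: the scheme side, any point over the base point
-/

open Set CategoryTheory AlgebraicGeometry

noncomputable section

namespace Vale.Agent.P283R.Uq

open Vale.Agent.P289 (Pt St toRat DForm dimension)
open Vale.Agent.P287D Vale.Agent.P283M.Stm Vale.Agent.P283M.Stm.Var Vale.Agent.P297Z
open Vale.Agent.P283M Vale.Agent.P283M.Br Vale.Agent.P283R.Sch Vale.Agent.P283R.Cox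
open Vale.Agent.P283R.Gl (pq pq_is pq_ord)
open Vale.Agent.P283R.Tq (Cj Gp Pw bas48)

namespace T48

theorem reg_pw {Y : Var} (O : Y.X.Opens) (y : Y.K) :
    (∀ x ∈ O, RegAt y x) ↔ ∀ P ∈ Pw O, y ∈ P.ring := by
  refine ⟨fun h P ⟨E, c, e⟩ => e ▸ (pq_is E _).2 (h _ c), fun h x hx => ?_⟩
  rcases eq_or_ne y 0 with rfl | y0
  · exact (lr x).zero_mem
  refine har Y y x fun E hE => ?_
  rw [pq_ord]
  exact (Pl.ord_nonneg_iff _ y0).2 (h _ ⟨E, hE.mem_open O.isOpen hx, rfl⟩)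

theorem cjm {L : Type} [Field L] [Algebra ℂ L] {σ : L ≃ₐ[ℂ] L} {P P' : Pl L} (h : Cj σ P P')
    (φ : L) : φ ∈ P'.ring ↔ σ φ ∈ P.ring := by
  rcases eq_or_ne φ 0 with rfl | φ0
  · simp
  · rw [← Pl.ord_nonneg_iff _ φ0, ← Pl.ord_nonneg_iff _ ((map_ne_zero _).2 φ0), h]

theorem stb {L : Type} [Field L] [Algebra ℂ L] {σ : L ≃ₐ[ℂ] L} {T : Set (Pl L)}
    (h : ∀ P ∈ T, ∀ P', Cj σ P P' → P' ∈ T) {y : L} (hy : ∀ P ∈ T, y ∈ P.ring) :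
    ∀ P ∈ T, σ y ∈ P.ring := fun P hP =>
  let ⟨P', c⟩ := Tq.A15.ex σ P
  (cjm c y).1 (hy _ (h P hP P' c))

theorem sup {Y : Var} {k : ℕ} (O : Y.X.Opens) (E : Fin k → Y.PrimeDiv →₀ ℤ) (φ : Y.K)
    (e : Fin k → ℤ) :
    {P | P ∈ Pw O ∧ P.ord φ + e ⬝ᵥ (fun i => Cox.up (E i) P) ≠ 0}.Finite := by
  refine (((P283M.Br.fin Y φ).union (finite_iUnion fun i =>
    (E i).support.finite_toSet)).image pq).subset ?_
  rintro _ ⟨⟨F, -, rfl⟩, h⟩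
  refine ⟨F, by_contra fun n => h ?_, rfl⟩
  simp only [mem_union, mem_iUnion, not_or, not_exists, Finset.mem_coe, Finsupp.mem_support_iff,
    not_not, mem_ofPred_eq] at n
  rw [← pq_ord, n.1, zero_add]
  exact Finset.sum_eq_zero fun i _ => by
    simp only [up_eq _ (pq_is F).dom, n.2, mul_zero]

theorem unp {Y : Var} {ι : Type} (s : Finset ι) (c : ι → Y.K) (x : Pt Y.X)
    (h : ∀ i ∈ s, UnAt (c i) x) : UnAt (∏ i ∈ s, c i) x :=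
  Finset.prod_induction c (UnAt · x) (fun _ _ => UnAt.mul) unAt_one h

/-- the decomposition group and the invariant neighbourhood -/
theorem dec {Y W : Var} {g : Y.X ⟶ W.X} (hg : Contraction g) {V V₁ : W.X.Opens}
    (hV : IsAffineOpen V) {x₀ : Pt Y.X} (h₀ : x₀ ∈ g ⁻¹ᵁ V) (h₁ : x₀ ∈ g ⁻¹ᵁ V₁)
    {G₀ : Subgroup (Y.K ≃ₐ[ℂ] Y.K)} (fin : Finite G₀)
    (st : ∀ σ ∈ G₀, ∀ P ∈ Pw (g ⁻¹ᵁ V), ∀ P', Cj σ P P' → P' ∈ Pw (g ⁻¹ᵁ V)) :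
    ∃ V' ≤ V₁, IsAffineOpen V' ∧ x₀ ∈ g ⁻¹ᵁ V' ∧ V' ≤ V ∧
      ∃ (B : Subalgebra ℂ Y.K) (G : Subgroup (Y.K ≃ₐ[ℂ] Y.K)) (b : Y.K),
      (∀ y, y ∈ B ↔ ∀ x ∈ g ⁻¹ᵁ V, RegAt y x) ∧ ∀ (k : ℕ)
        (E : Fin k → Y.PrimeDiv →₀ ℤ) (A : Subalgebra ℂ Y.K) (m : Ideal A),
        (∀ x, x ∈ A ↔ ∀ y ∈ g ⁻¹ᵁ V', RegAt x y) → (∀ x, Lx.Nz A m x ↔ x ∈ A ∧ UnAt x x₀) →
        Gp (Pw (g ⁻¹ᵁ V')) A m G ∧
        Dc (Pw (g ⁻¹ᵁ V')) (Pw (g ⁻¹ᵁ V)) (fun P i => Cox.up (E i) P) A B m G G₀ b := by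
  classical
  have : Nonempty ↑(g ⁻¹ᵁ V) := ⟨⟨x₀, h₀⟩⟩
  let B : Subalgebra ℂ Y.K := ⨅ (x : Pt Y.X) (_ : x ∈ g ⁻¹ᵁ V), la x
  have hB : ∀ y, y ∈ B ↔ ∀ x ∈ g ⁻¹ᵁ V, RegAt y x := fun y => by
    simp only [B, Algebra.mem_iInf]
    rfl
  have hB' := fun y => (hB y).trans (reg_pw _ y)
  have sB : ∀ σ ∈ G₀, ∀ y ∈ B, σ y ∈ B := fun σ a y c => (hB' _).2 (stb (st σ a) ((hB' y).1 c))
  let G' : Submonoid (Y.K ≃ₐ[ℂ] Y.K) :=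
    { carrier := {σ | σ ∈ G₀ ∧ ∀ y ∈ B, UnAt y x₀ → UnAt (σ y) x₀}
      one_mem' := ⟨G₀.one_mem, fun _ _ h => h⟩
      mul_mem' := fun {σ τ} a c => ⟨G₀.mul_mem a.1 c.1, fun y u v =>
        a.2 _ (sB τ c.1 y u) (c.2 y u v)⟩ }
  let G : Subgroup (Y.K ≃ₐ[ℂ] Y.K) :=
    { G' with
      inv_mem' := fun {σ} a => by
        have o : IsOfFinOrder σ := by
          have := isOfFinOrder_of_finite (⟨σ, a.1⟩ : G₀)
          exact G₀.subtype.isOfFinOrder this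
        have e : σ⁻¹ = σ ^ (orderOf σ - 1) := by
          refine inv_eq_of_mul_eq_one_right ?_
          rw [← pow_succ', Nat.sub_add_cancel o.orderOf_pos, pow_orderOf_eq_one]
        exact e ▸ G'.pow_mem a _ }
  have le : G ≤ G₀ := fun _ a => a.1
  have fG : Finite G := Finite.of_injective _ (Subgroup.inclusion_injective le)
  let _ := Fintype.ofFinite G
  obtain ⟨c, c1, c2⟩ := hV.exists_basicOpen_le (V := V₁) ⟨x₀.map g, h₁⟩ h₀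
  let b₀ : Y.K := Am.pl g V c
  have b0 : b₀ ∈ B := (hB _).2 (Am.mem_reg.1 (Am.pl_reg g V c))
  have bu : ∀ x ∈ g ⁻¹ᵁ V, UnAt b₀ x ↔ g x ∈ W.X.basicOpen c := fun x hx =>
    Am.un_pl (f := g) (V := V) hx c
  let b : Y.K := ∏ σ : G, σ.1 b₀
  have bB : b ∈ B := prod_mem fun σ _ => sB σ.1 σ.2.1 _ b0
  have bx : UnAt b x₀ := unp _ _ _ fun σ _ => σ.2.2 _ b0 ((bu _ h₀).2 c2)
  have bf : Fix G b := fun τ a => by
    simp only [b, map_prod]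
    exact Fintype.prod_equiv (Equiv.mulLeft (⟨τ, a⟩ : G)) _ _ fun _ => rfl
  obtain ⟨U, hU, le', bw⟩ := bas48 hg hV h₀ ((hB b).1 bB)
  have eT : Pw (g ⁻¹ᵁ U) = Tz (Pw (g ⁻¹ᵁ V)) b := Set.ext fun P =>
    ⟨fun ⟨E, u, e⟩ => ⟨⟨E, le' u, e⟩, e ▸ (Lx.un_ord (pq_is E).dom bx.1).1 ((bw _ (le' u)).1 u)⟩,
      fun ⟨⟨E, u, e⟩, v⟩ => ⟨E, (bw _ u).2 ((Lx.un_ord (pq_is E).dom bx.1).2 (e ▸ v)), e⟩⟩
  refine ⟨U, fun w hw => ?_, hU, (bw _ h₀).2 bx, le', B, G, b, hB, fun k E A m hA hN => ?_⟩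
  · obtain ⟨x, rfl⟩ := hg.2.2.1.surj w
    have u := (bw x (le' hw)).1 hw
    have v : RegAt (∏ σ ∈ Finset.univ.erase (1 : G), σ.1 b₀) x :=
      (lr x).prod_mem fun σ _ => (hB _).1 (sB σ.1 σ.2.1 _ b0) x (le' hw)
    have e : b₀ * ∏ σ ∈ Finset.univ.erase (1 : G), σ.1 b₀ = b :=
      Finset.mul_prod_erase _ (fun σ : G => σ.1 b₀) (Finset.mem_univ 1)
    have n0 : b₀ ≠ 0 := fun z => u.1 (by rw [← e, z, zero_mul])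
    refine c1 ((bu x (le' hw)).1 ⟨n0, (hB _).1 b0 x (le' hw), ?_⟩)
    have := reg_mul v u.2.2
    rwa [← e, mul_inv, mul_comm b₀⁻¹, mul_inv_cancel_left₀
      (fun z => u.1 (by rw [← e, z, mul_zero]))] at this
  have hA' := fun y => (hA y).trans (reg_pw _ y)
  have BA : ∀ y ∈ B, y ∈ A := fun y h => (hA y).2 fun x hx => (hB y).1 h x (le' hx)
  have sT : ∀ σ ∈ G, ∀ P ∈ Pw (g ⁻¹ᵁ U), ∀ P', Cj σ P P' → P' ∈ Pw (g ⁻¹ᵁ U) := by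
    rw [eT]
    exact fun σ a P u P' c => ⟨st σ a.1 P u.1 P' c, by rw [c, bf σ a, u.2]⟩
  refine ⟨⟨fG, sT, fun σ a y hy => ?_⟩, fin, le, st, hB', bB, (hN _).2 ⟨BA _ bB, bx⟩, bf, eT,
    sup _ E, fun σ a n => ?_⟩
  · obtain ⟨yA, yu⟩ := (hN y).1 hy
    refine (hN _).2 ⟨(hA' _).2 (stb (sT σ a) ((hA' y).1 yA)), ?_⟩
    obtain ⟨n, hn⟩ := (((sup (g ⁻¹ᵁ V) E y 0).image fun P => -P.ord y).bddAbove).imp fun _ h => h
    have mB : y * b ^ n.toNat ∈ B := (hB' _).2 fun P hP => by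
      refine (Pl.ord_nonneg_iff _ (mul_ne_zero yu.1 (pow_ne_zero _ bx.1))).1 ?_
      rw [Pl.ord_mul _ yu.1 (pow_ne_zero _ bx.1), Pl.ord_pow]
      have o1 := (Pl.ord_nonneg_iff _ bx.1).2 ((hB' b).1 bB P hP)
      by_cases z : P.ord b = 0
      · have := (Pl.ord_nonneg_iff _ yu.1).2 ((hA' y).1 yA P (eT ▸ ⟨hP, z⟩))
        rw [z]
        simpa using this
      by_cases z' : P.ord y = 0
      · rw [z']
        positivity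
      have o2 : -P.ord y ≤ n := hn ⟨P, ⟨hP, by simpa using z'⟩, rfl⟩
      have o3 := Int.self_le_toNat n
      have o4 : (1 : ℤ) ≤ P.ord b := by omega
      nlinarith [Int.natCast_nonneg n.toNat]
    have pw : UnAt (b ^ n.toNat) x₀ := by
      simpa using unp (Finset.range n.toNat) (fun _ => b) x₀ fun _ _ => bx
    have := (a.2 _ mB (yu.mul pw)).div pw
    rwa [map_mul, map_pow, bf σ a, mul_div_cancel_right₀ _ pw.1] at this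
  · by_contra c
    refine n ⟨a, fun y u v => by_contra fun t => c ⟨y, u, (hN _).2 ⟨BA _ u, v⟩, fun s => ?_⟩⟩
    exact t ((hN _).1 s).2

theorem core (fc : FCE) (etg : ETM) (quo : Tq.QUO) (n q l : ℕ) {ε : ℝ} (q0 : 0 < q)
    (hε : 0 < ε) : ∃ M : ℕ, 1 ≤ M ∧ ∀ (X Y W Z : Var) (f : X.X ⟶ Z.X) (ω : DForm ℂ X.K (n + 1))
      (B : X.QDiv) (z : Pt Z.X) (π : Y.X ⟶ X.X) (g : Y.X ⟶ W.X) (κ : W.X ⟶ Z.X) (w : Pt W.X)
      (ι : X.K →+* Y.K) (G : Subgroup (Y.K ≃ₐ[ℂ] Y.K)), dimension X.str = (n + 1 : ℕ) →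
      ω.Nonzero → Pair (ε ≤ ·) ⊤ ω B → Contraction f → IsClosed ({z} : Set (Pt Z.X)) →
      (∀ E, ∃ m : ℤ, q * B E = m) → FanoType f ω → NefOver f (-logCan ω B) → IsFinite π →
      Surjective π → π ≫ X.str = Y.str → Et.Pe π ι → Finite G →
      (∀ g, Fix G g ↔ ∃ a, ι a = g) →
      (∀ E : Y.PrimeDiv, ∃ y : X.PrimeDiv, E.1.map π = y.1 ∧ ∀ a, ord (ι a) E = ord a y) →
      IsFinite κ → g ≫ κ = π ≫ f → w.map κ = z → Contraction g →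
      Fr (n + 1) l g w → HasKltComplement f ω B M z := by
  classical
  obtain ⟨l₀, J, etg⟩ := etg (n + 1) l
  obtain ⟨M, M1, fc⟩ := fc l₀ J n q ε q0 hε
  refine ⟨q * M, Nat.mul_pos q0 M1, fun X Y W Z f ω B z π g κ w ι G hdim hω hB hf hz hq hF hn h1 h2
    h3 pe h4 h5 h6 hκ ec hw hg ⟨Ω₁, hfr⟩ => ?_⟩
  have hK := ffd X _ hdim
  let _ := ι.toAlgebra
  obtain ⟨tw, hL, -, sT₀, -⟩ := quo X Y _ π ι G ⊤ hK h1 h2 h3 pe h4 h5 h6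
  obtain ⟨j, j0, fr⟩ := frm X _ hK ω hω
  choose c hc using hq
  let D₀ : X.PrimeDiv →₀ ℤ := Finsupp.ofSupportFinite _ (P283R.Br.form_fin hK fr)
  let D₁ : X.PrimeDiv →₀ ℤ := Finsupp.ofSupportFinite c (B.support.finite_toSet.subset fun E e =>
    Finsupp.mem_support_iff.2 fun z => e (by simpa [z] using (hc E).symm))
  have d0 : ∀ E, D₀ E = formOrd ω (RingEquiv.refl X.K) E := fun _ => rfl
  have d1 : ∀ E, D₁ E = c E := fun _ => rfl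
  let D' : Fin 2 → X.PrimeDiv →₀ ℤ := ![D₀, D₁]
  have h6' := h6
  choose dn dn1 dn2 using h6'
  have hd : ∀ E, Lies (algebraMap X.K Y.K) (pq E) (pq (dn E)) := fun E a =>
    Tq.Q10.mem_iff (map_eq_zero ι).symm (by rw [← pq_ord, ← pq_ord, ← dn2]; rfl)
  let Φ : Set X.PrimeDiv := dn '' Ω₁ ∪ ⋃ i, (D' i).support
  have fΦ : Φ.Finite := (Ω₁.finite_toSet.image dn).union
    (finite_iUnion fun i => (D' i).support.finite_toSet)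
  have : FiniteDimensional X.K Y.K := Pb.fin_of_ff hK hL
  have fΩ : {E | dn E ∈ Φ}.Finite :=
    ((fΦ.biUnion fun F _ => Pb.fin_above (K' := Y.K) (pq F)).preimage pq_inj.injOn).subset
      fun E e => mem_biUnion e (hd E)
  obtain ⟨V₁, w₁, hfr⟩ := hfr fΩ.toFinset fun E e => fΩ.mem_toFinset.2 (.inl ⟨E, e, rfl⟩)
  obtain ⟨_, ⟨V, hV, rfl⟩, zV, -⟩ := Z.X.isBasis_affineOpens.exists_subset_of_mem_open
    (a := z) (u := univ) trivial isOpen_univ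
  obtain ⟨-, -, qt, sT, -⟩ := quo X Y _ π ι G (f ⁻¹ᵁ V) hK h1 h2 h3 pe h4 h5 h6
  obtain ⟨k, E, π', w', k2', e1, e2, pm, pw, zw⟩ := fam48 (G := G) dn hd
    (fun σ hσ x => (h5 _).2 ⟨x, rfl⟩ σ hσ)
    (fun σ hσ E P' cj => let ⟨E', _, e⟩ := sT₀ σ hσ _ ⟨E, trivial, rfl⟩ P' cj; ⟨E', e⟩)
    fΩ.toFinset Φ (fun _ => fΩ.mem_toFinset) D'
    (fun i F h => .inr (mem_iUnion.2 ⟨i, Finsupp.mem_support_iff.2 h⟩))
    (Pw (π ⁻¹ᵁ (f ⁻¹ᵁ V))) fun P ⟨E, _, e⟩ => ⟨E, e⟩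
  have eo : g ⁻¹ᵁ (κ ⁻¹ᵁ V) = π ⁻¹ᵁ (f ⁻¹ᵁ V) := congrArg (· ⁻¹ᵁ V) ec
  obtain ⟨x₀, rfl⟩ : ∃ x : Pt Y.X, x.map g = w := hg.2.2.1.surj w
  have e₀ : (x₀.map π).map f = z := (congrArg (fun t : Y.X ⟶ Z.X => t x₀) ec).symm.trans hw
  have iV : ∀ x : Pt Y.X, (x.map π).map f = z → x ∈ π ⁻¹ᵁ (f ⁻¹ᵁ V) := fun x hx =>
    show (x.map π).map f ∈ V from hx ▸ zV
  obtain ⟨V', le₁, hV', x', le₂, A₀, H, b₀, hA, dc⟩ := dec hg (hV.preimage κ) (x₀ := x₀)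
    (eo ▸ iV x₀ e₀) w₁ h4 (eo ▸ sT)
  obtain ⟨N, s, a, A, m, cox, zero, fg, mx, hA', hN', eb⟩ := hfr V' le₁ hV' x' k E k2' e1 e2
  have hN := hN' x₀ rfl
  obtain ⟨gp, dc⟩ := dc k E A m hA' hN
  rw [eo] at dc hA
  have sb : Pw (g ⁻¹ᵁ V') ⊆ Pw (π ⁻¹ᵁ (f ⁻¹ᵁ V)) := dc.eq ▸ fun _ h => h.1
  have o : ∀ E : X.PrimeDiv, ord 1 E = 0 := fun E => (pq_ord E 1).trans (Pl.ord_one _)
  have k2 : ∀ W, InSpan W D' (logCan ω 0) := fun W => ⟨![1, 0], 1, one_ne_zero, fun E _ => by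
    rw [o, logCan]
    simp [D', d0]⟩
  obtain ⟨γ, γB, hγ, out⟩ := etg Y.K k N _ _ _ s a A A₀ m H G π' b₀ X.K (Pw (f ⁻¹ᵁ V)) 2
    (fun P i => Cox.up (D' i) P) w' (-((M : ℤ) • ![(q : ℤ), 1])) ⟨hL, cox, zero, fg, mx, gp,
      fun σ u e => (pm.rel σ (dc.le u) e).imp_right fun h P v => h P (sb v), pm.one,
      fun σ u τ v => pm.cmp σ (dc.le u) τ (dc.le v)⟩ eb dc qt (fun σ u => pw σ (dc.le u)) zw
  have γ0 : γ ≠ 0 := fun g0 => hγ.2 (by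
    subst g0
    exact (Subtype.ext (map_zero _) : (⟨_, hγ.1⟩ : A) = 0) ▸ m.zero_mem)
  have rg : ∀ x ∈ f ⁻¹ᵁ V, RegAt γ x := fun x hx => har X γ x fun E hE => by
    obtain ⟨P, l⟩ := Pb.up_alg hL (pq E)
    obtain ⟨E', c', rfl⟩ := (qt.lies P).2 ⟨_, ⟨E, hE.mem_open (f ⁻¹ᵁ V).isOpen hx, rfl⟩, l⟩
    rw [pq_ord]
    exact (Pl.ord_nonneg_iff _ γ0).2 ((l γ).2 ((pq_is E' _).2 ((hA _).1 γB _ c')))
  obtain ⟨U, hU, le, bw⟩ := bas48 hf hV (iV x₀ e₀) rg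
  have zU : z ∈ U := e₀ ▸ (bw _ (iV x₀ e₀)).2 ((pe.un (rg _ (iV x₀ e₀))).1 ((hN _).1 hγ).2)
  obtain ⟨u, bs⟩ := basV hf hz hU zU
  obtain ⟨Λ, Γ, Γ', dt, on, b, b', nf, e⟩ := dataW hK hω hB hf hF bs
  obtain ⟨N', g1⟩ := schU Cx.ut hdim hω hf hF hz hU zU D'
  obtain ⟨s₁, a₁, π₁, ci⟩ := cg_of bs on g1
  have s1 : Cox.Sp n u Λ _ (cn X.K (n + 1)) := sp_of bs on (k2 _) j0 fun P E _ dm => by
    rw [← fr X _ E P (is_of_dom dm) (ord_eq dm), logCan]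
    simp
  have s2 : Cx.Eqv (Cx.Tt n u Λ) (fun P i => Cox.up (D' i) P) ((q : ℝ) • Γ) (j ^ q)⁻¹
      ![(q : ℤ), 1] := ⟨inv_ne_zero (pow_ne_zero q j0), fun P t => by
    obtain ⟨x, hx, dm⟩ := bs.ctr P.ring P.con t.1
    obtain ⟨E, rfl⟩ : ∃ E : X.PrimeDiv, E.1 = x := ⟨⟨x, (on P x hx dm).1 t.2⟩, rfl⟩
    have h4 := b' P E hx dm
    have h5 := fr X _ E P (is_of_dom dm) (ord_eq dm)
    have h6 := congrArg (Rat.cast : ℚ → ℝ) (hc E)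
    rw [dsc, Pi.sub_apply] at h4
    rw [Pl.ord_inv, Pl.ord_pow, Pi.smul_apply, smul_eq_mul]
    simp only [dotProduct, Fin.sum_univ_two, up_eq _ dm, D', Matrix.cons_val_zero,
      Matrix.cons_val_one, d0, d1]
    push_cast at h6 ⊢
    rw [h5]
    linear_combination h6 - q * h4⟩
  have s3 : ∀ P, Ov u P → On n Λ P → dsc (n + 1) Γ P ≤ 0 :=
    (all_iff bs on (p := fun E => 0 ≤ B E) fun P E c dm => by
      rw [b' P E c dm, neg_nonpos, Rat.cast_nonneg]).1 fun E _ => hB.1 E trivial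
  obtain ⟨s₂, a₂, π₂, h, s0⟩ := Cx.Gn.shift ci
  have eT : Cx.Tt n u Λ = Tz (Pw (f ⁻¹ᵁ V)) γ := Set.ext fun P => by
    constructor
    · intro t
      obtain ⟨x, hx, dm⟩ := bs.ctr P.ring P.con t.1
      obtain ⟨E, rfl⟩ : ∃ E : X.PrimeDiv, E.1 = x := ⟨⟨x, (on P x hx dm).1 t.2⟩, rfl⟩
      exact ⟨⟨E, le hx, P283R.Br.pl_eq (pq_is E) dm⟩,
        (Lx.un_ord dm γ0).1 ((bw _ (le hx)).1 hx)⟩
    · rintro ⟨⟨E, c, rfl⟩, w⟩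
      have dm := (pq_is E).dom
      have c' := (bw _ c).2 ((Lx.un_ord dm γ0).2 w)
      exact ⟨fun a ha => (dm a (bs.reg a ha _ c')).1, (on _ _ c' dm).2 E.2⟩
  exact e _ (Nat.mul_pos q0 M1) (fc X.K u Λ Γ Γ' 2 N' _ s₂ a₂ _ _ dt
    (Cx.Gn.coxY Cx.big dt h s1 s0) (Cx.Ad.eqv s1) s2 (fun P t => s3 P t.1 t.2) b (nf hn)
    (eT ▸ out))

end T48

end Vale.Agent.P283R.Uq

namespace Vale.Agent.P283R.Uq

open Sl Sl.Var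

/-- **TOM** -/
theorem tom48 : TOM := by
  intro fc etg l C fr
  refine (On.den (C := fun q d _ _ f ω B z => (∀ E, ∃ m : ℤ, q * B.coeff E = m) ∧
    FanoType f ω ∧ NefOver f (-logCan ω B) ∧ QuotAt (C d) f z) fun q hq => ?_).mono
      fun _ _ _ _ _ _ _ h _ w => ⟨w, h⟩
  intro d hd ε hε R hR
  obtain ⟨n, rfl⟩ : ∃ n, d = n + 1 := ⟨d - 1, by omega⟩
  obtain ⟨M, M1, H⟩ := T48.core fc etg Tq.quo10 n q (l (n + 1)) hq hε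
  refine ⟨M, M1, fun X Z f ω B z a b c _ s t ⟨w, u1, u2, Y, W, π, g, κ, η, p, fq, hκ, ec, hw,
    v2, v5, v8⟩ => (has_iff f ω B _ z).2 ?_⟩
  obtain ⟨h1, h2, h3, ι, G, pe, ⟨h4, h5⟩, h6⟩ := fq.fin
  obtain ⟨J, qp⟩ := qp48 (X := X.o) (Y := Y.o) h1 h2 h3 pe h4 h5 h6
  have cl : p.Closed := isClosed_of_subset_discrete_closed (t := κ ⁻¹' {z})
    (singleton_subset_iff.2 hw) (κ.isDiscrete_preimage_singleton z) (IsClosed.preimage κ.continuous t)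
  have u := (fanoType_iff f ω).1 u1
  exact H X.o Y.o W.o Z.o f ω B z π g κ p ι G a b ((pair_iff _ _ ω B).1 c) s t w u
    ((nefOver_iff f _).1 u2) h1 h2 h3 pe h4
    (fun g => ⟨fun e => (h5 g).1 e, fun e => (h5 g).2 e⟩) h6 hκ ec hw v5
    (fr _ Y W g η p hd (qp.dim a) v2 v5
      ((fanoType_iff g η).2 (fan48 (Z := Z.o) (W := W.o) qp ec hd a b v2 u)) cl v8)

end Vale.Agent.P283R.Uq
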