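import Vale.Agent.P283R.Uq.Frd32
import Vale.Agent.P283R.Uq.Etm23
import Vale.Agent.P283R.Uq.Nkm39
import Vale.Agent.P283R.Uq.Tom48

/-!
# P283R, block UQ: the quotients, any point over the base point
-/

namespace Vale.Agent.P283R

/-- the quotients of every class with bounded embedding dimension -/
theorem Uq.onm : Uq.ONM := Uq.tom48 Uq.fce55 (Uq.etmr23 Uq.nkm39 Uq.etg48)

namespace Sl

open Var

/-- **finite quotients of fibrations of low complexity, spherical or with few generators** -/
theorem onN_qa (l : ℕ → ℕ) : OnN fun d _ _ f _ _ z => QuotAt (d := d) (fun _ _ g η w =>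
    (MldCx g η w ∨ ∃ N V, w.In V ∧ IsSpherical N (pre g V)) ∨ Uq.Full (l d) g w) f z :=
  Uq.onm _ _ ((Uq.frd_m.or Uq.frd_s).or (Uq.frd_f l))

end Sl

end Vale.Agent.P283R
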