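import Vale.Agent.P283R.Uq.Etm32
import Vale.Agent.P283R.Uq.All48
import Mathlib.AlgebraicGeometry.Morphisms.QuasiFinite

/-!
# P283R, block UQ: any number of points over `z`
-/

open Set CategoryTheory AlgebraicGeometry

noncomputable section

namespace Vale.Agent.P283R.Uq

namespace M32

open Vale.Agent.P289 (Pt St toRat DForm dimension)
open Vale.Agent.P287D Vale.Agent.P283M.Stm Vale.Agent.P283M.Stm.Var Vale.Agent.P297Z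
open Vale.Agent.P283M Vale.Agent.P283M.Br Vale.Agent.P283R.Sch Vale.Agent.P283R.Cox
open Vale.Agent.P283R.Gl (pq pq_is pq_ord)
open Vale.Agent.P283R.Tq (Cj Gp Pw bas48)

theorem small {X Z : Var} {f : X.X ⟶ Z.X} {V V₁ : Z.X.Opens} (_ : Contraction f)
    (hV : IsAffineOpen V) {x₀ : Pt X.X} (h₀ : x₀ ∈ f ⁻¹ᵁ V) (h₁ : x₀.map f ∈ V₁) :
    ∃ g : X.K, (∀ x ∈ f ⁻¹ᵁ V, RegAt g x) ∧ UnAt g x₀ ∧
      ∀ x ∈ f ⁻¹ᵁ V, UnAt g x → f x ∈ V₁ := by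
  have : Nonempty ↑(f ⁻¹ᵁ V) := ⟨⟨x₀, h₀⟩⟩
  obtain ⟨b, b1, b2⟩ := hV.exists_basicOpen_le ⟨_, h₁⟩ h₀
  exact ⟨Am.pl f V b, Am.mem_reg.1 (Am.pl_reg f V b), (Am.un_pl (f := f) (V := V) h₀ b).2 b2,
    fun x hx u => b1 ((Am.un_pl (f := f) (V := V) hx b).1 u)⟩

theorem glob {X Z : Var} {n : ℕ} {f : X.X ⟶ Z.X} {z : Pt Z.X} {ω : DForm ℂ X.K (n + 1)}
    (hdim : dimension X.str = (n + 1 : ℕ)) (hω : ω.Nonzero) (hf : Contraction f)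
    (hF : FanoType f ω) (hz : IsClosed ({z} : Set (Pt Z.X))) : ∃ Ω : Finset X.PrimeDiv,
      ∀ V, IsAffineOpen V → z ∈ V → ∀ (k : ℕ) (D : Fin k → X.PrimeDiv →₀ ℤ), 2 ≤ k →
      (∀ P ∈ Ω, ∃ i, D i = .single P 1) →
      ∃ (N : ℕ) (s : Fin N → X.K) (a : Fin N → Fin k → ℤ) (A : Subalgebra ℂ X.K) (m : Ideal A),
        Cx.Cox (Pw (f ⁻¹ᵁ V)) (fun P i => up (D i) P) s a ∧ (∀ x, x ∈ A ↔ x ∈ Cx.Sp s a 0) ∧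
        A.FG ∧ m.IsMaximal ∧ (∀ x, x ∈ A ↔ ∀ y ∈ f ⁻¹ᵁ V, RegAt x y) ∧
        ∀ y : Pt X.X, y.map f = z → ∀ x, Lx.Nz A m x ↔ x ∈ A ∧ UnAt x y := by
  have hK := ffd X _ hdim
  obtain ⟨j, j0, fr⟩ := frm X _ hK ω hω
  have fK := P283R.Br.form_fin hK fr
  refine ⟨fK.toFinset, fun V hV zV k D k2 hD => ?_⟩
  obtain ⟨u, bs⟩ := basV hf hz hV zV
  obtain ⟨C, hC, -⟩ := id hF
  obtain ⟨Λ, Γ, Γ', dt, on, -⟩ := dataW (ε := 0) (B := C) hK hω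
    ⟨hC.1, hC.2.1, fun Y E c r w r0 t => (hC.2.2 Y E c r w r0 t).le⟩ hf hF bs
  obtain ⟨N, h1⟩ := schU Cx.ut hdim hω hf hF hz hV zV D
  obtain ⟨s, a, π, ci⟩ := cg_of bs on h1
  have s1 : Cox.Sp n u Λ _ (cn X.K (n + 1)) :=
    sp_of bs on (F3.kspan _ (fun E e => fK.mem_toFinset.2 e) hD k2) j0 fun P E _ dm => by
      rw [← fr X _ E P (is_of_dom dm) (ord_eq dm), logCan]
      simp
  obtain ⟨s, a, π, h, s0⟩ := Cx.Gn.shift ci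
  have x := Cx.Gn.coxY Cx.big dt h s1 s0
  obtain ⟨m, mx, nz⟩ := Lx.bas0 hf hz bs
  obtain ⟨m₂, mx₂, h₂⟩ := F3.bas2 hf hz bs
  have un : ∀ y : Pt X.X, y.map f = z → ∀ x, Lx.Nz _ m x → UnAt x y := fun y hy x w =>
    let ⟨W', _, zW', _, k⟩ := nz x w
    (k y (show y.map f ∈ V from hy ▸ zV)).1 (show y.map f ∈ W' from hy ▸ zW')
  obtain ⟨x₁, e₁⟩ := hf.2.2.1.surj z
  obtain rfl : m₂ = m := mx₂.eq_of_le mx.ne_top fun g k => by_contra fun n =>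
    h₂ x₁ e₁ g k (un x₁ e₁ g ⟨g.2, n⟩)
  exact ⟨N, s, a, _, m₂, Tq.T61.tt bs on ▸ x, Lx.T23.zero dt x, Subalgebra.fg_adjoin_finset u, mx,
    fun x => ⟨fun h y hy => reg_adjoin (fun c hc => bs.reg c hc y hy) h, bs.con x⟩,
    fun y hy x => ⟨fun w => ⟨w.1, un y hy x w⟩, fun ⟨h, w⟩ => ⟨h, fun k => h₂ y hy _ k w⟩⟩⟩

theorem core (fc : FCE) (etg : ETV32) (quo : Tq.QUO) (n q l : ℕ) {ε : ℝ} (q0 : 0 < q)
    (hε : 0 < ε) : ∃ M : ℕ, 1 ≤ M ∧ ∀ (X Y W Z : Var) (f : X.X ⟶ Z.X) (ω : DForm ℂ X.K (n + 1))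
      (B : X.QDiv) (z : Pt Z.X) (π : Y.X ⟶ X.X) (g : Y.X ⟶ W.X) (κ : W.X ⟶ Z.X) (w : Pt W.X)
      (ι : X.K →+* Y.K) (G : Subgroup (Y.K ≃ₐ[ℂ] Y.K)) (η : DForm ℂ Y.K (n + 1)), dimension X.str = (n + 1 : ℕ) →
      ω.Nonzero → Pair (ε ≤ ·) ⊤ ω B → Contraction f → IsClosed ({z} : Set (Pt Z.X)) →
      (∀ E, ∃ m : ℤ, q * B E = m) → FanoType f ω → NefOver f (-logCan ω B) → IsFinite π →
      Surjective π → π ≫ X.str = Y.str → Et.Pe π ι → Finite G →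
      (∀ g, Fix G g ↔ ∃ a, ι a = g) →
      (∀ E : Y.PrimeDiv, ∃ y : X.PrimeDiv, E.1.map π = y.1 ∧ ∀ a, ord (ι a) E = ord a y) →
      IsFinite κ → g ≫ κ = π ≫ f → w.map κ = z → IsClosed ({w} : Set (Pt W.X)) →
      dimension Y.str = (n + 1 : ℕ) → η.Nonzero → Contraction g → FanoType g η →
      Fr (n + 1) l g w → HasKltComplement f ω B M z := by
  classical
  obtain ⟨l₀, J, etg⟩ := etg (n + 1) l
  obtain ⟨M, M1, fc⟩ := fc l₀ J n q ε q0 hε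
  refine ⟨q * M, Nat.mul_pos q0 M1, fun X Y W Z f ω B z π g κ w ι G η hdim hω hB hf hz hq hF hn h1 h2
    h3 pe h4 h5 h6 hκ ec hw cw dY hη hg FY ⟨Ω₁, hfr⟩ => ?_⟩
  obtain ⟨Ω₂, gl⟩ := glob dY hη hg FY cw
  have hK := ffd X _ hdim
  let _ := ι.toAlgebra
  obtain ⟨tw, hL, -, sT₀, -⟩ := quo X Y _ π ι G ⊤ hK h1 h2 h3 pe h4 h5 h6
  obtain ⟨j, j0, fr⟩ := frm X _ hK ω hω
  choose c hc using hq
  let D₀ : X.PrimeDiv →₀ ℤ := Finsupp.ofSupportFinite _ (P283R.Br.form_fin hK fr)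
  let D₁ : X.PrimeDiv →₀ ℤ := Finsupp.ofSupportFinite c (B.support.finite_toSet.subset fun E e =>
    Finsupp.mem_support_iff.2 fun z => e (by simpa [z] using (hc E).symm))
  have d0 : ∀ E, D₀ E = formOrd ω (RingEquiv.refl X.K) E := fun _ => rfl
  have d1 : ∀ E, D₁ E = c E := fun _ => rfl
  let D' : Fin 2 → X.PrimeDiv →₀ ℤ := ![D₀, D₁]
  have h6' := h6
  choose dn dn1 dn2 using h6'
  have hd : ∀ E, Lies (algebraMap X.K Y.K) (pq E) (pq (dn E)) := fun E a =>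
    Tq.Q10.mem_iff (map_eq_zero ι).symm (by rw [← pq_ord, ← pq_ord, ← dn2]; rfl)
  let Φ : Set X.PrimeDiv := dn '' (Ω₁ ∪ Ω₂) ∪ ⋃ i, (D' i).support
  have fΦ : Φ.Finite := ((Ω₁.finite_toSet.union Ω₂.finite_toSet).image dn).union
    (finite_iUnion fun i => (D' i).support.finite_toSet)
  have : FiniteDimensional X.K Y.K := Pb.fin_of_ff hK hL
  have fΩ : {E | dn E ∈ Φ}.Finite :=
    ((fΦ.biUnion fun F _ => Pb.fin_above (K' := Y.K) (pq F)).preimage pq_inj.injOn).subset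
      fun E e => mem_biUnion e (hd E)
  obtain ⟨V₁, w₁, hfr⟩ := hfr fΩ.toFinset fun E e => fΩ.mem_toFinset.2 (.inl ⟨E, .inl e, rfl⟩)
  obtain ⟨_, ⟨V, hV, rfl⟩, zV, -⟩ := Z.X.isBasis_affineOpens.exists_subset_of_mem_open
    (a := z) (u := univ) trivial isOpen_univ
  have wV : w ∈ κ ⁻¹ᵁ V := show w.map κ ∈ V from hw.symm ▸ zV
  obtain ⟨-, -, qt, sT, -⟩ := quo X Y _ π ι G (f ⁻¹ᵁ V) hK h1 h2 h3 pe h4 h5 h6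
  obtain ⟨k, E, π', w', k2', e1, e2, pm, pw, zw⟩ := fam48 (G := G) dn hd
    (fun σ hσ x => (h5 _).2 ⟨x, rfl⟩ σ hσ)
    (fun σ hσ E P' cj => let ⟨E', _, e⟩ := sT₀ σ hσ _ ⟨E, trivial, rfl⟩ P' cj; ⟨E', e⟩)
    fΩ.toFinset Φ (fun _ => fΩ.mem_toFinset) D'
    (fun i F h => .inr (mem_iUnion.2 ⟨i, Finsupp.mem_support_iff.2 h⟩))
    (Pw (π ⁻¹ᵁ (f ⁻¹ᵁ V))) fun P ⟨E, _, e⟩ => ⟨E, e⟩
  obtain ⟨N, s, a, A, m, cox, zero, fg, mx, hA, hN⟩ := gl (κ ⁻¹ᵁ V) (hV.preimage κ) wV k E k2'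
    fun F h => e2 F (fΩ.mem_toFinset.2 (.inl ⟨F, .inr h, rfl⟩))
  obtain ⟨x₀, e₁⟩ : ∃ x : Pt Y.X, x.map g = w := hg.2.2.1.surj w
  have i₀ : x₀ ∈ g ⁻¹ᵁ (κ ⁻¹ᵁ V) := show x₀.map g ∈ κ ⁻¹ᵁ V from e₁ ▸ wV
  obtain ⟨γ₀, r₀, u₀, s₀⟩ := small hg (hV.preimage κ) i₀ (V₁ := V₁) (e₁ ▸ w₁)
  have n₀ := (hN x₀ e₁ γ₀).2 ⟨(hA _).2 r₀, u₀⟩
  have lo : ∀ x, Lx.Nz A m x → ∃ (N₁ : ℕ) (s₁ : Fin N₁ → Y.K) (a₁ : Fin N₁ → Fin k → ℤ)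
      (A₁ : Subalgebra ℂ Y.K) (m₁ : Ideal A₁),
      Cx.Cox (Tz (Pw (g ⁻¹ᵁ (κ ⁻¹ᵁ V))) (γ₀ * x)) (fun P i => Cox.up (E i) P) s₁ a₁ ∧
      (∀ y, y ∈ A₁ ↔ y ∈ Cx.Sp s₁ a₁ 0) ∧ A₁.FG ∧ m₁.IsMaximal ∧
      (∀ y, Lx.Nz A₁ m₁ y ↔ y ∈ A₁ ∧ UnAt y x₀) ∧ Eb (n + 1) l s₁ a₁ A₁ m₁ := fun x hx => by
    have rx := (hA x).1 hx.1
    have ux := u₀.mul ((hN x₀ e₁ x).1 hx).2
    obtain ⟨W', hW', le', bw⟩ := bas48 hg (hV.preimage κ) i₀ fun y hy => reg_mul (r₀ y hy) (rx y hy)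
    obtain ⟨N₁, s₁, a₁, A₁, m₁, c1, c2, c3, c4, -, c5, c6⟩ := hfr W' (fun p hp => by
      obtain ⟨y, rfl⟩ := hg.2.2.1.surj p
      have := (bw y (le' hp)).1 hp
      refine s₀ y (le' hp) ⟨left_ne_zero_of_mul this.1, r₀ y (le' hp), ?_⟩
      have k := reg_mul (rx y (le' hp)) this.2.2
      rwa [mul_inv, mul_comm, inv_mul_cancel_right₀ (right_ne_zero_of_mul this.1)] at k) hW'
      (e₁ ▸ (bw x₀ i₀).2 ux) k E k2' e1 e2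
    have eT : Pw (g ⁻¹ᵁ W') = Tz (Pw (g ⁻¹ᵁ (κ ⁻¹ᵁ V))) (γ₀ * x) := Set.ext fun P =>
      ⟨fun ⟨F, c, e⟩ => e ▸ ⟨⟨F, le' c, rfl⟩,
        (Lx.un_ord (pq_is F).dom ux.1).1 ((bw _ (le' c)).1 c)⟩,
      fun ⟨⟨F, c, e⟩, z⟩ => ⟨F, (bw _ c).2 ((Lx.un_ord (pq_is F).dom ux.1).2 (e ▸ z)), e⟩⟩
    exact ⟨N₁, s₁, a₁, A₁, m₁, eT ▸ c1, c2, c3, c4, c5 x₀ e₁, c6⟩
  have eo : g ⁻¹ᵁ (κ ⁻¹ᵁ V) = π ⁻¹ᵁ (f ⁻¹ᵁ V) := congrArg (· ⁻¹ᵁ V) ec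
  rw [eo] at cox hA lo i₀
  have e₀ : (x₀.map π).map f = z :=
    (congrArg (fun t : Y.X ⟶ Z.X => t x₀) ec).symm.trans ((congrArg κ e₁).trans hw)
  have o : ∀ E : X.PrimeDiv, ord 1 E = 0 := fun E => (pq_ord E 1).trans (Pl.ord_one _)
  have k2 : ∀ W, InSpan W D' (logCan ω 0) := fun W => ⟨![1, 0], 1, one_ne_zero, fun E _ => by
    rw [o, logCan]
    simp [D', d0]⟩
  obtain ⟨γ, hγ, out⟩ := etg Y.K k N _ _ s a A m G π' X.K (Pw (f ⁻¹ᵁ V)) 2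
    (fun P i => Cox.up (D' i) P) w' (-((M : ℤ) • ![(q : ℤ), 1])) γ₀ (UnAt · x₀)
    ⟨hL, cox, zero, fg, mx, h4, sT, pm⟩ (fun x y h => ⟨fun k => by
      have := h.inv.mul k
      rwa [inv_mul_cancel_left₀ h.1] at this, h.mul⟩) (hN x₀ e₁) n₀ lo qt pw zw
  have γ0 : γ ≠ 0 := fun g0 => hγ.2 (by
    subst g0
    exact (Subtype.ext (map_zero _) : (⟨_, hγ.1⟩ : A) = 0) ▸ m.zero_mem)
  have rg : ∀ x ∈ f ⁻¹ᵁ V, RegAt γ x := fun x hx => har X γ x fun E hE => by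
    obtain ⟨P, l⟩ := Pb.up_alg hL (pq E)
    obtain ⟨E', c', rfl⟩ := (qt.lies P).2 ⟨_, ⟨E, hE.mem_open (f ⁻¹ᵁ V).isOpen hx, rfl⟩, l⟩
    rw [pq_ord]
    exact (Pl.ord_nonneg_iff _ γ0).2 ((l γ).2 ((pq_is E' _).2 ((hA _).1 hγ.1 _ c')))
  obtain ⟨U, hU, le, bw⟩ := bas48 hf hV (x₀ := x₀.map π) i₀ rg
  have zU : z ∈ U := e₀ ▸ (bw _ i₀).2 ((pe.un (rg _ i₀)).1 ((hN x₀ e₁ _).1 hγ).2)
  obtain ⟨u, bs⟩ := basV hf hz hU zU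
  obtain ⟨Λ, Γ, Γ', dt, on, b, b', nf, e⟩ := dataW hK hω hB hf hF bs
  obtain ⟨N', g1⟩ := schU Cx.ut hdim hω hf hF hz hU zU D'
  obtain ⟨s₁, a₁, π₁, ci⟩ := cg_of bs on g1
  have s1 : Cox.Sp n u Λ _ (cn X.K (n + 1)) := sp_of bs on (k2 _) j0 fun P E _ dm => by
    rw [← fr X _ E P (is_of_dom dm) (ord_eq dm), logCan]
    simp
  have s2 : Cx.Eqv (Cx.Tt n u Λ) (fun P i => Cox.up (D' i) P) ((q : ℝ) • Γ) (j ^ q)⁻¹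
      ![(q : ℤ), 1] := ⟨inv_ne_zero (pow_ne_zero q j0), fun P t => by
    obtain ⟨x, hx, dm⟩ := bs.ctr P.ring P.con t.1
    obtain ⟨E, rfl⟩ : ∃ E : X.PrimeDiv, E.1 = x := ⟨⟨x, (on P x hx dm).1 t.2⟩, rfl⟩
    have h4 := b' P E hx dm
    have h5 := fr X _ E P (is_of_dom dm) (ord_eq dm)
    have h6 := congrArg (Rat.cast : ℚ → ℝ) (hc E)
    rw [dsc, Pi.sub_apply] at h4
    rw [Pl.ord_inv, Pl.ord_pow, Pi.smul_apply, smul_eq_mul]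
    simp only [dotProduct, Fin.sum_univ_two, up_eq _ dm, D', Matrix.cons_val_zero,
      Matrix.cons_val_one, d0, d1]
    push_cast at h6 ⊢
    rw [h5]
    linear_combination h6 - q * h4⟩
  have s3 : ∀ P, Ov u P → On n Λ P → dsc (n + 1) Γ P ≤ 0 :=
    (all_iff bs on (p := fun E => 0 ≤ B E) fun P E c dm => by
      rw [b' P E c dm, neg_nonpos, Rat.cast_nonneg]).1 fun E _ => hB.1 E trivial
  obtain ⟨s₂, a₂, π₂, h, s0⟩ := Cx.Gn.shift ci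
  have eT : Cx.Tt n u Λ = Tz (Pw (f ⁻¹ᵁ V)) γ := Set.ext fun P => by
    constructor
    · intro t
      obtain ⟨x, hx, dm⟩ := bs.ctr P.ring P.con t.1
      obtain ⟨E, rfl⟩ : ∃ E : X.PrimeDiv, E.1 = x := ⟨⟨x, (on P x hx dm).1 t.2⟩, rfl⟩
      exact ⟨⟨E, le hx, P283R.Br.pl_eq (pq_is E) dm⟩,
        (Lx.un_ord dm γ0).1 ((bw _ (le hx)).1 hx)⟩
    · rintro ⟨⟨E, c, rfl⟩, w⟩
      have dm := (pq_is E).dom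
      have c' := (bw _ c).2 ((Lx.un_ord dm γ0).2 w)
      exact ⟨fun a ha => (dm a (bs.reg a ha _ c')).1, (on _ _ c' dm).2 E.2⟩
  exact e _ (Nat.mul_pos q0 M1) (fc X.K u Λ Γ Γ' 2 N' _ s₂ a₂ _ _ dt
    (Cx.Gn.coxY Cx.big dt h s1 s0) (Cx.Ad.eqv s1) s2 (fun P t => s3 P t.1 t.2) b (nf hn)
    (eT ▸ out))

end M32

open Sl Sl.Var

/-- the quotients, any number of points over `z` -/
theorem ona32 {l C} (fr : FRD l C) : OnN fun d X Z f _ _ z =>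
    ∃ (Y W : Var) (π : Y.X ⟶ X.X) (g : Y.X ⟶ W.X) (κ : W.X ⟶ Z.X) (η : Y.Form d) (w : Pt W.X),
      FreeQuotient π ∧ IsFinite κ ∧ g ≫ κ = π ≫ f ∧ w.map κ = z ∧ η.Nonzero ∧ Contraction g ∧
      C d Y W g η w := by
  refine (On.den (C := fun q d X Z f ω B z => (∀ E, ∃ m : ℤ, q * B.coeff E = m) ∧
    FanoType f ω ∧ NefOver f (-logCan ω B) ∧
    ∃ (Y W : Var) (π : Y.X ⟶ X.X) (g : Y.X ⟶ W.X) (κ : W.X ⟶ Z.X) (η : Y.Form d) (w : Pt W.X),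
      FreeQuotient π ∧ IsFinite κ ∧ g ≫ κ = π ≫ f ∧ w.map κ = z ∧ η.Nonzero ∧ Contraction g ∧
      C d Y W g η w) fun q hq => ?_).mono fun _ _ _ _ _ _ _ h _ w => ⟨w, h⟩
  intro d hd ε hε R hR
  obtain ⟨n, rfl⟩ : ∃ n, d = n + 1 := ⟨d - 1, by omega⟩
  obtain ⟨M, M1, H⟩ := M32.core fce55 (etv32 lcx18 opn27 qtf12 etg48) Tq.quo10 n q (l (n + 1)) hq hε
  refine ⟨M, M1, fun X Z f ω B z a b c _ s t ⟨w, u1, u2, Y, W, π, g, κ, η, p, fq, hκ, ec, hw,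
    v2, v5, v8⟩ => (has_iff f ω B _ z).2 ?_⟩
  obtain ⟨h1, h2, h3, ι, G, pe, ⟨h4, h5⟩, h6⟩ := fq.fin
  obtain ⟨J, qp⟩ := qp48 (X := X.o) (Y := Y.o) h1 h2 h3 pe h4 h5 h6
  have cl : p.Closed := by
    have c := IsClosed.preimage κ.continuous t
    have := (κ.isDiscrete_preimage_singleton z).to_subtype
    have k := c.isClosedEmbedding_subtypeVal.isClosedMap {⟨p, hw⟩} (isClosed_discrete _)
    rwa [image_singleton] at k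
  have u := (fanoType_iff f ω).1 u1
  have FY := fan48 (Z := Z.o) (W := W.o) qp ec hd a b v2 u
  exact H X.o Y.o W.o Z.o f ω B z π g κ p ι G η a b ((pair_iff _ _ ω B).1 c) s t w u
    ((nefOver_iff f _).1 u2) h1 h2 h3 pe h4
    (fun g => ⟨fun e => (h5 g).1 e, fun e => (h5 g).2 e⟩) h6 hκ ec hw cl (qp.dim a) v2 v5 FY
    (fr _ Y W g η p hd (qp.dim a) v2 v5 ((fanoType_iff g η).2 FY) cl v8)

end Vale.Agent.P283R.Uq
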