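import Vale.Agent.P283R.Uq.All48
import Vale.Agent.P283R.Lz.On

/-!
# P283R, block UQ: quotients of spherical varieties and of varieties of low complexity
-/

open Set CategoryTheory AlgebraicGeometry

noncomputable section

namespace Vale.Agent.P283R.Uq

namespace F32

theorem emd_mono {F : Type} [Field F] [Algebra ℂ F] {E E' : ℕ} {S : Subalgebra ℂ F} {q : Ideal S}
    (t : q ≠ ⊤) (h : Bx.Emd E S q) (le : E ≤ E') : Bx.Emd E' S q := by
  obtain ⟨n, rfl⟩ := Nat.exists_eq_add_of_le le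
  obtain ⟨z, hz, h⟩ := h
  refine ⟨Fin.append z fun _ => 0, fun j => ?_, fun a ha => ?_⟩
  · induction j using Fin.addCases <;> simp [hz]
  · obtain ⟨c, hc, e⟩ := h a ha
    refine ⟨Fin.append c fun _ => 0, fun j => ?_, by simp [Fin.sum_univ_add, e]⟩
    induction j using Fin.addCases with
    | left i => simpa using hc i
    | right i => exact ⟨0, 1, (Ideal.ne_top_iff_one q).1 t, by simp⟩

theorem fr_mono {d l l' : ℕ} {Y W : P283M.Stm.Var} {g : Y.X ⟶ W.X} {w : P289.Pt W.X}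
    (h : Fr d l g w) (le : l ≤ l') : Fr d l' g w := by
  obtain ⟨Ω₁, h⟩ := h
  refine ⟨Ω₁, fun Ω a => (h Ω a).imp fun V₁ b => ⟨b.1, fun V c e i k E j n o => ?_⟩⟩
  obtain ⟨N, s, a, A, m, h1, h2, h3, h4, h5, h6, h7⟩ := b.2 V c e i k E j n o
  exact ⟨N, s, a, A, m, h1, h2, h3, h4, h5, h6, fun F _ _ _ _ t p r v w x o =>
    emd_mono o.max.ne_top (h7 F t p r v w x o) (by omega)⟩

end F32

open Vale.Agent.P287D Sl Sl.Var Sg Sg.T20 F32

variable {l l' : ℕ → ℕ} {C C' : ∀ (d : ℕ) (Y W : Var), (Y.X ⟶ W.X) → Y.Form d → Pt W.X → Prop}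

theorem FRD.or (h : FRD l C) (h' : FRD l' C') :
    FRD (fun d => max (l d) (l' d)) fun d Y W g η w => C d Y W g η w ∨ C' d Y W g η w :=
  fun d Y W g η w a b c e i j p => p.elim
    (fun p => F32.fr_mono (h d Y W g η w a b c e i j p) (le_max_left _ _))
    fun p => F32.fr_mono (h' d Y W g η w a b c e i j p) (le_max_right _ _)

theorem FRD.mono (h : FRD l C) (i : ∀ d Y W g η w, C' d Y W g η w → C d Y W g η w) : FRD l C' :=
  fun d Y W g η w a b c e k n r => h d Y W g η w a b c e k n (i _ _ _ _ _ _ r)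

/-- spherical varieties, in the short words -/
theorem frd_z : FRD (fun d => ell d + 1 + 2) fun _ _ _ g _ w =>
    ∃ V, w.In V ∧ Lz.Sph (pre g V) ∅ :=
  frd_s.mono fun _ _ _ _ _ _ ⟨V, a, b⟩ => let ⟨N, c⟩ := b.old; ⟨N, V, a, c.old⟩

/-- all classes with bounded embedding dimension -/
theorem onq32 (h : FRD l C) : OnN fun d _ _ f _ _ z => QuotOf (C d) f z := onq48 fce55 etg48 h

/-- **the quotients of spherical varieties** -/
theorem onN_sphq : OnN fun d _ _ f _ _ z => QuotOf (d := d)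
    (fun _ _ g _ w => ∃ V, w.In V ∧ Lz.Sph (pre g V) ∅) f z :=
  onq32 (C := fun _ _ _ g _ w => ∃ V, w.In V ∧ Lz.Sph (pre g V) ∅) frd_z

/-- **the quotients of varieties of low complexity and of spherical varieties** -/
theorem onN_cxsq : OnN fun d _ _ f _ _ z => QuotOf (d := d)
    (fun _ _ g η w => Lz.Cplx g η w ∨ ∃ V, w.In V ∧ Lz.Sph (pre g V) ∅) f z :=
  onq32 (C := fun _ _ _ g η w => Lz.Cplx g η w ∨ ∃ V, w.In V ∧ Lz.Sph (pre g V) ∅)
    (FRD.or (C := fun _ _ _ g η w => Lz.Cplx g η w) frd_m frd_z)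

/-- the same with few generators -/
theorem onN_cxsfq (l : ℕ → ℕ) : OnN fun d _ _ f _ _ z => QuotOf (d := d) (fun _ _ g η w =>
    Lz.Cplx g η w ∨ (∃ V, w.In V ∧ Lz.Sph (pre g V) ∅) ∨ Full (l d) g w) f z :=
  onq32 (C := fun d _ _ g η w =>
    Lz.Cplx g η w ∨ (∃ V, w.In V ∧ Lz.Sph (pre g V) ∅) ∨ Full (l d) g w)
    (FRD.or (C := fun _ _ _ g η w => Lz.Cplx g η w) frd_m (frd_z.or (frd_f l)))

end Vale.Agent.P283R.Uq
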