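import Vale.Agent.P283R.Uq.St
import Vale.Agent.P283R.Tq.Act4

/-!
# P283R, block UQ: the action on the sections
-/

open Set

noncomputable section

namespace Vale.Agent.P283R.Uq

open Vale.Agent.P287D Vale.Agent.P283M Vale.Agent.P283R.Cx
open Vale.Agent.P283R.Tq (Cj Rel Gp)
open Vale.Agent.P283R.Tq.A4

namespace A4

variable {L : Type} [Field L] [Algebra ℂ L] {k : ℕ} {T : Set (Pl L)} {D : Pl L → Fin k → ℤ}
  {G : Subgroup (L ≃ₐ[ℂ] L)} {π : Ac L k} {σ : L ≃ₐ[ℂ] L} {e e' : Fin k → ℤ} {θ : L}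

theorem rel (p : Pm T D G π) (hσ : σ ∈ G) (h : Tq.Pr T D (e' - π σ e) θ) : Rel T D σ e e' θ :=
  ⟨h.1, fun P hP P' c => by
    have a := (p.rel σ hσ e).2 P hP P' c
    have b := h.2 P hP
    rw [P.ord_one] at a
    rw [sub_dotProduct] at b
    omega⟩

end A4

/-- **ACT** -/
theorem act4 : ACT := fun _ _ _ _ _ _ _ _ _ _ _ _ _ _ _ p σ hσ _ _ _ u φ =>
  have h := A4.rel p.pm hσ (p.un.pr _ _ u)
  ⟨⟨sp p.cox p.gp hσ h, fun b => back h.1 φ ▸ sp p.cox p.gp (inv_mem hσ) (inv p.gp hσ h) b⟩,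
    ⟨ie p.cox p.gp hσ h, fun b => back h.1 φ ▸ ie p.cox p.gp (inv_mem hσ) (inv p.gp hσ h) b⟩,
    ⟨i2 p.cox p.gp hσ (fun e => ⟨_, _, p.pm.rel σ hσ e⟩) h, fun b => back h.1 φ ▸
      i2 p.cox p.gp (inv_mem hσ) (fun e => ⟨_, _, p.pm.rel _ (inv_mem hσ) e⟩) (inv p.gp hσ h) b⟩⟩

/-- **INV** -/
theorem inv4 : INV := fun _ _ _ _ _ _ _ _ _ _ _ _ _ _ _ p e z h =>
  ⟨h.1, fun σ hσ P hP P' c => by
    obtain ⟨θ, u, q⟩ := h.2 σ hσ
    have r := A4.rel p.pm hσ (p.un.pr _ _ u)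
    have a := congrArg P.ord q
    rw [P.ord_mul ((map_ne_zero σ).2 h.1) r.1] at a
    rw [c z, r.2 P hP P' c]
    omega⟩

end Vale.Agent.P283R.Uq
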