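import Vale.Agent.P283R.Uq.Etl23

/-!
# P283R, block UQ: the first stage from the rows
-/

open Set

noncomputable section

namespace Vale.Agent.P283R.Uq

open Vale.Agent.P287D Vale.Agent.P283M Vale.Agent.P283R.Cx Vale.Agent.P297Z
open Vale.Agent.P283R.Lx (Nz Ie)
open Vale.Agent.P283R.Lx.O15 (nz_mul)
open Vale.Agent.P283R.Tq (cv Qt Cj Out)

open E23 in
/-- **ETGR** -/
theorem etgr23 : ETGR := by
  intro lcx pre kx uur emu nky opn qtf pnt stg d l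
  obtain ⟨J₀, stg⟩ := stg d (l + d + 3)
  refine ⟨d + (l + d + 3) + 3 + 1, J₀, fun L _ _ k N T D s a A m G π K _ _ _ _ T₀ k₀ Z w e R eb qt
    pw hw => ?_⟩
  obtain ⟨F, _, _, _, _, t, x⟩ := Cx.ext L d k R.ff
  obtain ⟨p, r, v, w₀, O⟩ := Lx.orb L F d k N t s a A m ⟨x, R.zero, R.fg, R.max⟩
  obtain ⟨γ₀, c, n0, f0, hc, hσ⟩ := pre L d k N T D s a A m G π R F t p r v w₀ O
  obtain ⟨γK, rfl⟩ := (qt.fix γ₀).1 f0
  have := R.gp.fin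
  have np : 0 < Nat.card G := Nat.card_pos
  obtain ⟨L', _, _, _, _, N', T', D', s', a', A', m', G', G'', π', β, ku, hβ⟩ :=
    kx L d k N T D s a A m G π R r _ _ c np n0 f0 fun j => (hc j).2
  have bu := uur L L' d k N N' T D s a A m G π _ T' D' s' a' A' m' G' G'' π' R ku F t p r _ v w₀ c β
    np O hc hσ fun j => (hβ j).1
  have fw := emu L L' d k N N' T D s a A m G π _ T' D' s' a' A' m' G' G'' π' R ku F t p r l v w₀ β x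
    O (eb F t p r v w₀ x O) (fun j => (hβ j).2) bu
  obtain ⟨γ₂, N₂, s₂, a₂, A₂, m₂, J, n2, f2, pu, tr⟩ :=
    pnt d l L' k N' T' D' s' a' A' m' G'' π' _ bu fw
  let _ : Algebra K L' := ((algebraMap L L').comp (algebraMap K L)).toAlgebra
  have : IsScalarTower K L L' := .of_algebraMap_eq fun _ => rfl
  have : IsScalarTower ℂ K L' := .of_algebraMap_eq fun y => by
    rw [IsScalarTower.algebraMap_apply K L L', ← IsScalarTower.algebraMap_apply ℂ K L,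
      ← IsScalarTower.algebraMap_apply ℂ L L']
  have ff' := ku.rw.ff
  have fL := Pb.fin_of_ff R.ff ff'
  have fK := Pb.fin_of_ff qt.ff ff'
  have fKL := Pb.fin_of_ff qt.ff R.ff
  have pr' := ku.rw.max.isPrime
  have fxK : ∀ y, Fix G' (algebraMap K L' y) := fun y =>
    (ku.fix _).2 ⟨_, (qt.fix _).2 ⟨y, rfl⟩, rfl⟩
  have rA : ∀ {z}, z ∈ A' → ∀ U ∈ T', z ∈ U.ring := fun hz U u =>
    ring_of ku.rw.cox ((ku.rw.zero _).1 hz) u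
  have rA0 : ∀ {z}, z ∈ A → ∀ U ∈ T, z ∈ U.ring := fun hz U u =>
    ring_of R.cox ((R.zero _).1 hz) u
  -- the places of `T'`
  have dn : ∀ U ∈ T', ∀ P, Lies (algebraMap K L') U P → P ∈ T₀ ∧
      U.ord (algebraMap K L' P.t) = 1 ∧ ∀ i, Z P i = w i ⬝ᵥ D' U := fun U u P lu => by
    obtain ⟨P₁, p1, l1⟩ := (ku.lies U).1 u
    obtain ⟨P₀, p0, l0⟩ := (qt.lies P₁).1 p1.1
    obtain rfl := lu.uniq (cmp l1 l0)
    refine ⟨p0, ?_, fun i => ?_⟩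
    · rw [emul l1, (ku.unr U u P₁ l1).1, qt.unr P p0 P₁ l0, one_mul]
    · rw [(ku.unr U u P₁ l1).2]
      exact hw P₁ p1.1 P l0 i
  obtain ⟨K₁, _, _, _, _, _, _, _, q1⟩ := qtf K L' d (Tz T' γ₂) G'' qt.ff ff' pu.gp.fin
    (fun y σ hσ => fxK y σ (ku.le hσ)) pu.gp.stT fun U u P lu => (dn U u.1 P lu).2.1
  choose dK lK using Pb.down qt.ff q1.ff
  choose d1 l1 using Pb.down q1.ff ff'
  obtain ⟨γ₃, n3, ou⟩ := stg L' k N₂ _ D' s₂ a₂ A₂ m₂ J G'' π' _ pu K₁ _ k₀ (fun R => Z (dK R)) w q1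
    (fun σ' h i => by
      obtain ⟨σ, hσ, -, e⟩ := ku.res σ' h
      rw [e, pw σ hσ]) fun U u Q lu => (dn U u.1 _ (cmp lu (lK Q))).2.2
  obtain ⟨n, n3'⟩ := tr _ n3
  obtain ⟨g₁, n1, ny⟩ := nky L L' d k N N' T D s a A m G π _ T' D' s' a' A' m' G' G'' π' R ku
    (cv w e) fun σ hσ => by simp only [cv, map_sum, map_zsmul, pw σ hσ]
  obtain ⟨h, nh, fh, op⟩ := opn L' A' m' G' _ ku.rw.max ku.fin ku.stab
    (nz_mul pr' (nz_mul pr' n2 n3') n1)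
  obtain ⟨h₀, fh0, rfl⟩ := (ku.fix h).1 fh
  obtain ⟨hK, rfl⟩ := (qt.fix h₀).1 fh0
  have h0 : algebraMap K L hK ≠ 0 := (map_ne_zero _).1 (nz_ne nh)
  obtain ⟨ν, hν⟩ := loc R.cox ((R.zero _).1 n0.1) (nz_ne n0) (e := 0) h0 fun P p z => by
    obtain ⟨Q, lq⟩ := Pb.up_fin (K' := L') P
    rw [zero_dotProduct, add_zero]
    exact Pl.ord_nonneg_of_mem _ ((lq _).2 (rA nh.1 Q ((ku.lies Q).2 ⟨P, ⟨p, z⟩, lq⟩)))
  replace hν := (R.zero _).2 hν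
  have n0' := (ku.nz _ n0.1).2.1 n0
  have eγ : algebraMap K L (γK * (γK ^ ν * hK)) =
      algebraMap K L γK * (algebraMap K L γK ^ ν * algebraMap K L hK) := by simp
  have eγ' : algebraMap K L' (γK * (γK ^ ν * hK)) = algebraMap L L' (algebraMap K L γK) *
      algebraMap L L' (algebraMap K L γK) ^ ν * algebraMap L L' (algebraMap K L hK) := by
    rw [IsScalarTower.algebraMap_apply K L L', eγ]
    simp [mul_assoc]
  have nγ' : Nz A' m' (algebraMap K L' (γK * (γK ^ ν * hK))) :=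
    eγ' ▸ nz_mul pr' (nz_mul pr' n0' (L79.nz_pow pr' n0' ν)) nh
  have nγ : Nz A m (algebraMap K L (γK * (γK ^ ν * hK))) :=
    (ku.nz _ (eγ ▸ mul_mem n0.1 hν)).2.2 nγ'
  have up : ∀ P ∈ Tz T₀ (γK * (γK ^ ν * hK)), ∀ U, Lies (algebraMap K L') U P → U ∈ T' :=
    fun P p U lu => by
      obtain ⟨P₁, lp⟩ := Pb.down R.ff ff' U
      have l0 := mid lp lu
      have p1 := (qt.lies P₁).2 ⟨P, p.1, l0⟩
      exact (ku.lies U).2 ⟨P₁, ⟨p1, (split (nz_ne n0) (mul_ne_zero (pow_ne_zero _ (nz_ne n0)) h0)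
        (rA0 n0.1 _ p1) (rA0 hν _ p1) (eγ ▸ (ord_zero l0 _).2 p.2)).1⟩, lp⟩
  have hz : ∀ Q : Pl L', (∀ z ∈ A', z ∈ Q.ring) → Q.ord (algebraMap K L' (γK * (γK ^ ν * hK))) = 0 →
      Q.ord (algebraMap L L' (algebraMap K L hK)) = 0 := fun Q hQ z =>
    have nn := nz_mul pr' n0' (L79.nz_pow pr' n0' ν)
    (split (nz_ne nn) (nz_ne nh) (hQ _ nn.1) (hQ _ nh.1) (eγ' ▸ z)).2
  generalize γK * (γK ^ ν * hK) = γ at nγ nγ' up hz
  clear eγ eγ'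
  have γ0 : γ ≠ 0 := (map_ne_zero _).1 (nz_ne nγ)
  have γ1 : algebraMap K K₁ γ ≠ 0 := (map_ne_zero _).2 γ0
  have eK : ∀ y, algebraMap K₁ L' (algebraMap K K₁ y) = algebraMap K L' y := fun y =>
    (IsScalarTower.algebraMap_apply K K₁ L' y).symm
  have d0 : ∀ Q U, U ∈ Tz T' γ₂ → Lies (algebraMap K₁ L') U Q → dK Q ∈ T₀ ∧
      Q.ord (algebraMap K K₁ (dK Q).t) = 1 := fun Q U u lu => by
    have k := dn U u.1 _ (cmp lu (lK Q))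
    refine ⟨k.1, ?_⟩
    have := k.2.1
    rwa [emul lu, q1.unr Q ⟨U, u, lu⟩ U lu, one_mul] at this
  refine ⟨γ, nγ, K₁, _, _, _, inferInstance, _, fun R => Z (dK R), q1.ff, ?_,
    out lcx ou (fun _ h => h.1) γ1 fun Q ⟨⟨U, u, lu⟩, _⟩ => (lu _).2 (eK γ ▸ rA nγ'.1 U u.1),
    fun P hP => ?_⟩
  · rintro Q ⟨⟨⟨U, u, lu⟩, -⟩, z⟩
    exact ⟨dK Q, ⟨(d0 Q U u lu).1, (ord_zero (lK Q) γ).1 z⟩, lK Q, (d0 Q U u lu).2, rfl⟩
  have ovP : ∀ Q, Lies (algebraMap K L') Q P → ∀ z ∈ A', z ∈ Q.ring := fun Q lq z hz =>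
    ov hP lq fun R r U lu => rA hz U (up R r U lu)
  have pγ : P.ord γ = 0 := Pl.ord_unit _
    (hP _ fun R r => ((Pl.ord_eq_zero_iff _ γ0).1 r.2).1)
    (hP _ fun R r => ((Pl.ord_eq_zero_iff _ γ0).1 r.2).2)
  obtain ⟨Q₀, lq0⟩ := Pb.up_fin (K' := L') P
  obtain ⟨σ, hσ', Q, cj, zq⟩ := op Q₀ (ovP Q₀ lq0) (hz Q₀ (ovP Q₀ lq0) ((ord_zero lq0 γ).2 pγ))
  have lq := Tq.S48.lies_cj cj (fun y => fxK y σ hσ') lq0
  have oq := ovP Q lq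
  have n23 := nz_mul pr' n2 n3'
  have z1 := split (nz_ne n23) (nz_ne n1) (oq _ n23.1) (oq _ n1.1) zq
  have nG := nz_mul pr' n23 nγ'
  have zG : Q.ord (γ₂ * (γ₂ ^ n * algebraMap K₁ L' γ₃) * algebraMap K L' γ) = 0 := by
    rw [Pl.ord_mul _ (nz_ne n23) (nz_ne nγ'), z1.1, (ord_zero lq γ).2 pγ, add_zero]
  have fG : Fix G'' (γ₂ * (γ₂ ^ n * algebraMap K₁ L' γ₃) * algebraMap K L' γ) := fun τ hτ => by
    rw [map_mul, map_mul, map_mul, map_pow, f2 τ hτ, (q1.fix _).2 ⟨γ₃, rfl⟩ τ hτ,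
      fxK γ τ (ku.le hτ)]
  have key : ∀ U ∈ T', U.ord (γ₂ * (γ₂ ^ n * algebraMap K₁ L' γ₃) * algebraMap K L' γ) = 0 →
      d1 U ∈ Tz (Tz {R : Pl K₁ | ∃ Q ∈ Tz T' γ₂, Lies (algebraMap K₁ L') Q R} γ₃)
        (algebraMap K K₁ γ) ∧ U.ord (algebraMap K₁ L' (d1 U).t) = 1 := fun U u z => by
    have a1 := split (nz_ne n23) (nz_ne nγ') (rA n23.1 U u) (rA nγ'.1 U u) z
    have a2 := split (nz_ne n2) (nz_ne n3') (rA n2.1 U u) (rA n3'.1 U u) a1.1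
    have a3 := a2.2
    rw [Pl.ord_mul _ (pow_ne_zero _ (nz_ne n2)) (nz_ne n3), Pl.ord_pow, a2.1, mul_zero,
      zero_add] at a3
    exact ⟨⟨⟨⟨U, ⟨u, a2.1⟩, l1 U⟩, (ord_zero (l1 U) _).1 a3⟩,
      (ord_zero (l1 U) _).1 (eK γ ▸ a1.2)⟩, q1.unr _ ⟨U, ⟨u, a2.1⟩, l1 U⟩ U (l1 U)⟩
  generalize γ₂ * (γ₂ ^ n * algebraMap K₁ L' γ₃) * algebraMap K L' γ = G₀ at nG zG fG key
  have G0 := nz_ne nG
  have oG : ∀ (j : ℕ) {y : K₁}, y ≠ 0 → Q.ord (G₀ ^ j * algebraMap K₁ L' y) =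
      Q.ord (algebraMap K₁ L' y) := fun j y y0 => by
    rw [Pl.ord_mul _ (pow_ne_zero _ G0) ((map_ne_zero _).2 y0), Pl.ord_pow, zG, mul_zero, zero_add]
  refine ⟨d1 Q, mid (l1 Q) lq, fun y hy => ?_, fun ψ ψ0 hψ => ?_⟩
  · rcases eq_or_ne y 0 with rfl | y0
    · exact zero_mem _
    have y1 := (map_ne_zero (algebraMap K₁ L')).2 y0
    obtain ⟨j, hj⟩ := loc ku.rw.cox ((ku.rw.zero _).1 nG.1) G0 (e := 0) y1 fun U u z => by
      rw [zero_dotProduct, add_zero]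
      exact Pl.ord_nonneg_of_mem _ ((l1 U _).1 (hy _ (key U u z).1))
    have := Pl.ord_nonneg_of_mem _ (oq _ ((ku.rw.zero _).2 hj))
    rw [oG j y0] at this
    exact (l1 Q _).2 ((Pl.ord_nonneg_iff _ y1).1 this)
  · have ψ1 := (map_ne_zero (algebraMap K₁ L')).2 ψ0
    obtain ⟨j, hj⟩ := loc ku.rw.cox ((ku.rw.zero _).1 nG.1) G0 (e := cv w e) ψ1 fun U u z => by
      have k := hψ _ (key U u z).1
      rw [(l1 U).ord, (key U u z).2, one_mul, cv_dot,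
        ← funext (dn U u _ (cmp (l1 U) (lK _))).2.2]
      exact k
    have j0 := mul_ne_zero (pow_ne_zero j G0) ψ1
    obtain ⟨_, ⟨μ, hμ, χ, hχ, fχ, rfl⟩, x0, le⟩ := term Q (ny _ hj fun τ hτ => by
      rw [map_mul, map_pow, fG τ hτ, (q1.fix _).2 ⟨ψ, rfl⟩ τ hτ]) (mul_ne_zero (nz_ne n1) j0)
    obtain ⟨χ, rfl⟩ := (qt.fix χ).1 fχ
    have χ2 := right_ne_zero_of_mul x0
    have χ1 := (map_ne_zero _).1 χ2
    refine ⟨χ, (map_ne_zero _).1 χ1, fun R' r => ?_, ord_le (l1 Q) _ _ ?_⟩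
    · obtain ⟨P₁, lp⟩ := Pb.up_fin (K' := L) R'
      have p1 := (qt.lies P₁).2 ⟨R', r.1, lp⟩
      have := (R.cox.sec _ _ χ1).1 hχ P₁ p1
      rwa [lp.ord, qt.unr R' r.1 P₁ lp, one_mul, cv_dot, ← funext (hw P₁ p1 R' lp)] at this
    · have := Pl.ord_nonneg_of_mem _ (oq _ hμ)
      rw [Pl.ord_mul _ (left_ne_zero_of_mul x0) χ2, Pl.ord_mul _ (nz_ne n1) j0, z1.2, zero_add,
        oG j ψ0] at le
      rw [eK, IsScalarTower.algebraMap_apply K L L']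
      omega

end Vale.Agent.P283R.Uq
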