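import Vale.Agent.P283R.Uq.Fa3
import Vale.Agent.P283R.Lx.Lm3
import Vale.Agent.P283R.Tq.Top61

/-!
# P283R, block UQ: low complexity, any family of divisors, the scheme side
-/

open Set CategoryTheory AlgebraicGeometry

noncomputable section

namespace Vale.Agent.P283R.Uq.F3

open Vale.Agent.P289 (Pt St toRat DForm dimension)
open Vale.Agent.P287D Vale.Agent.P283M.Stm Vale.Agent.P283M.Stm.Var Vale.Agent.P297Z
open Vale.Agent.P283M Vale.Agent.P283M.Br Vale.Agent.P283R.Sch Vale.Agent.P283R.Cox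
open Vale.Agent.P283R.Lx

variable {X Z : Var} {n k : ℕ} {f : X.X ⟶ Z.X} {z : Pt Z.X} {V W : Z.X.Opens}

/-- the Cox data of the divisors `D` over `V`; the embedding dimension at the closed orbit -/
def Out (d : ℕ) (f : X.X ⟶ Z.X) (z : Pt Z.X) (V : Z.X.Opens) (D : Fin k → X.PrimeDiv →₀ ℤ) : Prop :=
  ∃ (u : Finset X.K) (N : ℕ) (s : Fin N → X.K) (a : Fin N → Fin k → ℤ)
    (m : Ideal (Algebra.adjoin ℂ (u : Set X.K))), Base f V z u ∧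
    Cx.Cox (Tq.Pw (f ⁻¹ᵁ V)) (fun P i => up (D i) P) s a ∧ m.IsMaximal ∧
    (∀ x, x ∈ Algebra.adjoin ℂ (u : Set X.K) ↔ x ∈ Cx.Sp s a 0) ∧
    (∀ g, Nz _ m g → ∃ W : Z.X.Opens, IsAffineOpen W ∧ z ∈ W ∧ W ≤ V ∧
      ∀ x ∈ f ⁻¹ᵁ V, x ∈ f ⁻¹ᵁ W ↔ UnAt g x) ∧
    ∀ (F : Type) [Field F] [Algebra ℂ F] [Algebra X.K F] [IsScalarTower ℂ X.K F] (t : Fin k → F),
      Cx.Ext X.K d t → ∀ (p : Ideal (Cx.Rg s a t)) (r : ℕ) (l : Fin r → Fin k → ℤ)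
        (w : Fin r → X.K), Orb t s a _ m p l w → Bx.Emd (d + k + 1) (Cx.Rg s a t) p

theorem core {β : ℝ} {ω : DForm ℂ X.K (n + 1)} {L : X.QDiv} {μ ρ r : ℕ} {φ : X.K}
    {S : Finset X.PrimeDiv} {D' : Fin ρ → X.PrimeDiv →₀ ℤ} {D : Fin k → X.PrimeDiv →₀ ℤ}
    (k2 : 2 ≤ k) (hdim : dimension X.str = (n + 1 : ℕ)) (hω : ω.Nonzero)
    (hf : Contraction f) (hF : FanoType f ω)
    (hz : IsClosed ({z} : Set (Pt Z.X))) (hV : IsAffineOpen V) (zV : z ∈ V)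
    (hb : ∀ u, Base f V z u → ∃ m : Ideal (Algebra.adjoin ℂ (u : Set X.K)), m.IsMaximal ∧
      (∀ g, Nz _ m g → ∃ W : Z.X.Opens, IsAffineOpen W ∧ z ∈ W ∧ W ≤ V ∧
        ∀ x ∈ f ⁻¹ᵁ V, x ∈ f ⁻¹ᵁ W ↔ UnAt g x) ∧
      ∀ x ∈ f ⁻¹ᵁ V, Pt.map f x ≠ z → ∃ g ∈ m, UnAt (g : X.K) x)
    (ho : ∀ h, h ≠ 0 → Br.Frm ω h → ∀ (Q : Pl X.K) (x : Pt X.X), x ∈ f ⁻¹ᵁ V → Dom Q.ring x →
      0 ≤ 1 + cn X.K (n + 1) Q - (Q.ord (φ / h ^ μ) : ℝ) / μ)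
    (hL : ∀ E : X.PrimeDiv, E.1 ∈ f ⁻¹ᵁ V → 0 ≤ L E) (μ0 : 0 < μ)
    (hφ : ∀ x ∈ f ⁻¹ᵁ V, LocalEq (logCan ω L) μ φ x) (r0 : 0 < r)
    (hS : ∀ E ∈ S, Pt.map f E.1 ⤳ z ∧ ∃ i, D i = Finsupp.single E 1)
    (hK' : InSpan (f ⁻¹ᵁ V) D (logCan ω 0))
    (hD : ∀ i, InSpan (f ⁻¹ᵁ V) D' fun E => r * D i E)
    (alt : ((n + 1 : ℕ) + ρ : ℝ) < 2 + (∑ E ∈ S, L E : ℚ) ∨ 0 ≤ β ∧ β ≤ 1 ∧
      (∃ x ∈ f ⁻¹ᵁ V, Pt.map f x ≠ z) ∧
      (∀ h, h ≠ 0 → Br.Frm ω h → ∀ (Q : Pl X.K) (x : Pt X.X), x ∈ f ⁻¹ᵁ V → Dom Q.ring x →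
        Pt.map f x = z → β < 1 + cn X.K (n + 1) Q - (Q.ord (φ / h ^ μ) : ℝ) / μ) ∧
      ((n + 1 : ℕ) + ρ : ℝ) ≤ 2 + β + (∑ E ∈ S, L E : ℚ)) : Out (n + 1) f z V D := by
  classical
  have hK := ffd X _ hdim
  obtain ⟨j, j0, fr⟩ := frm X _ hK ω hω
  let T : Fin S.card → X.PrimeDiv := fun i => S.equivFin.symm i
  have TS : ∀ i, T i ∈ S := fun i => (S.equivFin.symm i).2
  have sT : ∀ g : X.PrimeDiv → ℚ, ∑ i, g (T i) = ∑ E ∈ S, g E := fun g =>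
    (S.equivFin.symm.sum_comp fun E => g E).trans (S.sum_coe_sort g)
  choose ι hι using fun i => (hS _ (TS i)).2
  obtain ⟨u, bs⟩ := basV hf hz hV zV
  obtain ⟨C, hC, -⟩ := id hF
  obtain ⟨Λ, Γ, Γ', dt, on, -⟩ := dataW (ε := 0) (B := C) hK hω
    ⟨hC.1, hC.2.1, fun Y E c r w r0 t => (hC.2.2 Y E c r w r0 t).le⟩ hf hF bs
  obtain ⟨N, h1⟩ := schU Cx.ut hdim hω hf hF hz hV zV D
  obtain ⟨s, a, π, ci⟩ := cg_of bs on h1
  have s1 : Cox.Sp n u Λ _ (cn X.K (n + 1)) := sp_of bs on hK' j0 fun P E _ dm => by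
    rw [← fr X _ E P (is_of_dom dm) (ord_eq dm), logCan]
    simp
  obtain ⟨s, a, π, h, s0⟩ := Cx.Gn.shift ci
  have x := Cx.Gn.coxY Cx.big dt h s1 s0
  obtain ⟨h₁, e₁, e'⟩ := Cx.Ad.eqv s1
  obtain ⟨y, Δ, hy, hcn⟩ := Cb.exists_cn dt.ff
  have Y : Dz n u Λ Γ Γ' y _ s a h₁ e₁ := ⟨dt, ⟨Δ, hy⟩, hcn, x, hcn ▸ e'⟩
  obtain ⟨m, mx, bas, sep⟩ := hb u bs
  have nz : ∀ g, Nz _ m g → g ≠ 0 := fun g ⟨_, w⟩ g0 => w (by
    subst g0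
    exact m.zero_mem)
  have TW : ∀ i (W : Z.X.Opens), z ∈ W → (T i).1 ∈ f ⁻¹ᵁ W := fun i W zW =>
    (hS _ (TS i)).1.mem_open W.isOpen zW
  obtain ⟨x₀, hx₀, -⟩ := bs.ctr ⊤ (fun _ => trivial) fun _ _ => trivial
  have φ0 := (hφ x₀ hx₀).1
  have dp : ∀ (i : Fin S.card) (P : Pl X.K), (Pi.single (ι i) (1 : ℤ) ⬝ᵥ
      fun i => up (D i) P) = up (.single (T i) 1) P := fun i P => by
    rw [single_dotProduct, one_mul, hι]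
  have lc : Lc u y (Cx.Tt n u Λ) (fun P i => up (D i) P) s a m μ (φ / j ^ μ)
      (fun i : Fin S.card => Pi.single (ι i) 1) fun i => (L (T i) : ℝ) := by
    refine ⟨μ0, div_ne_zero φ0 (pow_ne_zero _ j0), fun Q hQ => ?_,
      fun i => Rat.cast_nonneg.2 (hL _ (TW i V zV)), fun i => ⟨?_, fun ψ hψ w => ?_⟩,
      fun P t => ?_⟩
    · obtain ⟨x, hx, dm⟩ := bs.ctr Q.ring Q.con hQ
      have := ho j j0 fr Q x hx dm
      rwa [hcn] at this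
    · refine (x.sec _ _ one_ne_zero).2 fun P t => ?_
      obtain ⟨x, hx, dm⟩ := bs.ctr P.ring P.con t.1
      obtain ⟨E, rfl⟩ : ∃ E : X.PrimeDiv, E.1 = x := ⟨⟨x, (on P x hx dm).1 t.2⟩, rfl⟩
      rw [dp, up_eq _ dm, Pl.ord_one, Finsupp.single_apply]
      split_ifs <;> simp
    · rw [one_mul] at w
      obtain ⟨W, -, zW, -, hW⟩ := bas ψ w
      obtain ⟨P, is, -⟩ := pl_of plc (T i)
      have c := TW i V zV
      have := (x.sec _ _ (nz _ w)).1 hψ P ⟨fun a ha => (is.dom a (bs.reg a ha _ c)).1,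
        (on P _ c is.dom).2 (T i).2⟩
      rw [neg_dotProduct, dp, up_eq _ is.dom, is.dom.ord ((hW _ c).1 (TW i W zW)),
        Finsupp.single_eq_same] at this
      omega
    · obtain ⟨x, hx, dm⟩ := bs.ctr P.ring P.con t.1
      obtain ⟨E, rfl⟩ : ∃ E : X.PrimeDiv, E.1 = x := ⟨⟨x, (on P x hx dm).1 t.2⟩, rfl⟩
      have k1 := fr X _ E P (is_of_dom dm) (ord_eq dm)
      have k2 := (hφ _ hx).2 E (specializes_refl _)
      rw [ord_eq dm, logCan] at k2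
      have k3 : ∑ i, L (T i) * (Finsupp.single (T i) (1 : ℤ) E : ℤ) ≤ L E := by
        rw [sT fun E' => L E' * (Finsupp.single E' (1 : ℤ) E : ℤ)]
        simp only [Finsupp.single_apply, Int.cast_ite, Int.cast_one, Int.cast_zero, mul_ite,
          mul_one, mul_zero, Finset.sum_ite_eq']
        split_ifs
        exacts [le_rfl, hL E hx]
      have k4 : (μ : ℝ) ≠ 0 := Nat.cast_ne_zero.2 μ0.ne'
      simp only [dp]
      simp only [up_eq _ dm]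
      rw [Pl.ord_div _ φ0 (pow_ne_zero _ j0), Pl.ord_pow, ← hcn]
      have k2' := congrArg (Rat.cast : ℚ → ℝ) k2
      have k3' := (Rat.cast_le (K := ℝ)).2 k3
      push_cast at k2' k3' ⊢
      refine k3'.trans_eq ?_
      rw [k2', k1]
      field_simp
      ring
  refine ⟨u, N, s, a, m, bs, Tq.T61.tt bs on ▸ x, mx, T23.zero dt x, bas,
    fun F _ _ _ _ t xt p r' l w o => emd (D' := fun P i => up (D' i) P) k2 Y
      ⟨xt, T23.zero dt x, Subalgebra.fg_adjoin_finset u, mx⟩ o lc r0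
      (fun i => span_of bs on (hD i) 1 r (D i) fun E => by simp) (alt.imp (fun lt => ?_)
        fun ⟨β0, β1, ne, hm, lt⟩ => ⟨β, β0, β1, ?_, fun Q hQ h => ?_, ?_⟩)⟩
  · rw [← sT] at lt
    exact_mod_cast lt
  · obtain ⟨x, hx, e⟩ := ne
    obtain ⟨g, g1, g2⟩ := sep x hx e
    exact ⟨g, g1, fun z => g2.1 (by rw [z]; rfl)⟩
  · obtain ⟨x, hx, dm⟩ := bs.ctr Q.ring Q.con hQ
    have := hm j j0 fr Q x hx dm (by_contra fun e => by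
      obtain ⟨g, g1, g2⟩ := sep x hx e
      exact (h g g1 fun z => g2.1 (by rw [z]; rfl)).ne' (dm.ord g2))
    rwa [hcn] at this
  · rw [← sT] at lt
    exact_mod_cast lt

end Vale.Agent.P283R.Uq.F3
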