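import Vale.Agent.P283R.Uq.St2
import Vale.Agent.P283R.Uq.Fb3

/-!
# P283R, block UQ: the front for low complexity
-/

open Set CategoryTheory AlgebraicGeometry

noncomputable section

namespace Vale.Agent.P283R.Uq

namespace F3

section

open Vale.Agent.P289 Vale.Agent.P289.H219 Vale.Agent.P270L Vale.Agent.P283M.Am
open Vale.Agent.P283M Vale.Agent.P283M.Br

theorem bas2 {X Z : Stm.Var} {f : X.X ⟶ Z.X} (hf : Stm.Contraction f) {z : Pt Z.X}
    (hz : IsClosed ({z} : Set (Pt Z.X))) {V : Z.X.Opens} {u : Finset X.K} (bs : Base f V z u) :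
    ∃ m : Ideal (Algebra.adjoin ℂ (u : Set X.K)), m.IsMaximal ∧
      ∀ x : Pt X.X, f x = z → ∀ g ∈ m, ¬ UnAt (g : X.K) x := by
  obtain ⟨-, -, h3, h4⟩ := hf
  obtain ⟨x₀, rfl⟩ := h3.surj z
  have hV := bs.aff
  have hzV := bs.mem
  have : Nonempty ↑(f ⁻¹ᵁ V) := ⟨⟨x₀, hzV⟩⟩
  have := h4 V
  have hm := hV.primeIdealOf_isMaximal_of_isClosed ⟨_, hzV⟩ hz
  let ψ : Γ(Z.X, V) →+* Algebra.adjoin ℂ (u : Set X.K) :=
    (pl f V).codRestrict _ fun a => bs.con _ fun x hx => (mem_reg.1 (pl_reg f V a) x hx :)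
  have hψ : Function.Bijective ψ := ⟨fun a b e => pl_inj f V (congrArg Subtype.val e), fun a => by
    obtain ⟨b, hb⟩ := exists_pl f V (g := a.1)
      (mem_reg.2 fun x hx => (reg_adjoin (fun c hc => bs.reg c hc x hx) a.2 :))
    exact ⟨b, Subtype.ext hb⟩⟩
  let e := RingEquiv.ofBijective ψ hψ
  refine ⟨(hV.primeIdealOf ⟨_, hzV⟩).asIdeal.comap e.symm,
    Ideal.comap_isMaximal_of_surjective _ e.symm.surjective, fun x hx g k un => ?_⟩
  have eg : pl f V (e.symm g) = g := congrArg Subtype.val (e.apply_symm_apply g)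
  have h6 := (un_pl (f := f) (V := V) (show x ∈ f ⁻¹ᵁ V from show f x ∈ V from hx ▸ hzV)
    (e.symm g)).1 (eg ▸ un)
  rw [hx, Scheme.mem_basicOpen _ _ _ hzV] at h6
  exact (mem_primeIdealOf hV _ hzV _).1 k h6

end

section

open Vale.Agent.P289 (Pt DForm)
open Vale.Agent.P287D Vale.Agent.P283M.Stm Vale.Agent.P283M.Stm.Var Vale.Agent.P297Z
open Vale.Agent.P283M Vale.Agent.P283M.Br Vale.Agent.P283R.Cox
open Vale.Agent.P283R.Lx (Nz)

variable {X Z : Var} {d k : ℕ} {f : X.X ⟶ Z.X} {z : Pt Z.X} {V : Z.X.Opens}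
  {D : Fin k → X.PrimeDiv →₀ ℤ}

theorem kspan {ω : DForm ℂ X.K d} {S : Finset X.PrimeDiv} (W : X.X.Opens)
    (hS : ∀ E, formOrd ω (RingEquiv.refl _) E ≠ 0 → E ∈ S)
    (hD : ∀ E ∈ S, ∃ i, D i = .single E 1) (k2 : 2 ≤ k) : InSpan W D (logCan ω 0) := by
  classical
  have : Nonempty (Fin k) := ⟨⟨0, by omega⟩⟩
  choose! ι hι using hD
  refine ⟨∑ E ∈ S, Pi.single (ι E) (formOrd ω (RingEquiv.refl _) E), 1, one_ne_zero,
    fun E _ => ?_⟩
  obtain ⟨P, -, w⟩ := pl_of plc E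
  have o : ord 1 E = 0 := (w 1).trans (Pl.ord_one _)
  have : ∑ i, (∑ E ∈ S, Pi.single (ι E) (formOrd ω (RingEquiv.refl _) E) : Fin k → ℤ) i * D i E =
      formOrd ω (RingEquiv.refl _) E := by
    simp only [Finset.sum_apply, Finset.sum_mul]
    rw [Finset.sum_comm, Finset.sum_congr rfl fun E' e => by
      rw [Finset.sum_eq_single (ι E') (fun i _ c => by simp [c]) (by simp),
        Pi.single_eq_same, hι E' e, Finsupp.single_apply, mul_ite, mul_one, mul_zero],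
      Finset.sum_ite_eq']
    split_ifs with c
    · rfl
    · exact (not_not.1 fun n => c (hS E n)).symm
  rw [o, this, logCan]
  simp

theorem fin (hf : Contraction f) (hz : IsClosed ({z} : Set (Pt Z.X))) (zV : z ∈ V)
    (h : Out d f z V D) :
    ∃ (N : ℕ) (s : Fin N → X.K) (a : Fin N → Fin k → ℤ) (A : Subalgebra ℂ X.K) (m : Ideal A),
      Cx.Cox (Tq.Pw (f ⁻¹ᵁ V)) (fun P i => up (D i) P) s a ∧ (∀ x, x ∈ A ↔ x ∈ Cx.Sp s a 0) ∧
      A.FG ∧ m.IsMaximal ∧ (∀ x, x ∈ A ↔ ∀ y ∈ f ⁻¹ᵁ V, RegAt x y) ∧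
      (∀ y : Pt X.X, y.map f = z → ∀ x, Nz A m x ↔ x ∈ A ∧ UnAt x y) ∧ Eb d (d + 1) s a A m := by
  obtain ⟨u, N, s, a, m, bs, cx, mx, z0, nz, em⟩ := h
  obtain ⟨m₂, mx₂, h₂⟩ := bas2 hf hz bs
  have un : ∀ y : Pt X.X, y.map f = z → ∀ x, Nz _ m x → UnAt x y := fun y hy x w =>
    let ⟨W', _, zW', _, k⟩ := nz x w
    (k y (show y.map f ∈ V from hy ▸ zV)).1 (show y.map f ∈ W' from hy ▸ zW')
  obtain ⟨x₁, e₁⟩ := hf.2.2.1.surj z
  obtain rfl : m₂ = m := mx₂.eq_of_le mx.ne_top fun g k => by_contra fun n =>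
    h₂ x₁ e₁ g k (un x₁ e₁ g ⟨g.2, n⟩)
  refine ⟨N, s, a, _, m₂, cx, z0, Subalgebra.fg_adjoin_finset u, mx,
    fun x => ⟨fun h y hy => reg_adjoin (fun c hc => bs.reg c hc y hy) h, bs.con x⟩,
    fun y hy x => ⟨fun w => ⟨w.1, un y hy x w⟩, fun ⟨h, w⟩ => ⟨h, fun k => h₂ y hy _ k w⟩⟩,
    fun F _ _ _ _ t p r v w xt o => ?_⟩
  have := em F t xt p r v w o
  rwa [show d + k + 1 = k + (d + 1) by omega] at this

end

end F3

open Sl Sl.Var Lx.C23 Vale.Agent.P287D Vale.Agent.P297Z F3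
open Vale.Agent.P283R.Lx (Nz)

theorem frm3 : FRM := by
  intro d δ X Z f ω B z hd _ hdim hω _ hf hF _ hz h
  classical
  obtain ⟨V, Λ, m, φ, S, ρ, D', c, zV, pr, m0, hφ, hS, cl, hc, lt⟩ := h
  obtain ⟨n, rfl⟩ : ∃ n, d = n + 1 := ⟨d - 1, by omega⟩
  have hK := P283M.Br.ffd X.o _ hdim
  obtain ⟨j, -, fr⟩ := P283M.Br.frm X.o _ hK ω hω
  have fK := P283R.Br.form_fin hK fr
  refine ⟨S ∪ fK.toFinset, fun Ω hΩ => ?_⟩
  have sg : ∀ (E : X.PrimeDiv) (r : ℕ), QDiv.coeff (.single E (r : ℚ)) =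
      fun E' => r * QDiv.coeff (.single E 1) E' := fun E r => funext fun E' => by
    by_cases e : E = E'
    · subst e
      simp
    · simp [Finsupp.single_eq_of_ne' e]
  have one : ∀ E, Lx.C23.Lo f z D' (QDiv.coeff (.single E 1)) := fun E =>
    let ⟨U, r, u, r0, a⟩ := cl E
    ⟨U, r, u, r0, sg E r ▸ a⟩
  choose U r u p a using one
  have zi : z ∈ Ω.inf U := by
    refine Finset.inf_induction (p := fun O : Z.X.Opens => z ∈ O) trivial
      (fun _ a _ b => ⟨a, b⟩) fun E _ => u E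
  refine ⟨V ⊓ Ω.inf U, ⟨zV, zi⟩, fun W le hW zW k D k2 d1 d2 => ?_⟩
  obtain ⟨l0, l3⟩ := le_inf_iff.1 le
  have l3 := Finset.le_inf_iff.1 l3
  have pW : Pair (0 ≤ ·) (pre f W) ω Λ :=
    ⟨fun y c => pr.1 y (l0 c), fun x c => pr.2.1 x (l0 c), fun M E c => pr.2.2 M E (l0 c)⟩
  obtain ⟨x₀, e₀⟩ := hf.2.2.1.surj (generic Z.X)
  have hc' := congrArg (Rat.cast : ℚ → ℝ) hc
  rw [Rat.cast_sub, Rat.cast_add, Rat.cast_natCast, Rat.cast_natCast] at hc'
  refine fin (X := X.o) (Z := Z.o) hf hz zW (core (X := X.o) (Z := Z.o) (β := c - 2)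
    (r := ∏ E ∈ Ω, r E) (L := Λ) (S := S) (D' := D') (D := D) k2
    hdim hω hf ((fanoType_iff f ω).1 hF) hz hW zW
    (fun u bs => Lx.M3.bas (X := X.o) (Z := Z.o) hf hz bs)
    (fun h h0 fr => Lx.ofl _ m X _ ω Λ φ h m0 h0 fr pW fun x c => hφ x (l0 c)) pW.1 m0
    (fun x c => hφ x (l0 c)) (Finset.prod_pos fun E _ => p E)
    (fun E e => ⟨hS E e, d2 E (hΩ (Finset.mem_union_left _ e))⟩)
    (kspan _ (fun E e => hΩ (Finset.mem_union_right _ (fK.mem_toFinset.2 e))) d2 k2)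
    (fun i => ?_) ?_)
  · obtain e | ⟨E, e1, e⟩ := d1 i
    · refine mono zero le_rfl fun E _ => ?_
      rw [e]
      exact (congrArg _ Int.cast_zero).trans (mul_zero _)
    · refine mono (up (a E) (l3 E e1) (Finset.dvd_prod_of_mem r e1)) le_rfl fun E' _ => ?_
      rw [e]
      refine congrArg _ ?_
      by_cases c : E = E'
      · subst c
        exact (congrArg _ Finsupp.single_eq_same).trans
          (Int.cast_one.trans Finsupp.single_eq_same.symm)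
      · exact (congrArg _ (Finsupp.single_eq_of_ne' c)).trans
          (Int.cast_zero.trans (Finsupp.single_eq_of_ne' c).symm)
  by_cases c2 : c < 2
  · have : (c : ℝ) < 2 := by exact_mod_cast c2
    exact .inl ((eq_add_of_sub_eq hc'.symm).trans_lt (add_lt_add_of_lt_of_le this le_rfl))
  obtain ⟨c3, gn, ml⟩ := lt.resolve_left c2
  refine .inr ⟨sub_nonneg.2 (by exact_mod_cast not_lt.1 c2), ?_,
    ⟨x₀, show f x₀ ∈ W from e₀ ▸ (genericPoint_specializes z).mem_open W.isOpen zW,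
      fun e => gn (e.symm.trans e₀)⟩, fun h h0 fr Q y hy hQ e => ?_,
    (eq_add_of_sub_eq hc'.symm).le.trans_eq (congrArg (· + _) (by ring))⟩
  · have : (c : ℝ) ≤ 3 := by exact_mod_cast c3
    linarith
  · have m1 : (m : ℝ) ≠ 0 := Nat.cast_ne_zero.2 m0.ne'
    obtain ⟨M, E, rfl, e'⟩ := P283M.Br.mod X.o Q y hQ
    have o := (P283M.Br.plc X.o M.Y M.pull (P283M.Br.mdc X.o M).1 E).2 Q e'
    have : (c : ℝ) - 2 < 1 + (P283M.Stm.Var.formOrd ω M.pull E -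
      (P283M.Stm.Var.ord (M.pull φ) E : ℝ) / m) := ml (Model.nw M) E e
    rw [fr _ _ E Q e' o, o] at this
    rw [Pl.ord_div _ (hφ _ (l0 hy)).1 (pow_ne_zero m h0), Pl.ord_pow]
    push_cast
    have k : ((Q.ord φ : ℝ) - m * Q.ord h) / m = Q.ord φ / m - Q.ord h := by field_simp
    rw [k]
    linarith

theorem frl3 : FRL := fun d δ X Z f ω B z a b c e g h i j k l =>
  frm3 d δ X Z f ω B z a b c e g h i j k l.mld

end Vale.Agent.P283R.Uq
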