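import Vale.Agent.P283R.Uq.Kun93

/-!
# P283R, block UQ: the sections after the adjunction of roots of units
-/

open Set

noncomputable section

namespace Vale.Agent.P283R.Uq.K93

open Vale.Agent.P287D Vale.Agent.P297Z Vale.Agent.P283M Vale.Agent.P283R.Cx
open Tq (up)
open Lx.G3 (sp_le gen_sp)
open Lx.O15 (one_sp)

variable {L F : Type} [Field L] [Algebra ℂ L] [Field F] [Algebra ℂ F] [Algebra L F]
  [IsScalarTower ℂ L F] {n d k N r : ℕ}

omit [Algebra ℂ L] [IsScalarTower ℂ L F] in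
theorem eig {S : Set F} (n0 : 0 < n)
    (h : ∀ β ∈ S, ∃ x : L, x ≠ 0 ∧ β ^ n = algebraMap L F x) {μ : F}
    (hμ : μ ∈ Submonoid.closure S) : μ ≠ 0 ∧ ∀ τ : F ≃ₐ[L] F, ∃ ζ : ℂ, τ μ = ζ • μ := by
  induction hμ using Submonoid.closure_induction with
  | mem β b =>
    obtain ⟨x, x0, e⟩ := h β b
    have β0 : β ≠ 0 := fun z => (map_ne_zero _).2 x0 (by rw [← e, z, zero_pow n0.ne'])
    refine ⟨β0, fun τ => ?_⟩
    obtain ⟨ζ, z⟩ := con n0 (u := τ β / β) (by
      rw [div_pow, ← map_pow, e, τ.commutes, div_self ((map_ne_zero _).2 x0)])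
    exact ⟨ζ, by rw [Algebra.smul_def, z, div_mul_cancel₀ _ β0]⟩
  | one => exact ⟨one_ne_zero, fun τ => ⟨1, by simp⟩⟩
  | mul x y _ _ a b =>
    refine ⟨mul_ne_zero a.1 b.1, fun τ => ?_⟩
    obtain ⟨ζ, z⟩ := a.2 τ
    obtain ⟨ζ', z'⟩ := b.2 τ
    exact ⟨ζ * ζ', by rw [map_mul, z, z', smul_mul_smul_comm]⟩

/-- a stable subspace is spanned by its eigenvectors -/
theorem dec [FiniteDimensional L F] [IsGalois L F] {S : Set F} (hS : Algebra.adjoin L S = ⊤)
    (n0 : 0 < n) (h : ∀ β ∈ S, ∃ x : L, x ≠ 0 ∧ β ^ n = algebraMap L F x) {V W : Submodule ℂ F}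
    (hV : ∀ τ : F ≃ₐ[L] F, ∀ φ ∈ V, τ φ ∈ V)
    (hW : ∀ μ ∈ Submonoid.closure S, ∀ x : L, x • μ ∈ V → x • μ ∈ W) : V ≤ W := by
  classical
  choose! ζ hζ using fun μ (a : μ ∈ Submonoid.closure S) => (eig n0 h a).2
  have key : ∀ M : Finset F, (∀ μ ∈ M, μ ∈ Submonoid.closure S) → ∀ x : F → L,
      ∑ μ ∈ M, x μ • μ ∈ V → ∑ μ ∈ M, x μ • μ ∈ W := fun M => by
    induction M using Finset.strongInduction with
    | H M ih =>
    intro hM x v
    have t : ∀ τ : F ≃ₐ[L] F, τ (∑ μ ∈ M, x μ • μ) = ∑ μ ∈ M, ζ μ τ • x μ • μ := fun τ => by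
      rw [map_sum]
      exact Finset.sum_congr rfl fun μ a => by rw [map_smul, hζ μ (hM μ a), smul_comm]
    by_cases c : ∀ μ ∈ M, ∀ μ' ∈ M, ∀ τ, ζ μ τ = ζ μ' τ
    · obtain rfl | ⟨μ₀, a⟩ := M.eq_empty_or_nonempty
      · simp
      have μ0 := (eig n0 h (hM μ₀ a)).1
      obtain ⟨y, e⟩ := (IsGalois.mem_range_algebraMap_iff_fixed ((∑ μ ∈ M, x μ • μ) / μ₀)).2
        fun τ => by
          have z : ζ μ₀ τ ≠ 0 := fun z => (map_ne_zero τ).2 μ0 (by rw [hζ _ (hM μ₀ a), z, zero_smul])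
          rw [map_div₀, t, Finset.sum_congr rfl fun μ b => by rw [c μ b μ₀ a], ← Finset.smul_sum,
            hζ _ (hM μ₀ a), Algebra.smul_def, Algebra.smul_def,
            mul_div_mul_left _ _ ((map_ne_zero _).2 z)]
      rw [eq_div_iff μ0, ← Algebra.smul_def] at e
      exact e ▸ hW μ₀ (hM μ₀ a) y (e ▸ v)
    push Not at c
    obtain ⟨μ₀, a, μ₁, b, τ, c⟩ := c
    have u : ∀ ν ∈ M, τ (∑ μ ∈ M, x μ • μ) - ζ ν τ • ∑ μ ∈ M, x μ • μ ∈ W := fun ν a => by
      have e : τ (∑ μ ∈ M, x μ • μ) - ζ ν τ • ∑ μ ∈ M, x μ • μ =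
          ∑ μ ∈ M.erase ν, ((ζ μ τ - ζ ν τ) • x μ) • μ := by
        rw [t, Finset.smul_sum, ← Finset.sum_sub_distrib, Finset.sum_erase _ (by simp)]
        exact Finset.sum_congr rfl fun μ _ => by rw [smul_assoc, sub_smul]
      exact e ▸ ih _ (Finset.erase_ssubset a) (fun μ b => hM μ (Finset.mem_of_mem_erase b)) _
        (e ▸ V.sub_mem (hV τ _ v) (V.smul_mem _ v))
    have := W.sub_mem (u μ₁ b) (u μ₀ a)
    rw [sub_sub_sub_cancel_left, ← sub_smul] at this
    exact (W.smul_mem_iff (sub_ne_zero.2 c)).1 this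
  intro φ v
  have : φ ∈ Submodule.span L (Submonoid.closure S : Set F) := by
    rw [← Algebra.adjoin_eq_span, hS]
    trivial
  obtain ⟨x, M, a, -, rfl⟩ := Submodule.mem_span_iff_exists_finset_subset.1 this
  exact key M a x v

variable {T : Set (Pl L)} {D : Pl L → Fin k → ℤ} {s : Fin N → L} {a : Fin N → Fin k → ℤ}
  {β : Fin r → F}

theorem sp_up (β : Fin r → F) {e : Fin k → ℤ} {x : L} (h : x ∈ Sp s a e) :
    algebraMap L F x ∈ Sp (Fin.append (algebraMap L F ∘ s) β) (Fin.append a 0) e :=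
  sp_le (M := fun e => (Sp (Fin.append (algebraMap L F ∘ s) β) (Fin.append a 0) e).comap
    (IsScalarTower.toAlgHom ℂ L F).toLinearMap) (fun p q => by simpa using sp_mul p q)
    (by simpa using one_sp _ _) (fun j => by
      simpa using gen_sp (Fin.append (algebraMap L F ∘ s) β) (Fin.append a 0) (Fin.castAdd r j)) e h

omit [Algebra ℂ L] [IsScalarTower ℂ L F] in
theorem sp_mon {μ : F} (h : μ ∈ Submonoid.closure (range β)) :
    μ ∈ Sp (Fin.append (algebraMap L F ∘ s) β) (Fin.append a 0) 0 := by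
  induction h using Submonoid.closure_induction with
  | mem _ b =>
    obtain ⟨j, rfl⟩ := b
    simpa using gen_sp (Fin.append (algebraMap L F ∘ s) β) (Fin.append a 0) (Fin.natAdd N j)
  | one => exact one_sp _ _
  | mul x y _ _ p q => simpa using sp_mul p q

/-- **the sections upstairs** -/
theorem cox [IsGalois L F] (cx : Cox T D s a) (hL : FF L d) (hF : FF F d)
    (hS : Algebra.adjoin L (range β) = ⊤) (n0 : 0 < n)
    (h : ∀ j, ∃ x : L, x ≠ 0 ∧ (∀ P ∈ T, P.ord x = 0) ∧ β j ^ n = algebraMap L F x)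
    {D' : Pl F → Fin k → ℤ} (hD : ∀ P ∈ T, ∀ Q, Lies (algebraMap L F) Q P → D' Q = D P) :
    Cox (up F T) D' (Fin.append (algebraMap L F ∘ s) β) (Fin.append a 0) := by
  have := Pb.fin_of_ff hL hF
  have h' : ∀ b ∈ range β, ∃ x : L, x ≠ 0 ∧ b ^ n = algebraMap L F x :=
    forall_mem_range.2 fun j => let ⟨x, p, _, q⟩ := h j; ⟨x, p, q⟩
  have o : ∀ P ∈ T, ∀ Q, Lies (algebraMap L F) Q P → ∀ x, Q.ord (algebraMap L F x) = P.ord x :=
    fun P p Q l x => by
      rw [l.ord, unr hS n0 l (forall_mem_range.2 fun j =>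
        let ⟨x, a, b, c⟩ := h j; ⟨x, a, b P p, c⟩), one_mul]
  have m0 : ∀ Q ∈ up F T, ∀ μ ∈ Submonoid.closure (range β), Q.ord μ = 0 :=
    fun Q ⟨P, p, l⟩ μ m => by
      induction m using Submonoid.closure_induction with
      | mem _ b =>
        obtain ⟨j, rfl⟩ := b
        obtain ⟨x, -, b, c⟩ := h j
        have := o P p Q l x
        rw [← c, Pl.ord_pow, b P p, mul_eq_zero] at this
        exact this.resolve_left (Int.natCast_ne_zero.2 n0.ne')
      | one => simp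
      | mul x y a b p q => rw [Pl.ord_mul _ (eig n0 h' a).1 (eig n0 h' b).1, p, q, add_zero]
  have b1 : ∀ j, β j ∈ Submonoid.closure (range β) := fun j => Submonoid.subset_closure ⟨j, rfl⟩
  have fu : ∀ {X : Set (Pl L)}, X.Finite → (up F X).Finite := fun {X} f =>
    (f.biUnion fun P _ => Pb.fin_above (K' := F) (Q := P)).subset fun Q ⟨P, p, l⟩ => mem_biUnion p l
  have f1 : ∀ φ : F, {Q | Q ∈ up F T ∧ φ ∉ Q.ring}.Finite := fun φ => by
    induction (hS.ge trivial : φ ∈ Algebra.adjoin L (range β)) using Algebra.adjoin_induction with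
    | mem _ b =>
      obtain ⟨j, rfl⟩ := b
      exact finite_empty.subset fun Q q =>
        q.2 ((Pl.ord_nonneg_iff _ (eig n0 h' (b1 j)).1).1 (m0 Q q.1 _ (b1 j)).ge)
    | algebraMap x =>
      refine (fu (cx.fin x 0)).subset fun Q ⟨⟨P, p, l⟩, q⟩ => ⟨P, ⟨p, fun z => q ((l x).1 ?_)⟩, l⟩
      rw [zero_dotProduct, add_zero] at z
      by_cases x0 : x = 0
      · simp [x0]
      · exact (Pl.ord_nonneg_iff _ x0).1 z.ge
    | add x y _ _ p q =>
      exact (p.union q).subset fun Q c => by_contra fun z => c.2 (add_mem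
        (by_contra fun w => z (.inl ⟨c.1, w⟩)) (by_contra fun w => z (.inr ⟨c.1, w⟩)))
    | mul x y _ _ p q =>
      exact (p.union q).subset fun Q c => by_contra fun z => c.2 (mul_mem
        (by_contra fun w => z (.inl ⟨c.1, w⟩)) (by_contra fun w => z (.inr ⟨c.1, w⟩)))
  refine ⟨fun j => ?_, fun e φ φ0 => ⟨fun m Q ⟨P, p, l⟩ => ?_, fun m => ?_⟩, fun φ e => ?_,
    fun φ => ?_, fun e => ?_⟩
  · induction j using Fin.addCases with
    | left j => simpa using cx.ne j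
    | right j => simpa using (eig n0 h' (b1 j)).1
  · have := (sp_le (M := fun e => Q.sub ((e ⬝ᵥ D' Q : ℤ) : ℝ)) (fun a b => by
      rw [add_dotProduct, Int.cast_add]
      exact Cf.Ds.sub_mul Q a b) (.inr (by simp)) (fun j => .inr (by
        induction j using Fin.addCases with
        | left j =>
          rw [Fin.append_left, Fin.append_left, Function.comp, o P p Q l, hD P p Q l]
          exact_mod_cast (cx.sec _ _ (cx.ne j)).1 (gen_sp s a j) P p
        | right j => simp [m0 Q ⟨P, p, l⟩ _ (b1 j)])) e m).resolve_left φ0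
    exact_mod_cast this
  · refine dec hS n0 h' (V := ⨅ Q ∈ up F T, Q.sub ((e ⬝ᵥ D' Q : ℤ) : ℝ)) (fun τ ψ v => ?_)
      (fun μ c x v => ?_) ?_
    · simp only [Submodule.mem_iInf] at v ⊢
      rintro Q ⟨P, p, l⟩
      obtain ⟨Q', u1, u2⟩ := Cf.Ds.cj (τ.restrictScalars ℂ) Q
      have l' : Lies (algebraMap L F) Q' P := fun x => (l x).trans (by
        rw [u1]
        exact Iff.of_eq (congrArg (· ∈ Q.ring) (τ.commutes x).symm))
      refine (v Q' ⟨P, p, l'⟩).imp (fun z => by rw [z, map_zero]) fun z => ?_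
      rwa [u2, hD P p Q' l', ← hD P p Q l] at z
    · by_cases x0 : x = 0
      · simp [x0]
      simp only [Submodule.mem_iInf] at v
      rw [Algebra.smul_def] at v ⊢
      have μ0 := (eig n0 h' c).1
      have := sp_mul (sp_up β ((cx.sec e x x0).2 fun P p => ?_)) (sp_mon (s := s) (a := a) c)
      · rwa [add_zero] at this
      obtain ⟨Q, l⟩ := Pb.up_alg hF P
      have := (v Q ⟨P, p, l⟩).resolve_left (mul_ne_zero ((map_ne_zero _).2 x0) μ0)
      rw [Pl.ord_mul _ ((map_ne_zero _).2 x0) μ0, m0 Q ⟨P, p, l⟩ μ c, add_zero, o P p Q l,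
        hD P p Q l] at this
      exact_mod_cast this
    · simp only [Submodule.mem_iInf]
      exact fun Q q => .inr (by exact_mod_cast m Q q)
  · refine (((f1 φ).union (f1 φ⁻¹)).union (fu (cx.fin 0 e))).subset fun Q ⟨⟨P, p, l⟩, q⟩ =>
      by_contra fun z => q ?_
    rw [Pl.ord_unit _ (by_contra fun w => z (.inl (.inl ⟨⟨P, p, l⟩, w⟩)))
      (by_contra fun w => z (.inl (.inr ⟨⟨P, p, l⟩, w⟩))), hD P p Q l]
    exact by_contra fun w => z (.inr ⟨P, ⟨p, by simpa using w⟩, l⟩)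
  · induction (hS.ge trivial : φ ∈ Algebra.adjoin L (range β)) using Algebra.adjoin_induction with
    | mem _ b =>
      obtain ⟨j, rfl⟩ := b
      exact ⟨0, _, sp_mon (b1 j), 1, one_sp _ _, one_ne_zero, (div_one _).symm⟩
    | algebraMap x =>
      obtain ⟨e, b, p, c, q, c0, rfl⟩ := cx.fr0 x
      exact ⟨e, _, sp_up β p, _, sp_up β q, (map_ne_zero _).2 c0, map_div₀ _ _ _⟩
    | add x y _ _ p q =>
      obtain ⟨e, b, p1, c, p2, c0, rfl⟩ := p
      obtain ⟨e', b', q1, c', q2, c0', rfl⟩ := q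
      exact ⟨e + e', _, add_mem (sp_mul p1 q2) (sp_mul p2 q1), _, sp_mul p2 q2, mul_ne_zero c0 c0',
        div_add_div _ _ c0 c0'⟩
    | mul x y _ _ p q =>
      obtain ⟨e, b, p1, c, p2, c0, rfl⟩ := p
      obtain ⟨e', b', q1, c', q2, c0', rfl⟩ := q
      exact ⟨e + e', _, sp_mul p1 q1, _, sp_mul p2 q2, mul_ne_zero c0 c0', div_mul_div_comm _ _ _ _⟩
  · obtain ⟨e', b, p, c, q, b0, c0⟩ := cx.fr1 e
    exact ⟨e', _, sp_up β p, _, sp_up β q, (map_ne_zero _).2 b0, (map_ne_zero _).2 c0⟩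

end Vale.Agent.P283R.Uq.K93
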