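import Vale.Agent.P283R.Uq.Kxs93
import Vale.Agent.P283R.Uq.Bch93
import Vale.Agent.P283R.Uq.Lcx18
import Vale.Agent.P283R.Uq.Loc79

/-!
# P283R, block UQ: the extension by roots, the assembly
-/

open Set

noncomputable section

namespace Vale.Agent.P283R.Uq

open Vale.Agent.P287D Vale.Agent.P297Z Vale.Agent.P283M Vale.Agent.P283R.Cx
open Vale.Agent.P283R.Lx (Nz)
open Vale.Agent.P283R.Tq (Cj up)
open Lx.G3 (sp_le gen_sp)
open Lx.O15 (one_sp nz_mul not_nz)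
open H.Hc (Kf mem_Kf fix_val)

theorem K93.rg {F : Type} [Field F] [Algebra ℂ F] {τ : F ≃ₐ[ℂ] F} {Q Q' : Pl F} (z : Cj τ Q Q')
    (y : F) : τ y ∈ Q.ring ↔ y ∈ Q'.ring := by
  by_cases y0 : y = 0
  · simp [y0]
  · rw [← Pl.ord_nonneg_iff _ y0, ← Pl.ord_nonneg_iff _ ((map_ne_zero τ).2 y0), z y]

/-- the stabiliser of a point -/
def K93.St {F : Type} [Field F] [Algebra ℂ F] (G : Subgroup (F ≃ₐ[ℂ] F)) (A : Subalgebra ℂ F)
    (m : Ideal A) : Subgroup (F ≃ₐ[ℂ] F) where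
  carrier := {τ | τ ∈ G ∧ ∀ x, Nz A m x ↔ Nz A m (τ x)}
  one_mem' := ⟨one_mem _, fun _ => Iff.rfl⟩
  mul_mem' := fun a b => ⟨mul_mem a.1 b.1, fun x => (b.2 x).trans (a.2 _)⟩
  inv_mem' := fun {τ} a => ⟨inv_mem a.1, fun x => by
    rw [a.2 (τ⁻¹ x)]
    exact Iff.of_eq (congrArg _ (τ.apply_symm_apply x).symm)⟩

open K93 in
/-- **KX** from the pieces -/
theorem kxr93 (pts : PTS) (dns : DNS) (trs : TRS) : KX := by
  intro L _ _ d k N T D s a A m G π rw r n γ c n0 hγ fγ hc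
  classical
  have fG := rw.gp.fin
  have pr := rw.max.isPrime
  obtain ⟨F, _, _, _, _, t1, t2, t3, G', ρ, hF, fd, fG', fx, su, cm, ex, hS⟩ :=
    kum (K := Kf G) rw.ff (fun φ =>
      ⟨fun h => ⟨⟨φ, mem_Kf.2 h⟩, rfl⟩, fun ⟨x, h⟩ => h ▸ fix_val x⟩) c n0
  obtain ⟨S, eS⟩ : ∃ S, S = {β : F | ∃ σ ∈ G, ∃ j, β ^ n = algebraMap L F (σ (c j))} := ⟨_, rfl⟩
  have fS : S.Finite := (finite_iUnion fun σ : G => finite_iUnion fun j =>
    (Polynomial.nthRoots n (algebraMap L F (σ.1 (c j)))).toFinset.finite_toSet).subset (by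
      rw [eS]
      rintro β ⟨σ, b, j, e⟩
      exact mem_iUnion₂.2 ⟨⟨σ, b⟩, j, by simpa [Polynomial.mem_nthRoots n0] using e⟩)
  obtain ⟨r', β', -, hβ⟩ := fS.fin_param
  rw [← eS, ← hβ] at hS
  have γ0 : γ ≠ 0 := fun z => (not_nz (zero_mem A)).2 m.zero_mem (z ▸ hγ)
  have γs := (rw.zero γ).1 hγ.1
  have cx := lcx18 L k N T D s a γ rw.cox γs γ0
  have st : ∀ σ ∈ G, ∀ P ∈ Tz T γ, ∀ P', Cj σ P P' → P' ∈ Tz T γ := fun σ x P y P' z =>
    ⟨rw.gp.stT σ x P y.1 P' z, by rw [z, fγ σ x, y.2]⟩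
  have un : ∀ j, ∃ x : L, x ≠ 0 ∧ (∀ P ∈ Tz T γ, P.ord x = 0) ∧ β' j ^ n = algebraMap L F x :=
    fun j => by
      obtain ⟨σ, b, j, e⟩ := (hβ.trans eS).le ⟨j, rfl⟩
      refine ⟨_, (map_ne_zero σ).2 (hc j).1.1, fun P p => ?_, e⟩
      obtain ⟨P', -, z⟩ := Cf.Ds.cj σ P
      simpa [z] using (hc j).1.2 P' (st σ b P p P' z)
  have nzc : ∀ β ∈ S, ∃ (x : L) (ν : ℕ), Nz A m (γ ^ ν * x) ∧ β ^ n = algebraMap L F x :=
    fun β b => by
      obtain ⟨σ, b, j, e⟩ := eS.le b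
      obtain ⟨ν, p, q⟩ := (hc j).2
      obtain ⟨u, v⟩ := L79.nz_pow pr hγ ν
      have : Nz A m (γ ^ ν * c j) := by
        rw [show γ ^ ν * c j = γ ^ ν * (c j - 1) + γ ^ ν by ring]
        exact ⟨add_mem p u, fun w => v ((m.add_mem_iff_right ((not_nz p).1 q)).1 w)⟩
      have := rw.gp.stm σ b _ this
      rw [map_mul, map_pow, fγ σ b] at this
      exact ⟨_, ν, this, e⟩
  have g1 := gg fx
  have g2 := IsGaloisGroup.isGalois G' (Kf G) F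
  have g4 := IsGalois.tower_top_of_isGalois (Kf G) L F
  choose dn hdn using Pb.down rw.ff hF
  have hD : ∀ P Q, Lies (algebraMap L F) Q P → (D ∘ dn) Q = D P := fun P Q l =>
    congrArg D ((hdn Q).uniq l)
  have cx' := cox cx rw.ff hF hS n0 un fun P _ => hD P
  have u1 : ∀ P ∈ Tz T γ, ∀ Q, Lies (algebraMap L F) Q P → Q.ord (algebraMap L F P.t) = 1 :=
    fun P p Q l => unr hS n0 l (forall_mem_range.2 fun j =>
      let ⟨x, a, b, c⟩ := un j; ⟨x, a, b P p, c⟩)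
  have up1 : ∀ {e x}, x ∈ Sp (Fin.cons γ⁻¹ s : Fin (N + 1) → L) (Fin.cons 0 a) e → _ := sp_up β'
  have mo1 : ∀ β ∈ S, β ∈ Sp (Fin.append (algebraMap L F ∘ (Fin.cons γ⁻¹ s : Fin (N + 1) → L)) β')
      (Fin.append (Fin.cons 0 a) 0) 0 := fun β b => sp_mon (Submonoid.subset_closure (hβ.ge b))
  have le1 : ∀ e, Sp s a e ≤ Sp (Fin.cons γ⁻¹ s : Fin (N + 1) → L) (Fin.cons 0 a) e :=
    sp_le sp_mul (one_sp _ _) fun j => gen_sp (Fin.cons γ⁻¹ s : Fin (N + 1) → L) (Fin.cons 0 a) j.succ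
  obtain ⟨B, eB⟩ : ∃ B : Subalgebra ℂ F,
    B = Algebra.adjoin ℂ (insert (algebraMap L F γ⁻¹) (algebraMap L F '' A ∪ S)) := ⟨_, rfl⟩
  have bB : ∀ x ∈ insert (algebraMap L F γ⁻¹) (algebraMap L F '' A ∪ S), x ∈ B := fun x h =>
    eB ▸ Algebra.subset_adjoin h
  have gen := sp_le (s := Fin.append (algebraMap L F ∘ (Fin.cons γ⁻¹ s : Fin (N + 1) → L)) β')
    (a := Fin.append (Fin.cons 0 a) 0) (M := fun e => Submodule.span ℂ
      {x | ∃ μ ∈ B, ∃ φ ∈ Sp s a e, x = μ * algebraMap L F φ}) (fun {e e' x y} p q => by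
      have := Submodule.mul_mem_mul p q
      rw [Submodule.span_mul_span] at this
      refine Submodule.span_mono ?_ this
      rintro _ ⟨_, ⟨μ, a1, φ, a2, rfl⟩, _, ⟨μ', b1, φ', b2, rfl⟩, rfl⟩
      exact ⟨_, mul_mem a1 b1, _, sp_mul a2 b2, by rw [map_mul]; ring⟩)
    (Submodule.subset_span ⟨1, one_mem _, 1, one_sp _ _, by simp⟩) fun j => by
      refine Submodule.subset_span ?_
      induction j using Fin.addCases with
      | left j =>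
        rw [Fin.append_left, Fin.append_left]
        induction j using Fin.cases with
        | zero => exact ⟨_, bB _ (.inl rfl), 1, one_sp _ _, by simp⟩
        | succ j => exact ⟨1, one_mem _, _, gen_sp s a j, by simp⟩
      | right j =>
        rw [Fin.append_right, Fin.append_right]
        exact ⟨_, bB _ (.inr (.inr (hβ.le ⟨j, rfl⟩))), 1, one_sp _ _, by simp⟩
  generalize Fin.append (algebraMap L F ∘ (Fin.cons γ⁻¹ s : Fin (N + 1) → L)) β' = s' at *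
  generalize Fin.append (Fin.cons 0 a : Fin (N + 1) → Fin k → ℤ) 0 = a' at *
  have ze : ∀ x, x ∈ B ↔ x ∈ Sp s' a' 0 := fun x => ⟨fun h => (eB.le.trans
    (Algebra.adjoin_le (S := L79.Az s' a') (by
      rintro _ (rfl | ⟨y, b, rfl⟩ | b)
      exacts [up1 (gen_sp _ _ 0), up1 (le1 _ ((rw.zero y).1 b)), mo1 _ b])) h :),
    fun h => (Submodule.span_le (p := B.toSubmodule)).2 (by
      rintro _ ⟨μ, a1, φ, a2, rfl⟩
      exact B.mul_mem a1 (bB _ (.inr (.inl ⟨φ, (rw.zero φ).2 a2, rfl⟩)))) (gen 0 h)⟩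
  have st' : ∀ τ : G', ∀ Q ∈ up F (Tz T γ), ∀ Q', Cj τ.1 Q Q' → Q' ∈ up F (Tz T γ) ∧
      ∀ e, e ⬝ᵥ (D ∘ dn) Q' = π (ρ τ) e ⬝ᵥ (D ∘ dn) Q := fun τ Q ⟨P, p, l⟩ Q' z => by
    obtain ⟨P', z1, z2⟩ := Cf.Ds.cj (ρ τ).1 P
    have l' : Lies (algebraMap L F) Q' P' := fun x =>
      (z1 x).trans ((l _).trans (by rw [← cm, rg z]))
    refine ⟨⟨P', st _ (ρ τ).2 P p P' z2, l'⟩, fun e => ?_⟩
    rw [hD P Q l, hD P' Q' l', (rw.pm.rel _ (ρ τ).2 e).2 P p.1 P' z2]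
    simp
  have sb : Stab G' B := fun τ b x h => by
    by_cases x0 : x = 0
    · simp [x0]
    refine (ze _).2 ((cx'.sec 0 _ ((map_ne_zero τ).2 x0)).2 fun Q q => ?_)
    obtain ⟨Q', -, z⟩ := Cf.Ds.cj τ Q
    simpa [z] using (cx'.sec 0 _ x0).1 ((ze _).1 h) Q' (st' ⟨τ, b⟩ Q q Q' z).1
  obtain ⟨m', mx, nz, vl⟩ := pts L F A m B γ S n rw.fg rw.max hγ n0 nzc eB
  have pr' := mx.isPrime
  have iA : ∀ x ∈ A, algebraMap L F x ∈ B := fun x h => bB _ (.inr (.inl ⟨x, h, rfl⟩))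
  have ng : ∀ ν : ℕ, Nz B m' (algebraMap L F (γ ^ ν)) := fun ν =>
    (nz _ (pow_mem hγ.1 ν)).1 (L79.nz_pow pr hγ ν)
  have rt : ∀ j, ∃ β : B, (β : F) ^ n = algebraMap L F (c j) ∧ β - 1 ∈ m' := fun j => by
    obtain ⟨β, e⟩ := ex 1 (one_mem _) j
    have b : β ∈ B := bB _ (.inr (.inr (eS.ge ⟨1, one_mem _, j, e⟩)))
    obtain ⟨z, v⟩ := vl ⟨β, b⟩
    obtain ⟨ν, p, q⟩ := (hc j).2
    have a1 : (⟨β, b⟩ : B) ^ n - 1 ∈ m' := (pr'.mem_or_mem (x := ⟨_, (ng ν).1⟩) (by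
      convert (not_nz (iA _ p)).1 (mt (nz _ p).2 q) using 1
      refine Subtype.ext ?_
      push_cast
      rw [e]
      simp)).resolve_left (ng ν).2
    have a2 : algebraMap ℂ B (z ^ n - 1) ∈ m' := by
      have := m'.sub_mem a1 (Ideal.mem_of_dvd _ (sub_dvd_pow_sub_pow _ _ n) v)
      rwa [sub_sub_sub_cancel_left, ← map_pow, ← map_one (algebraMap ℂ B), ← map_sub] at this
    have a3 : z ^ n = 1 := sub_eq_zero.1 (by_contra fun w => mx.ne_top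
      (m'.eq_top_of_isUnit_mem a2 ((IsUnit.mk0 _ w).map _)))
    have z0 : z ≠ 0 := fun w => by simp [w, n0.ne'] at a3
    refine ⟨z⁻¹ • ⟨β, b⟩, ?_, ?_⟩
    · rw [Subalgebra.coe_smul, smul_pow, inv_pow, a3, inv_one, one_smul]
      exact e
    · have := m'.mul_mem_left (algebraMap ℂ B z⁻¹) v
      rwa [mul_sub, ← map_mul, inv_mul_cancel₀ z0, map_one, ← Algebra.smul_def] at this
  choose β hb using rt
  have le : St G' B m' ≤ G' := fun _ h => h.1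
  refine ⟨F, inferInstance, inferInstance, inferInstance, t2, _, up F (Tz T γ), D ∘ dn, s', a', B,
    m', G', St G' B m', fun τ => if h : τ ∈ G' then π (ρ ⟨τ, h⟩) else 0, β,
    ⟨⟨hF, cx', ze, ?_, mx, ⟨Finite.of_injective _ (Subgroup.inclusion_injective le),
      fun τ b Q q Q' z => (st' ⟨τ, b.1⟩ Q q Q' z).1, fun τ b x => (b.2 x).1⟩,
      fun τ b e => ⟨one_ne_zero, fun Q q Q' z => ?_⟩, fun e => ?_, fun τ b τ' b' e => ?_⟩,
      fG', le, fun φ => (fx φ).trans ⟨?_, ?_⟩, sb, fun _ => Iff.rfl, fun Q ⟨P, p, l⟩ P' l' => ?_,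
      fun τ b => ⟨_, (ρ ⟨τ, b.1⟩).2, cm ⟨τ, b.1⟩, dif_pos b.1⟩, fun σ b => ?_,
      fun x h => ⟨iA x h, nz x h⟩, gen,
      dns L F A m B γ S n rw.fg rw.max hγ n0 nzc eB m' mx nz vl⟩, hb⟩
  · rw [eB, insert_eq, Algebra.adjoin_union, Algebra.adjoin_union]
    refine (Subalgebra.fg_def.2 ⟨_, finite_singleton _, rfl⟩).sup
      (.sup ?_ (Subalgebra.fg_def.2 ⟨_, fS, rfl⟩))
    exact (Algebra.adjoin_eq (A.map (IsScalarTower.toAlgHom ℂ L F))).symm ▸ rw.fg.map _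
  · simp only [dif_pos b.1]
    rw [(st' ⟨τ, b.1⟩ Q q Q' z).2]
    simp
  · simp only [dif_pos G'.one_mem]
    rw [show (⟨1, G'.one_mem⟩ : G') = 1 from rfl, map_one]
    exact rw.pm.one e
  · simp only [dif_pos b.1, dif_pos b'.1, dif_pos (G'.mul_mem b.1 b'.1)]
    rw [show (⟨τ * τ', G'.mul_mem b.1 b'.1⟩ : G') = ⟨τ, b.1⟩ * ⟨τ', b'.1⟩ from rfl, map_mul]
    exact rw.pm.cmp _ (ρ _).2 _ (ρ _).2 e
  · rintro ⟨x, rfl⟩
    exact ⟨x, fix_val x, IsScalarTower.algebraMap_apply _ L F x⟩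
  · rintro ⟨x, h, rfl⟩
    exact ⟨⟨x, mem_Kf.2 h⟩, IsScalarTower.algebraMap_apply _ L F _⟩
  · obtain rfl := l.uniq l'
    exact ⟨u1 P p Q l, hD P Q l⟩
  obtain ⟨τ, e⟩ := su ⟨σ, b⟩
  have c1 : ∀ x, τ.1 (algebraMap L F x) = algebraMap L F (σ x) := fun x => by rw [cm, e]
  obtain ⟨_, ⟨h, h1, rfl⟩, h2⟩ := trs F B m' (ρ.ker.map G'.subtype) τ mx
    (Finite.of_injective _ (Subgroup.inclusion_injective (Subgroup.map_subtype_le _)))
    (fun g x => sb g (Subgroup.map_subtype_le _ x))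
    (fun x => ⟨sb _ τ.2 x, fun y => τ.1.symm_apply_apply x ▸ sb _ (inv_mem τ.2) _ y⟩)
    fun x f z => by
      obtain ⟨y, rfl⟩ := (IsGalois.mem_range_algebraMap_iff_fixed (F := L) x).2 fun φ => by
        obtain ⟨g, w⟩ := (IsGaloisGroup.mulEquivAlgEquiv G' (Kf G) F).surjective
          (φ.restrictScalars (Kf G))
        have w' : ∀ y, g.1 y = φ y := fun y => DFunLike.congr_fun w y
        rw [← w']
        refine f _ ⟨g, Subtype.ext (AlgEquiv.ext fun y => (algebraMap L F).injective ?_), rfl⟩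
        rw [← cm, w', φ.commutes]
        rfl
      have y0 : y ≠ 0 := fun w => (not_nz (zero_mem B)).2 m'.zero_mem (by simpa [w] using z)
      obtain ⟨ν, p⟩ := (L79.sp_iff rw.cox cx γs γ0).1 ((cx.sec 0 y y0).2 fun P p => by
        obtain ⟨Q, l⟩ := Pb.up_alg hF P
        have := (cx'.sec 0 _ ((map_ne_zero _).2 y0)).1 ((ze _).1 z.1) Q ⟨P, p, l⟩
        rw [l.ord, u1 P p Q l, one_mul] at this
        simpa using this)
      have a1 := rw.gp.stm σ b _ ((nz _ ((rw.zero _).2 p)).2 (map_mul (algebraMap L F) _ _ ▸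
        nz_mul pr' (ng ν) z))
      have a2 := (nz _ a1.1).1 a1
      rw [map_mul, map_pow, fγ σ b, map_mul, ← c1] at a2
      exact ⟨sb _ τ.2 _ z.1, fun w => a2.2 (m'.mul_mem_left ⟨_, (ng ν).1⟩ w)⟩
  refine ⟨τ * h, ⟨mul_mem τ.2 h.2, h2⟩, fun x => ?_⟩
  rw [AlgEquiv.mul_apply, cm h, show ρ h = 1 from h1, c1]
  rfl

end Vale.Agent.P283R.Uq
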