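import Vale.Agent.P283R.Uq.Fam48

/-!
# P283R, block UQ: the scheme side
-/

open Set CategoryTheory AlgebraicGeometry

noncomputable section

namespace Vale.Agent.P283R.Uq

open Vale.Agent.P289 (Pt St toRat DForm dimension)
open Vale.Agent.P287D Vale.Agent.P283M.Stm Vale.Agent.P283M.Stm.Var Vale.Agent.P297Z
open Vale.Agent.P283M Vale.Agent.P283M.Br Vale.Agent.P283R.Sch Vale.Agent.P283R.Cox
open Vale.Agent.P283R.Gl (pq pq_is pq_ord)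
open Vale.Agent.P283R.Tq (Cj Gp Pw bas48)

theorem nbh48 {W Z : Var} (κ : W.X ⟶ Z.X) [IsFinite κ] {z : Pt Z.X} {w : Pt W.X}
    (hw : ∀ w' : Pt W.X, w'.map κ = z ↔ w' = w) {V₁ : W.X.Opens} (h : w ∈ V₁) :
    ∃ V : Z.X.Opens, IsAffineOpen V ∧ z ∈ V ∧ κ ⁻¹ᵁ V ≤ V₁ := by
  have c : IsClosed (κ '' (V₁ : Set W.X)ᶜ) := κ.isClosedMap _ V₁.isOpen.isClosed_compl
  obtain ⟨_, ⟨V, hV, rfl⟩, zV, le⟩ := Z.X.isBasis_affineOpens.exists_subset_of_mem_open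
    (a := z) (u := (κ '' (V₁ : Set W.X)ᶜ)ᶜ) (fun ⟨x, a, b⟩ => a (((hw x).1 b).symm ▸ h))
    c.isOpen_compl
  exact ⟨V, hV, zV, fun x hx => by_contra fun n => le hx ⟨x, n, rfl⟩⟩

theorem core48 (fc : FCE) (etg : ETG) (quo : Tq.QUO) (n q l : ℕ) {ε : ℝ} (q0 : 0 < q)
    (hε : 0 < ε) : ∃ M : ℕ, 1 ≤ M ∧ ∀ (X Y W Z : Var) (f : X.X ⟶ Z.X) (ω : DForm ℂ X.K (n + 1))
      (B : X.QDiv) (z : Pt Z.X) (π : Y.X ⟶ X.X) (g : Y.X ⟶ W.X) (κ : W.X ⟶ Z.X) (w : Pt W.X)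
      (ι : X.K →+* Y.K) (G : Subgroup (Y.K ≃ₐ[ℂ] Y.K)), dimension X.str = (n + 1 : ℕ) →
      ω.Nonzero → Pair (ε ≤ ·) ⊤ ω B → Contraction f → IsClosed ({z} : Set (Pt Z.X)) →
      (∀ E, ∃ m : ℤ, q * B E = m) → FanoType f ω → NefOver f (-logCan ω B) → IsFinite π →
      Surjective π → π ≫ X.str = Y.str → Et.Pe π ι → Finite G →
      (∀ g, Fix G g ↔ ∃ a, ι a = g) →
      (∀ E : Y.PrimeDiv, ∃ y : X.PrimeDiv, E.1.map π = y.1 ∧ ∀ a, ord (ι a) E = ord a y) →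
      IsFinite κ → g ≫ κ = π ≫ f → (∀ w' : Pt W.X, w'.map κ = z ↔ w' = w) →
      Fr (n + 1) l g w → HasKltComplement f ω B M z := by
  classical
  obtain ⟨l₀, J, etg⟩ := etg (n + 1) l
  obtain ⟨M, M1, fc⟩ := fc l₀ J n q ε q0 hε
  refine ⟨q * M, Nat.mul_pos q0 M1, fun X Y W Z f ω B z π g κ w ι G hdim hω hB hf hz hq hF hn h1 h2
    h3 pe h4 h5 h6 hκ ec hw ⟨Ω₁, hfr⟩ => ?_⟩
  have hK := ffd X _ hdim
  let _ := ι.toAlgebra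
  obtain ⟨tw, hL, -, sT₀, -⟩ := quo X Y _ π ι G ⊤ hK h1 h2 h3 pe h4 h5 h6
  obtain ⟨j, j0, fr⟩ := frm X _ hK ω hω
  choose c hc using hq
  let D₀ : X.PrimeDiv →₀ ℤ := Finsupp.ofSupportFinite _ (P283R.Br.form_fin hK fr)
  let D₁ : X.PrimeDiv →₀ ℤ := Finsupp.ofSupportFinite c (B.support.finite_toSet.subset fun E e =>
    Finsupp.mem_support_iff.2 fun z => e (by simpa [z] using (hc E).symm))
  have d0 : ∀ E, D₀ E = formOrd ω (RingEquiv.refl X.K) E := fun _ => rfl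
  have d1 : ∀ E, D₁ E = c E := fun _ => rfl
  let D' : Fin 2 → X.PrimeDiv →₀ ℤ := ![D₀, D₁]
  have h6' := h6
  choose dn dn1 dn2 using h6'
  have hd : ∀ E, Lies (algebraMap X.K Y.K) (pq E) (pq (dn E)) := fun E a =>
    Tq.Q10.mem_iff (map_eq_zero ι).symm (by rw [← pq_ord, ← pq_ord, ← dn2]; rfl)
  let Φ : Set X.PrimeDiv := dn '' Ω₁ ∪ ⋃ i, (D' i).support
  have fΦ : Φ.Finite := (Ω₁.finite_toSet.image dn).union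
    (finite_iUnion fun i => (D' i).support.finite_toSet)
  have : FiniteDimensional X.K Y.K := Pb.fin_of_ff hK hL
  have fΩ : {E | dn E ∈ Φ}.Finite :=
    ((fΦ.biUnion fun F _ => Pb.fin_above (K' := Y.K) (pq F)).preimage pq_inj.injOn).subset
      fun E e => mem_biUnion e (hd E)
  obtain ⟨V₁, w₁, hfr⟩ := hfr fΩ.toFinset fun E e => fΩ.mem_toFinset.2 (.inl ⟨E, e, rfl⟩)
  obtain ⟨V, hV, zV, le₁⟩ := nbh48 κ hw w₁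
  obtain ⟨-, -, qt, sT, tr⟩ := quo X Y _ π ι G (f ⁻¹ᵁ V) hK h1 h2 h3 pe h4 h5 h6
  obtain ⟨k, E, π', w', k2', e1, e2, pm, pw, zw⟩ := fam48 (G := G) dn hd
    (fun σ hσ x => (h5 _).2 ⟨x, rfl⟩ σ hσ)
    (fun σ hσ E P' cj => let ⟨E', _, e⟩ := sT₀ σ hσ _ ⟨E, trivial, rfl⟩ P' cj; ⟨E', e⟩)
    fΩ.toFinset Φ (fun _ => fΩ.mem_toFinset) D'
    (fun i F h => .inr (mem_iUnion.2 ⟨i, Finsupp.mem_support_iff.2 h⟩))
    (Pw (π ⁻¹ᵁ (f ⁻¹ᵁ V))) fun P ⟨E, _, e⟩ => ⟨E, e⟩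
  obtain ⟨N, s, a, A, m, cox, zero, fg, mx, hA, hN', eb⟩ := hfr (κ ⁻¹ᵁ V) le₁ (hV.preimage κ)
    (show w.map κ ∈ V from ((hw w).2 rfl).symm ▸ zV) k E k2' e1 e2
  have eo : g ⁻¹ᵁ (κ ⁻¹ᵁ V) = π ⁻¹ᵁ (f ⁻¹ᵁ V) := congrArg (· ⁻¹ᵁ V) ec
  rw [eo] at cox hA
  have hN : ∀ x : Pt Y.X, (x.map π).map f = z → ∀ g, Lx.Nz A m g ↔ g ∈ A ∧ UnAt g x :=
    fun x hx => hN' x ((hw _).1 ((congrArg (fun t : Y.X ⟶ Z.X => t x) ec).trans hx))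
  obtain ⟨x₀, e₀⟩ : ∃ x : Pt Y.X, (x.map π).map f = z := by
    obtain ⟨x₁, e₁⟩ := hf.2.2.1.surj z
    obtain ⟨x₀, rfl⟩ := h2.surj x₁
    exact ⟨x₀, e₁⟩
  have iV : ∀ x : Pt Y.X, (x.map π).map f = z → x ∈ π ⁻¹ᵁ (f ⁻¹ᵁ V) := fun x hx =>
    show (x.map π).map f ∈ V from hx ▸ zV
  have gp : Gp (Pw (π ⁻¹ᵁ (f ⁻¹ᵁ V))) A m G := ⟨h4, sT, fun σ hσ g hg => by
    obtain ⟨x', e', w⟩ := tr σ hσ x₀
    refine (hN x₀ e₀ _).2 ⟨(hA _).2 fun x hx => ?_,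
      (w g).2 ((hN x' (show (x'.map π).map f = z from e' ▸ e₀) g).1 hg).2⟩
    obtain ⟨x'', e'', w'⟩ := tr σ hσ x
    exact (w' g).1 ((hA g).1 hg.1 x'' (show x''.map π ∈ f ⁻¹ᵁ V from e'' ▸ hx))⟩
  have o : ∀ E : X.PrimeDiv, ord 1 E = 0 := fun E => (pq_ord E 1).trans (Pl.ord_one _)
  have k2 : ∀ W, InSpan W D' (logCan ω 0) := fun W => ⟨![1, 0], 1, one_ne_zero, fun E _ => by
    rw [o, logCan]
    simp [D', d0]⟩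
  obtain ⟨γ, hγ, out⟩ := etg Y.K k N _ _ s a A m G π' X.K (Pw (f ⁻¹ᵁ V)) 2
    (fun P i => Cox.up (D' i) P) w' (-((M : ℤ) • ![(q : ℤ), 1])) ⟨hL, cox, zero, fg, mx, gp, pm⟩ eb
    qt pw zw
  have γ0 : γ ≠ 0 := fun g0 => hγ.2 (by
    subst g0
    exact (Subtype.ext (map_zero _) : (⟨_, hγ.1⟩ : A) = 0) ▸ m.zero_mem)
  have rg : ∀ x ∈ f ⁻¹ᵁ V, RegAt γ x := fun x hx => har X γ x fun E hE => by
    obtain ⟨P, l⟩ := Pb.up_alg hL (pq E)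
    obtain ⟨E', c', rfl⟩ := (qt.lies P).2 ⟨_, ⟨E, hE.mem_open (f ⁻¹ᵁ V).isOpen hx, rfl⟩, l⟩
    rw [pq_ord]
    exact (Pl.ord_nonneg_iff _ γ0).2 ((l γ).2 ((pq_is E' _).2 ((hA _).1 hγ.1 _ c')))
  obtain ⟨U, hU, le, bw⟩ := bas48 hf hV (iV x₀ e₀) rg
  have zU : z ∈ U := e₀ ▸ (bw _ (iV x₀ e₀)).2 ((pe.un (rg _ (iV x₀ e₀))).1 ((hN x₀ e₀ _).1 hγ).2)
  obtain ⟨u, bs⟩ := basV hf hz hU zU
  obtain ⟨Λ, Γ, Γ', dt, on, b, b', nf, e⟩ := dataW hK hω hB hf hF bs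
  obtain ⟨N', g1⟩ := schU Cx.ut hdim hω hf hF hz hU zU D'
  obtain ⟨s₁, a₁, π₁, ci⟩ := cg_of bs on g1
  have s1 : Cox.Sp n u Λ _ (cn X.K (n + 1)) := sp_of bs on (k2 _) j0 fun P E _ dm => by
    rw [← fr X _ E P (is_of_dom dm) (ord_eq dm), logCan]
    simp
  have s2 : Cx.Eqv (Cx.Tt n u Λ) (fun P i => Cox.up (D' i) P) ((q : ℝ) • Γ) (j ^ q)⁻¹
      ![(q : ℤ), 1] := ⟨inv_ne_zero (pow_ne_zero q j0), fun P t => by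
    obtain ⟨x, hx, dm⟩ := bs.ctr P.ring P.con t.1
    obtain ⟨E, rfl⟩ : ∃ E : X.PrimeDiv, E.1 = x := ⟨⟨x, (on P x hx dm).1 t.2⟩, rfl⟩
    have h4 := b' P E hx dm
    have h5 := fr X _ E P (is_of_dom dm) (ord_eq dm)
    have h6 := congrArg (Rat.cast : ℚ → ℝ) (hc E)
    rw [dsc, Pi.sub_apply] at h4
    rw [Pl.ord_inv, Pl.ord_pow, Pi.smul_apply, smul_eq_mul]
    simp only [dotProduct, Fin.sum_univ_two, up_eq _ dm, D', Matrix.cons_val_zero,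
      Matrix.cons_val_one, d0, d1]
    push_cast at h6 ⊢
    rw [h5]
    linear_combination h6 - q * h4⟩
  have s3 : ∀ P, Ov u P → On n Λ P → dsc (n + 1) Γ P ≤ 0 :=
    (all_iff bs on (p := fun E => 0 ≤ B E) fun P E c dm => by
      rw [b' P E c dm, neg_nonpos, Rat.cast_nonneg]).1 fun E _ => hB.1 E trivial
  obtain ⟨s₂, a₂, π₂, h, s0⟩ := Cx.Gn.shift ci
  have eT : Cx.Tt n u Λ = Tz (Pw (f ⁻¹ᵁ V)) γ := Set.ext fun P => by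
    constructor
    · intro t
      obtain ⟨x, hx, dm⟩ := bs.ctr P.ring P.con t.1
      obtain ⟨E, rfl⟩ : ∃ E : X.PrimeDiv, E.1 = x := ⟨⟨x, (on P x hx dm).1 t.2⟩, rfl⟩
      exact ⟨⟨E, le hx, P283R.Br.pl_eq (pq_is E) dm⟩,
        (Lx.un_ord dm γ0).1 ((bw _ (le hx)).1 hx)⟩
    · rintro ⟨⟨E, c, rfl⟩, w⟩
      have dm := (pq_is E).dom
      have c' := (bw _ c).2 ((Lx.un_ord dm γ0).2 w)
      exact ⟨fun a ha => (dm a (bs.reg a ha _ c')).1, (on _ _ c' dm).2 E.2⟩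
  exact e _ (Nat.mul_pos q0 M1) (fc X.K u Λ Γ Γ' 2 N' _ s₂ a₂ _ _ dt
    (Cx.Gn.coxY Cx.big dt h s1 s0) (Cx.Ad.eqv s1) s2 (fun P t => s3 P t.1 t.2) b (nf hn)
    (eT ▸ out))

end Vale.Agent.P283R.Uq

namespace Vale.Agent.P283R.Uq

open Sl Sl.Var

/-- **TOP** -/
theorem top48 : TOP := by
  intro fc etg quo l C frc
  refine (On.den (C := fun q d _ _ f ω B z => (∀ E, ∃ m : ℤ, q * B.coeff E = m) ∧
    FanoType f ω ∧ NefOver f (-logCan ω B) ∧ QuotientOf (C d) f z) fun q hq => ?_).mono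
      fun _ _ _ _ _ _ _ h _ w => ⟨w, h⟩
  intro d hd ε hε R hR
  obtain ⟨n, rfl⟩ : ∃ n, d = n + 1 := ⟨d - 1, by omega⟩
  obtain ⟨M, M1, H⟩ := core48 fc etg quo n q (l (n + 1)) hq hε
  refine ⟨M, M1, fun X Z f ω B z a b c _ s t ⟨w, u1, u2, Y, W, π, g, κ, η, D, δ, p, fq, hκ, ec, hw,
    v1, v2, v3, v4, v5, v6, v7, v8⟩ => (has_iff f ω B _ z).2 ?_⟩
  obtain ⟨h1, h2, h3, ι, G, pe, ⟨h4, h5⟩, h6⟩ := fq.fin
  have cl : p.Closed := by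
    have := IsClosed.preimage κ.continuous t
    rwa [show κ ⁻¹' {z} = {p} from Set.ext hw] at this
  exact H X.o Y.o W.o Z.o f ω B z π g κ p ι G a b ((pair_iff _ _ ω B).1 c) s t w
    ((fanoType_iff f ω).1 u1) ((nefOver_iff f _).1 u2) h1 h2 h3 pe h4
    (fun g => ⟨fun e => (h5 g).1 e, fun e => (h5 g).2 e⟩) h6 hκ ec hw
    (frc _ δ Y W g η D p hd v3 v1 v2 v4 v5 v6 v7 cl v8)

end Vale.Agent.P283R.Uq
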