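import Vale.Agent.P283R.Uq.Act39
import Vale.Agent.P283R.Uq.Lam18
import Vale.Agent.P283R.Uq.Gal62
import Vale.Agent.P283R.Uq.Eigr71
import Vale.Agent.P283R.Uq.Nak40
import Vale.Agent.P283R.Uq.Rk90
import Vale.Agent.P283R.Uq.Icx95
import Vale.Agent.P283R.Uq.Stgr48
import Vale.Agent.P283R.Uq.Pnt27
import Vale.Agent.P283R.Uq.Lcx18
import Vale.Agent.P283R.Uq.Pre39
import Vale.Agent.P283R.Uq.Kxr93
import Vale.Agent.P283R.Uq.Pts17
import Vale.Agent.P283R.Uq.Den59
import Vale.Agent.P283R.Uq.Trs21
import Vale.Agent.P283R.Uq.Uur15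
import Vale.Agent.P283R.Uq.Emu33
import Vale.Agent.P283R.Uq.Nky21
import Vale.Agent.P283R.Uq.Opn27
import Vale.Agent.P283R.Uq.Qtf12
import Vale.Agent.P283R.Uq.Fce55
import Vale.Agent.P283R.Uq.Frm3
import Vale.Agent.P283R.Uq.Top48
import Vale.Agent.P283R.Uq.Etg23

/-!
# P283R, block UQ: bounded klt complements for finite quotients of data of low complexity
-/

namespace Vale.Agent.P283R

namespace Uq

/-- the core -/
theorem stg : STG := stgr48 act39 inv39 (galr62 act39 lam18 Tq.mink93) (eigr71 act39 lam18)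
  Tq.tau27 nak40 (rkr90 lam18) icx95 (domr90 lam18) Tq.trn59

/-- the extension by the roots -/
theorem kx : KX := kxr93 pts17 dns59 trs21

/-- the first stage -/
theorem etg : ETG := etgr23 lcx18 pre39 kx uur15 emu33 nky21 opn27 qtf12
  (pntr27 act39 Tq.tau27 nak40) stg

/-- the quotients of every class with bounded embedding dimension -/
theorem onu : ONU := top48 fce55 etg Tq.quo10

end Uq

namespace Sl

open Var

/-- **finite quotients of data of low complexity** -/
theorem onN_uq : OnN fun d _ _ f _ _ z =>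
    QuotientOf (d := d) (fun _ _ g η w => MldCx g η w) f z := Uq.onu _ _ Uq.frm3

end Sl

end Vale.Agent.P283R
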