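import Vale.Agent.P283R.Uq.Kxs93
import Mathlib.RingTheory.Valuation.LocalSubring

/-!
# P283R, block UQ: a point over the point
-/

open Set

noncomputable section

namespace Vale.Agent.P283R.Uq

open Vale.Agent.P283R.Lx (Nz)

namespace P4

theorem max_of {B : Type} [CommRing B] [Algebra ℂ B] {m' : Ideal B} (h : m' ≠ ⊤)
    (h1 : ∀ μ, ∃ c : ℂ, μ - algebraMap ℂ B c ∈ m') : m'.IsMaximal :=
  ⟨⟨h, fun I lt => by
    obtain ⟨x, x1, x2⟩ := SetLike.exists_of_lt lt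
    obtain ⟨c, hc⟩ := h1 x
    by_contra n
    have z : c = 0 := by_contra fun z => n (Ideal.eq_top_of_isUnit_mem _
      (by simpa using sub_mem x1 (lt.le hc)) ((IsUnit.mk0 c z).map (algebraMap ℂ B)))
    exact x2 (by simpa [z] using hc)⟩⟩

variable {F Γ : Type} [Field F] [Algebra ℂ F] [LinearOrderedCommGroupWithZero Γ]
  (v : Valuation F Γ) (hv : ∀ c : ℂ, v (algebraMap ℂ F c) ≤ 1)

include hv in
theorem le_one {x : F} {c : ℂ} (h : v (x - algebraMap ℂ F c) < 1) : v x ≤ 1 := by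
  simpa using v.map_add_le h.le (hv c)

/-- the elements with a value -/
def Vl : Subalgebra ℂ F where
  carrier := {x | ∃ c : ℂ, v (x - algebraMap ℂ F c) < 1}
  mul_mem' := by
    rintro x y ⟨c, p⟩ ⟨d, q⟩
    refine ⟨c * d, ?_⟩
    have := v.map_add_lt (x := (x - algebraMap ℂ F c) * y)
      (y := (y - algebraMap ℂ F d) * algebraMap ℂ F c)
      (by rw [map_mul]; exact mul_lt_one_of_lt_of_le p (le_one v hv q))
      (by rw [map_mul]; exact mul_lt_one_of_lt_of_le q (hv c))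
    convert this using 2
    rw [map_mul]
    ring
  add_mem' := by
    rintro x y ⟨c, p⟩ ⟨d, q⟩
    refine ⟨c + d, ?_⟩
    convert v.map_add_lt p q using 2
    rw [map_add]
    ring
  algebraMap_mem' c := ⟨c, by simp⟩

theorem root {β : F} {n : ℕ} (n0 : 0 < n) (h : β ^ n ∈ Vl v hv) : β ∈ Vl v hv := by
  obtain ⟨c, p⟩ := h
  have e := congrArg (Polynomial.aeval β) ((IsAlgClosed.splits
    (Polynomial.X ^ n - Polynomial.C c)).eq_prod_roots_of_monic
      (Polynomial.monic_X_pow_sub_C c n0.ne'))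
  rw [map_sub, map_pow, Polynomial.aeval_X, Polynomial.aeval_C, map_multiset_prod] at e
  by_contra k
  refine p.not_ge ?_
  rw [e, map_multiset_prod]
  refine Multiset.one_le_prod_of_one_le fun x hx => ?_
  simp only [Multiset.map_map, Multiset.mem_map, Function.comp, map_sub, Polynomial.aeval_X,
    Polynomial.aeval_C] at hx
  obtain ⟨a, -, rfl⟩ := hx
  exact not_lt.1 fun l => k ⟨a, l⟩

theorem inv {γ : F} {c : ℂ} (c0 : c ≠ 0) (h : v (γ - algebraMap ℂ F c) < 1) :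
    γ⁻¹ ∈ Vl v hv := by
  have a : v (algebraMap ℂ F c) = 1 := le_antisymm (hv c) (by
    have := hv c⁻¹
    rw [map_inv₀, map_inv₀] at this
    exact (inv_le_one₀ (zero_lt_iff.2 (by simpa using c0))).1 this)
  have b : v γ = 1 := by
    rw [← a, ← v.map_add_eq_of_lt_left (x := algebraMap ℂ F c) (y := γ - algebraMap ℂ F c)
      (a.symm ▸ h), add_sub_cancel]
  have g0 : γ ≠ 0 := fun z => by simp [z] at b
  have := (map_ne_zero (algebraMap ℂ F)).2 c0
  refine ⟨c⁻¹, ?_⟩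
  rw [show γ⁻¹ - algebraMap ℂ F c⁻¹ = -(γ - algebraMap ℂ F c) * γ⁻¹ * (algebraMap ℂ F c)⁻¹ by
    rw [map_inv₀]; field_simp; ring]
  rwa [map_mul, map_mul, map_inv₀, map_inv₀, a, b, inv_one, mul_one, mul_one, v.map_neg]

end P4

theorem pts4 : PTS := by
  intro L F _ _ _ _ _ _ A m A' γ S n fg mx ⟨g, g1⟩ n0 hS eA
  have := (Subalgebra.fg_iff_finiteType A).1 fg
  let e := A.toSubring.equivMapOfInjective (algebraMap L F) (algebraMap L F).injective
  obtain ⟨B, b1, b2⟩ := Ideal.image_subset_nonunits_valuationSubring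
    (A := A.toSubring.map (algebraMap L F)) (Ideal.comap (e.symm : _ →+* A) m)
    (Ideal.comap_ne_top _ mx.ne_top)
  have a2 : ∀ x ∈ m, B.valuation (algebraMap L F x) < 1 := fun x a =>
    (B.mem_nonunits_iff).1 (b2 ⟨e x, by simpa using a, rfl⟩)
  have hv : ∀ c : ℂ, B.valuation (algebraMap ℂ F c) ≤ 1 := fun c =>
    (B.valuation_le_one_iff _).2 (b1 ⟨_, A.algebraMap_mem c,
      (IsScalarTower.algebraMap_apply ℂ L F c).symm⟩)
  have a3 : ∀ (x : A) (c : ℂ), x - algebraMap ℂ A c ∈ m →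
      B.valuation (algebraMap L F x - algebraMap ℂ F c) < 1 := fun x c h => by
    rw [IsScalarTower.algebraMap_apply ℂ L F, ← map_sub]
    exact a2 _ h
  have a4 : ∀ x ∈ A, algebraMap L F x ∈ P4.Vl B.valuation hv := fun x h =>
    let ⟨c, hc⟩ := Lx.O15.val m ⟨x, h⟩
    ⟨c, a3 _ c hc⟩
  obtain ⟨c, hc⟩ := Lx.O15.val m ⟨γ, g⟩
  have c0 : c ≠ 0 := fun z => g1 (by simpa [z] using hc)
  have g0 : γ ≠ 0 := fun z => g1 ((show (⟨γ, g⟩ : A) = 0 from Subtype.ext z) ▸ m.zero_mem)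
  have a5 : algebraMap L F γ⁻¹ ∈ P4.Vl B.valuation hv := by
    rw [map_inv₀]
    exact P4.inv _ hv c0 (a3 _ c hc)
  have le : A' ≤ P4.Vl B.valuation hv := eA ▸ Algebra.adjoin_le (by
    rintro _ (rfl | ⟨x, a, rfl⟩ | b)
    · exact a5
    · exact a4 x a
    · obtain ⟨x, ν, ⟨k, -⟩, e1⟩ := hS _ b
      refine P4.root _ hv n0 ?_
      convert mul_mem (pow_mem a5 ν) (a4 _ k) using 1
      rw [e1, ← map_pow, ← map_mul, ← mul_assoc, ← mul_pow, inv_mul_cancel₀ g0, one_pow, one_mul])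
  have ia : ∀ x ∈ A, algebraMap L F x ∈ A' := fun x h =>
    eA ▸ Algebra.subset_adjoin (.inr (.inl ⟨x, h, rfl⟩))
  let j : A' →+* B := A'.val.toRingHom.codRestrict B fun x =>
    let ⟨c, hc⟩ := le x.2
    (B.valuation_le_one_iff _).1 (P4.le_one _ hv hc)
  let i : A →+* A' := ((algebraMap L F).comp A.val.toRingHom).codRestrict _ fun x => ia x x.2
  have nt : (IsLocalRing.maximalIdeal B).comap j ≠ ⊤ :=
    Ideal.comap_ne_top _ (IsLocalRing.maximalIdeal.isMaximal B).ne_top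
  have vl : ∀ μ : A', ∃ z : ℂ, μ - algebraMap ℂ A' z ∈ (IsLocalRing.maximalIdeal B).comap j :=
    fun μ => let ⟨c, hc⟩ := le μ.2; ⟨c, (B.valuation_lt_one_iff _).2 hc⟩
  have ov : m = ((IsLocalRing.maximalIdeal B).comap j).comap i :=
    mx.eq_of_le (Ideal.comap_ne_top _ nt) fun x a => (B.valuation_lt_one_iff _).2 (a2 x a)
  refine ⟨_, P4.max_of nt vl, fun x h => ⟨fun ⟨k, l⟩ => ⟨ia x h, fun q => l ?_⟩,
    fun ⟨k, l⟩ => ⟨h, fun q => l ?_⟩⟩, vl⟩
  · rw [ov]
    exact q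
  · rw [ov] at q
    exact q

end Vale.Agent.P283R.Uq
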