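import Vale.Agent.P283R.Uq.St2

/-!
# P283R, block UQ: the distinguished units
-/

open Set

noncomputable section

namespace Vale.Agent.P283R.Uq

open Vale.Agent.P297Z Vale.Agent.P287D Vale.Agent.P283M Vale.Agent.P283R.Cx
open Vale.Agent.P283R.Lx (Nz Ie Orb)
open Vale.Agent.P283R.Lx.K33 (IeS)
open Vale.Agent.P283R.Lx.O15
open Vale.Agent.P283R.Tq (cv)

namespace U15

variable {L : Type} [Field L] [Algebra ℂ L] {k r : ℕ} {v : Fin r → Fin k → ℤ} {x : Fin r → L}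

omit [Algebra ℂ L] in
/-- the monomials -/
theorem mon {U : (Fin k → ℤ) → L → Prop} (h1 : U 0 1)
    (hm : ∀ e θ e' θ', U e θ → U e' θ' → U (e + e') (θ * θ')) (hi : ∀ e θ, U e θ → U (-e) θ⁻¹)
    (h : ∀ i, U (v i) (x i)) (n : Fin r → ℤ) : U (cv v n) (∏ i, x i ^ n i) := by
  have p : ∀ e θ, U e θ → ∀ n : ℕ, U ((n : ℤ) • e) (θ ^ n) := fun e θ h n => by
    induction n with
    | zero => simpa using h1
    | succ n ih => simpa [add_smul, pow_succ] using hm _ _ _ _ ih h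
  have q : ∀ e θ, U e θ → ∀ n : ℤ, U (n • e) (θ ^ n) := fun e θ h n => by
    obtain ⟨n, rfl | rfl⟩ := n.eq_nat_or_neg
    · simpa using p e θ h n
    · simpa using hi _ _ (p e θ h n)
  have : ∀ I : Finset (Fin r), U (∑ i ∈ I, n i • v i) (∏ i ∈ I, x i ^ n i) := fun I => by
    induction I using Finset.induction_on with
    | empty => simpa using h1
    | insert i I n ih =>
      rw [Finset.sum_insert n, Finset.prod_insert n]
      exact hm _ _ _ _ (q _ _ (h i) _) ih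
  exact this _

theorem um_one : Um v x 0 1 := ⟨0, 1, one_ne_zero, by simp [cv], by simp⟩

theorem um_mul (x0 : ∀ i, x i ≠ 0) : ∀ e θ e' θ', Um v x e θ → Um v x e' θ' →
    Um v x (e + e') (θ * θ') := by
  rintro _ _ _ _ ⟨n, y, y0, rfl, rfl⟩ ⟨n', y', y1, rfl, rfl⟩
  refine ⟨n + n', y * y', mul_ne_zero y0 y1, (Tq.N99.cv_add n n').symm, ?_⟩
  rw [smul_mul_smul_comm, ← Finset.prod_mul_distrib]
  simp only [Pi.add_apply, zpow_add₀ (x0 _)]

theorem um_inv : ∀ e θ, Um v x e θ → Um v x (-e) θ⁻¹ := by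
  rintro _ _ ⟨n, y, y0, rfl, rfl⟩
  exact ⟨-n, y⁻¹, inv_ne_zero y0, by simp [cv], by simp [smul_inv₀]⟩

theorem um_smul {e : Fin k → ℤ} {θ : L} {c : ℂ} (c0 : c ≠ 0) : Um v x e θ → Um v x e (c • θ) := by
  rintro ⟨n, y, y0, rfl, rfl⟩
  exact ⟨n, c * y, mul_ne_zero c0 y0, rfl, smul_smul ..⟩

/-- roots of constants -/
theorem root {n : ℕ} (n0 : 0 < n) {z u : L} {y : ℂ} (u0 : u ≠ 0) (h : z ^ n = y • u ^ n) :
    ∃ c : ℂ, z = c • u := by
  have i : IsIntegral ℂ (z / u) := IsIntegral.of_pow n0 (by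
    rw [div_pow, h, Algebra.smul_def, mul_div_cancel_right₀ _ (pow_ne_zero _ u0)]
    exact isIntegral_algebraMap)
  obtain ⟨c, hc⟩ := minpoly.mem_range_of_degree_eq_one ℂ _
    (IsAlgClosed.degree_eq_one_of_irreducible ℂ (minpoly.irreducible i))
  exact ⟨c, by rw [Algebra.smul_def, hc, div_mul_cancel₀ _ u0]⟩

end U15

open U15 in
/-- **UUR** -/
theorem uur15 : UUR := by
  intro L L' _ _ _ _ _ _ d k N N' T D s a A m G π γ T' D' s' a' A' m' G' G'' π' R X
    F _ _ _ t p r n v w c β n0 O h1 h2 h3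
  have inj := (algebraMap L L').injective
  have od : ∀ Q ∈ T', ∃ P ∈ Tz T γ, D' Q = D P ∧ ∀ f, Q.ord (algebraMap L L' f) = P.ord f :=
    fun Q hQ => by
      obtain ⟨P, hP, l⟩ := (X.lies Q).1 hQ
      exact ⟨P, hP, (X.unr Q hQ P l).2, fun f => by rw [l.ord, (X.unr Q hQ P l).1, one_mul]⟩
  have b0 : ∀ j, (β j : L') ≠ 0 := fun j z => (h1 j).2.1.1 (inj (by
    rw [← h3, z, zero_pow n0.ne', map_zero]))
  have w0 : ∀ j, algebraMap L L' (w j) ≠ 0 := fun j => (map_ne_zero _).2 (h1 j).1.1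
  set x : Fin r → L' := fun i => algebraMap L L' (w i) * β i with hx
  have x0 : ∀ i, x i ≠ 0 := fun i => mul_ne_zero (w0 i) (b0 i)
  have xn : ∀ i, x i ^ n = algebraMap L L' (w i ^ n * c i) := fun i => by
    rw [map_mul, map_pow, ← h3, ← mul_pow]
  have px : ∀ n, Tq.Pr T' D' (cv v n) (∏ i, x i ^ n i) := mon (U := Tq.Pr T' D') Tq.S35.pr_one
    (fun _ _ _ _ => Tq.S35.pr_mul) (fun _ _ => Tq.S35.pr_inv) fun i => ⟨x0 i, fun Q hQ => by
      obtain ⟨P, hP, e1, e2⟩ := od Q hQ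
      have a1 := e2 (c i)
      have a2 := (h1 i).2.1.2 P hP
      rw [zero_dotProduct, add_zero] at a2
      rw [← h3, Pl.ord_pow, a2, mul_eq_zero] at a1
      rw [Pl.ord_mul _ (w0 i) (b0 i), e2, e1, a1.resolve_left (by omega), add_zero]
      exact (h1 i).1.2 P hP⟩
  have cx := X.rw.cox
  have hz := X.rw.zero
  refine ⟨X.rw.ff, cx, hz, X.rw.fg, X.rw.max, X.rw.gp, X.rw.pm,
    ⟨?_, um_mul x0, um_inv, fun θ => ⟨?_, ?_⟩, fun σ' hσ => ?_⟩,
    fun e φ hφ => or_iff_not_imp_left.2 fun ni => ?_⟩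
  · rintro _ _ ⟨n, y, y0, rfl, rfl⟩
    exact ⟨smul_ne_zero y0 (px n).1, fun Q hQ => by rw [Q.ord_smul y0]; exact (px n).2 Q hQ⟩
  · rintro ⟨n, y, y0, e, rfl⟩
    obtain rfl : n = 0 := funext (Fintype.linearIndependent_iff.1 O.ind n e.symm)
    exact ⟨y, y0, by simp [Algebra.algebraMap_eq_smul_one]⟩
  · rintro ⟨y, y0, rfl⟩
    rw [Algebra.algebraMap_eq_smul_one]
    exact um_smul y0 um_one
  · rintro _ _ ⟨ν, y, y0, rfl, rfl⟩
    obtain ⟨σ, hs, e1, e2⟩ := X.res σ' hσ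
    have := mon um_one (um_mul x0) um_inv (v := fun i => π σ (v i)) (x := fun i => σ' (x i))
      (fun j => by
        obtain ⟨μ, z, z0, e3, e4⟩ := h2 σ hs j
        obtain ⟨b, hb⟩ := root n0 (z := σ' (x j)) (y := z) (px μ).1 (by
          rw [← map_pow, xn, e1, e4, Algebra.smul_def, Algebra.smul_def, map_mul,
            ← IsScalarTower.algebraMap_apply, map_prod, ← Finset.prod_pow]
          refine congrArg _ (Finset.prod_congr rfl fun i _ => ?_)
          rw [map_zpow₀, ← xn, ← zpow_natCast, ← zpow_natCast, ← zpow_mul, ← zpow_mul, mul_comm])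
        exact ⟨μ, b, fun b0 => (map_ne_zero σ').2 (x0 j) (by rw [hb, b0, zero_smul]), e3, hb⟩) ν
    rw [e2, map_smul, map_prod]
    simp only [cv, map_sum, map_zsmul, map_zpow₀]
    exact um_smul y0 this
  · have up : ∀ e, ∀ χ ∈ Sp s a e, algebraMap L L' χ ∈ Sp s' a' e := fun e χ h => by
      by_cases c0 : χ = 0
      · simp [c0]
      refine (cx.sec _ _ ((map_ne_zero _).2 c0)).2 fun Q hQ => ?_
      obtain ⟨P, hP, e1, e2⟩ := od Q hQ
      rw [e1, e2]
      exact (R.cox.sec _ _ c0).1 h P hP.1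
    have he : e ∈ Submodule.span ℤ (range v) := by_contra fun c => ni
      ((Submodule.span_le (p := IeS hz m' e)).2 (by
        rintro _ ⟨μ, hμ, χ, hχ, rfl⟩
        have i1 : χ ∈ Ie A m s a e := by_contra fun z => c (O.spn e χ hχ z)
        have i2 : algebraMap L L' χ ∈ Ie A' m' s' a' e := ⟨up e χ hχ, fun ψ hψ => by
          have := (Submodule.span_le (p := (IeS hz m' 0).comap
            (LinearMap.mulLeft ℂ (algebraMap L L' χ)))).2 (by
              rintro _ ⟨μ', hμ', χ', hχ', rfl⟩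
              obtain ⟨j1, j2⟩ := X.nz _ (mem0 R.zero hχ hχ')
              have : algebraMap L L' (χ * χ') * μ' ∈ _ := ie_mul (ie_base hz (x := ⟨_, j1⟩)
                ((not_nz j1).1 fun z => i1.2 χ' hχ' (j2.2 z))) ((hz _).1 hμ')
              rw [add_zero, map_mul, mul_assoc, mul_comm _ μ'] at this
              exact this) (X.gen _ ψ hψ)
          simpa using this.2 1 (by simpa using one_sp s' a')⟩
        have := ie_mul i2 ((hz _).1 hμ)
        rwa [add_zero, mul_comm] at this) (X.gen e φ hφ))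
    obtain ⟨ν, rfl⟩ := (Submodule.mem_span_range_iff_exists_fun ℤ).1 he
    have q := px ν
    have a1 := mem0 hz hφ (Tq.E87.pr_sp cx (Tq.S35.pr_inv q))
    have := X.rw.max
    have : Algebra.FiniteType ℂ A' := (Subalgebra.fg_iff_finiteType _).1 X.rw.fg
    obtain ⟨g, hg⟩ := val m' ⟨_, a1⟩
    have := ie_mul (ie_base hz hg) (Tq.E87.pr_sp cx q)
    rw [zero_add] at this
    refine ⟨_, g, ⟨ν, 1, one_ne_zero, rfl, (one_smul _ _).symm⟩, ?_⟩
    refine (congrArg (· ∈ Ie A' m' s' a' (cv v ν)) ?_).mp this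
    show (φ * (∏ i, x i ^ ν i)⁻¹ - algebraMap ℂ L' g) * _ = _
    rw [sub_mul, inv_mul_cancel_right₀ q.1, Algebra.smul_def]

end Vale.Agent.P283R.Uq
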