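import Vale.Agent.P283R.Uq.Act4
import Vale.Agent.P283R.Uq.Lam18
import Vale.Agent.P283R.Uq.Gal62
import Vale.Agent.P283R.Uq.Eigr71
import Vale.Agent.P283R.Uq.Nak40
import Vale.Agent.P283R.Uq.Rk90
import Vale.Agent.P283R.Uq.Icx95
import Vale.Agent.P283R.Uq.Stgr48
import Vale.Agent.P283R.Uq.Pnt27
import Vale.Agent.P283R.Uq.Lcx18
import Vale.Agent.P283R.Uq.Pre39
import Vale.Agent.P283R.Uq.Kxr93
import Vale.Agent.P283R.Uq.Pts4
import Vale.Agent.P283R.Uq.Den59
import Vale.Agent.P283R.Uq.Trs21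
import Vale.Agent.P283R.Uq.Uur15
import Vale.Agent.P283R.Uq.Emu33
import Vale.Agent.P283R.Uq.Nky21
import Vale.Agent.P283R.Uq.Opn27
import Vale.Agent.P283R.Uq.Qtf12
import Vale.Agent.P283R.Uq.Etg71
import Vale.Agent.P283R.Uq.Fce55
import Vale.Agent.P283R.Uq.Frm3
import Vale.Agent.P283R.Uq.Top48
import Vale.Agent.P283R.Tq.Tau27
import Vale.Agent.P283R.Tq.Trn59
import Vale.Agent.P283R.Tq.Mink93
import Vale.Agent.P283R.Tq.Quo10

/-!
# P283R, block UQ: finite quotients of the classes with bounded embedding dimension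
-/

namespace Vale.Agent.P283R.Uq

open Sl Sl.Var

theorem etg4 : ETG :=
  etgr71 lcx18 pre39 (kxr93 pts4 dns59 trs21) uur15 emu33 nky21 opn27 qtf12
    (pntr27 act4 Tq.tau27 nak40)
    (stgr48 act4 inv4 (galr62 act4 lam18 Tq.mink93) (eigr71 act4 lam18) Tq.tau27 nak40
      (rkr90 lam18) icx95 (domr90 lam18) Tq.trn59)

theorem onu4 : ONU := top48 fce55 etg4 Tq.quo10

/-- **finite quotients of fibrations of low complexity** -/
theorem onN_lowq4 : OnN fun d _ _ f _ _ z =>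
    QuotientOf (d := d) (fun _ _ g η w => LowCx g η w) f z :=
  onu4 _ (fun _ _ _ g η w => LowCx g η w) frl3

/-- **finite quotients, the wider form** -/
theorem onN_mldq4 : OnN fun d _ _ f _ _ z =>
    QuotientOf (d := d) (fun _ _ g η w => MldCx g η w) f z :=
  onu4 _ (fun _ _ _ g η w => MldCx g η w) frm3

end Vale.Agent.P283R.Uq
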