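import Mathlib.Algebra.Polynomial.Identities
import Mathlib.Algebra.Polynomial.Eval.Degree
import Mathlib.Algebra.Algebra.Subalgebra.Basic
import Mathlib.RingTheory.Ideal.Operations
import Mathlib.RingTheory.Ideal.Maximal
import Mathlib.Analysis.Complex.Basic

/-!
# P283R, block UQ: adic closure of a subalgebra and the lemma of Hensel
-/

open Set Polynomial

noncomputable section

namespace Vale.Agent.P283R.Uq.D63

variable {R : Type} [CommRing R] [Algebra ℂ R]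

/-- the adic closure -/
def Cl (m : Ideal R) (B : Subalgebra ℂ R) : Subalgebra ℂ R where
  carrier := {x | ∀ n : ℕ, ∃ b ∈ B, x - b ∈ m ^ n}
  add_mem' {x y} hx hy n := by
    obtain ⟨b, b1, b2⟩ := hx n
    obtain ⟨c, c1, c2⟩ := hy n
    exact ⟨b + c, add_mem b1 c1, by rw [add_sub_add_comm]; exact add_mem b2 c2⟩
  mul_mem' {x y} hx hy n := by
    obtain ⟨b, b1, b2⟩ := hx n
    obtain ⟨c, c1, c2⟩ := hy n
    refine ⟨b * c, mul_mem b1 c1, ?_⟩
    rw [show x * y - b * c = (x - b) * y + b * (y - c) by ring]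
    exact add_mem (Ideal.mul_mem_right _ _ b2) (Ideal.mul_mem_left _ _ c2)
  algebraMap_mem' c n := ⟨_, B.algebraMap_mem c, by simp⟩

variable {m : Ideal R} {B : Subalgebra ℂ R} {x : R}

theorem mem_cl : x ∈ Cl m B ↔ ∀ n : ℕ, ∃ b ∈ B, x - b ∈ m ^ n := Iff.rfl

theorem le_cl : B ≤ Cl m B := fun x h n => ⟨x, h, by simp⟩

theorem cl_cl (h : ∀ n : ℕ, ∃ b ∈ Cl m B, x - b ∈ m ^ n) : x ∈ Cl m B := fun n => by
  obtain ⟨b, b1, b2⟩ := h n
  obtain ⟨c, c1, c2⟩ := b1 n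
  exact ⟨c, c1, by simpa using add_mem b2 c2⟩

/-- **Hensel** -/
theorem hen (hm : ∀ y : R, ∃ c : ℂ, y - algebraMap ℂ R c ∈ m) (f : R[X])
    (hf : ∀ i, f.coeff i ∈ Cl m B) (h0 : f.eval x = 0) (h1 : f.derivative.eval x ∉ m) :
    x ∈ Cl m B := by
  obtain ⟨u, hu⟩ := hm (f.derivative.eval x)
  have u0 : u ≠ 0 := fun z => h1 (by simpa [z] using hu)
  have ev : ∀ b ∈ Cl m B, f.eval b ∈ Cl m B := fun b hb => by
    rw [eval_eq_sum_range]
    exact sum_mem fun i _ => mul_mem (hf i) (pow_mem hb i)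
  have key : ∀ n : ℕ, ∃ b ∈ Cl m B, x - b ∈ m ^ (n + 1) := fun n => by
    induction n with
    | zero =>
      obtain ⟨c, hc⟩ := hm x
      exact ⟨_, (Cl m B).algebraMap_mem c, by simpa using hc⟩
    | succ n ih =>
      obtain ⟨b, b1, b2⟩ := ih
      obtain ⟨k, hk⟩ := f.binomExpansion x (b - x)
      have iu : algebraMap ℂ R u⁻¹ * algebraMap ℂ R u = 1 := by
        rw [← map_mul, inv_mul_cancel₀ u0, map_one]
      rw [add_sub_cancel, h0, zero_add] at hk
      refine ⟨b - algebraMap ℂ R u⁻¹ * f.eval b,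
        sub_mem b1 (mul_mem ((Cl m B).algebraMap_mem _) (ev b b1)), ?_⟩
      rw [show x - (b - algebraMap ℂ R u⁻¹ * f.eval b) = (x - b) * (algebraMap ℂ R u⁻¹ *
        (k * (x - b) - (f.derivative.eval x - algebraMap ℂ R u))) by
          rw [hk]; linear_combination (b - x) * iu, pow_succ]
      exact Ideal.mul_mem_mul b2 (Ideal.mul_mem_left _ _ (sub_mem
        (Ideal.mul_mem_left _ _ (Ideal.pow_le_self n.succ_ne_zero b2)) hu))
  refine cl_cl fun n => ?_
  obtain ⟨b, b1, b2⟩ := key n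
  exact ⟨b, b1, Ideal.pow_le_pow_right n.le_succ b2⟩

/-- inverses -/
theorem inv (hm : ∀ y : R, ∃ c : ℂ, y - algebraMap ℂ R c ∈ m) {g : R} (hg : g ∈ Cl m B)
    (g0 : g ∉ m) (h : g * x = 1) : x ∈ Cl m B :=
  hen hm (C g * X - C 1) (fun i => by
    rw [coeff_sub, coeff_C_mul, coeff_X, coeff_C]
    refine sub_mem (mul_mem hg ?_) ?_ <;> split_ifs <;> simp) (by simp [h]) (by simpa using g0)

/-- roots -/
theorem root (hm : ∀ y : R, ∃ c : ℂ, y - algebraMap ℂ R c ∈ m) {c : R} {n : ℕ} (n0 : 0 < n)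
    (hc : c ∈ Cl m B) (c0 : c ∉ m) (h : x ^ n = c) : x ∈ Cl m B :=
  hen hm (X ^ n - C c) (fun i => by
    rw [coeff_sub, coeff_X_pow, coeff_C]
    refine sub_mem ?_ ?_ <;> split_ifs <;> simp [hc]) (by simp [h]) (fun z => c0 (by
      have e : (n : R) * x ^ (n - 1) ∈ m := by simpa [derivative_X_pow] using z
      have iu : algebraMap ℂ R (n : ℂ)⁻¹ * (n : R) = 1 := by
        rw [← map_natCast (algebraMap ℂ R), ← map_mul,
          inv_mul_cancel₀ (Nat.cast_ne_zero.2 n0.ne'), map_one]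
      have := Ideal.mul_mem_left _ (algebraMap ℂ R (n : ℂ)⁻¹ * x) e
      rwa [show algebraMap ℂ R (n : ℂ)⁻¹ * x * (n * x ^ (n - 1)) =
        (algebraMap ℂ R (n : ℂ)⁻¹ * n) * (x ^ (n - 1) * x) by ring, iu, one_mul, ← pow_succ,
        Nat.sub_add_cancel n0, h] at this))

end Vale.Agent.P283R.Uq.D63
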