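import Vale.Agent.P283R.Uq.St2
import Vale.Agent.P283R.Uq.Den63

/-!
# P283R, block UQ: the ring below is dense in the ring of the roots
-/

open Set Polynomial

noncomputable section

namespace Vale.Agent.P283R.Uq.D63

open Vale.Agent.P283R.Lx (Nz)

variable {L L' : Type} [Field L] [Algebra ℂ L] [Field L'] [Algebra ℂ L'] [Algebra L L']
  [IsScalarTower ℂ L L']

/-- **den**: every generator `x` satisfies `g * x ^ n = a` -/
theorem den (A : Subalgebra ℂ L) (A' : Subalgebra ℂ L') (m' : Ideal A') (mx : m'.IsMaximal)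
    (hm : ∀ y : A', ∃ c : ℂ, y - algebraMap ℂ A' c ∈ m') (le : ∀ x ∈ A, algebraMap L L' x ∈ A')
    (S : Set L') (e : A' = Algebra.adjoin ℂ S)
    (h : ∀ x ∈ S, ∃ (n : ℕ) (g a : L), g ∈ A ∧ a ∈ A ∧ Nz A' m' (algebraMap L L' g) ∧
      (n = 1 ∨ 0 < n ∧ Nz A' m' x) ∧ algebraMap L L' g * x ^ n = algebraMap L L' a)
    (n : ℕ) (μ : A') : ∃ x ∈ A, ∃ ν ∈ m' ^ n, (μ : L') = algebraMap L L' x + ν := by
  let B : Subalgebra ℂ A' := (A.map (IsScalarTower.toAlgHom ℂ L L')).comap A'.val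
  have hB : ∀ a (ha : a ∈ A), (⟨_, le a ha⟩ : A') ∈ Cl m' B := fun a ha => le_cl ⟨a, ha, rfl⟩
  have key : Algebra.adjoin ℂ S ≤ (Cl m' B).map A'.val := Algebra.adjoin_le fun x hx => by
    obtain ⟨n, g, a, g1, a1, g2, hn, eq⟩ := h x hx
    have x1 : x ∈ A' := e.ge (Algebra.subset_adjoin hx)
    refine ⟨⟨x, x1⟩, hen hm (C ⟨_, le g g1⟩ * X ^ n - C ⟨_, le a a1⟩) (fun i => ?_)
      (by rw [eval_sub, eval_mul, eval_C, eval_C, eval_pow, eval_X, sub_eq_zero]
          exact Subtype.ext eq) (fun z => ?_), rfl⟩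
    · rw [coeff_sub, coeff_C_mul, coeff_X_pow, coeff_C]
      refine sub_mem (mul_mem (hB g g1) ?_) ?_ <;> split_ifs <;> simp [hB a a1]
    · have z' : (⟨_, le g g1⟩ : A') * ((n : A') * ⟨x, x1⟩ ^ (n - 1)) ∈ m' := by
        simpa [derivative_X_pow] using z
      have n0 : 0 < n := hn.elim (fun w => w ▸ one_pos) fun w => w.1
      rcases mx.isPrime.mem_or_mem ((mx.isPrime.mem_or_mem z').resolve_left g2.2) with w | w
      · refine mx.ne_top (Ideal.eq_top_of_isUnit_mem _ w ?_)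
        rw [← map_natCast (algebraMap ℂ A')]
        exact (IsUnit.mk0 _ (Nat.cast_ne_zero.2 n0.ne')).map _
      · rcases hn with rfl | hn
        · exact mx.ne_top ((Ideal.eq_top_iff_one _).2 (by simpa using w))
        · exact hn.2.2 (mx.isPrime.mem_of_pow_mem _ w)
  obtain ⟨y, y1, y2⟩ := key (e.le μ.2)
  obtain ⟨b, ⟨a, a1, a2⟩, b2⟩ := y1 n
  refine ⟨a, a1, y - b, b2, ?_⟩
  have a3 : algebraMap L L' a = b := a2
  have y3 : (y : L') = μ := y2
  rw [a3, ← y3]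
  simp

end Vale.Agent.P283R.Uq.D63
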