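import Vale.Agent.P283R.Uq.Kxs93
import Vale.Agent.P283R.Uq.Dn63

/-!
# P283R, block UQ: the density
-/

open Set

noncomputable section

namespace Vale.Agent.P283R.Uq

open Vale.Agent.P283R.Lx (Nz)
open Vale.Agent.P283R.Lx.O15

theorem dns21 : DNS := by
  intro L F _ _ _ _ _ _ A m A' γ S n _ hm hγ n0 hS e m' mx nz val
  have le : ∀ x ∈ A, algebraMap L F x ∈ A' := fun x h =>
    e.ge (Algebra.subset_adjoin (.inr (.inl ⟨x, h, rfl⟩)))
  have γ0 : γ ≠ 0 := fun z => (not_nz (zero_mem A)).2 m.zero_mem (z ▸ hγ)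
  have np : ∀ j : ℕ, Nz A m (γ ^ j) := fun j => by
    induction j with
    | zero => simpa using nz_one hm.ne_top
    | succ j ih => exact pow_succ γ j ▸ nz_mul hm.isPrime ih hγ
  refine D63.den A A' m' mx val le _ e ?_
  rintro x (rfl | ⟨a, h, rfl⟩ | h)
  · exact ⟨1, γ, 1, hγ.1, one_mem _, (nz _ hγ.1).1 hγ, .inl rfl, by
      rw [pow_one, ← map_mul, mul_inv_cancel₀ γ0]⟩
  · exact ⟨1, 1, a, one_mem _, h, (nz _ (one_mem _)).1 (nz_one hm.ne_top), .inl rfl, by simp⟩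
  · obtain ⟨a, ν, k, q⟩ := hS x h
    have x1 : x ∈ A' := e.ge (Algebra.subset_adjoin (.inr (.inr h)))
    refine ⟨n, γ ^ ν, γ ^ ν * a, (np ν).1, k.1, (nz _ (np ν).1).1 (np ν), .inr ⟨n0, x1, fun z => ?_⟩,
      by rw [q, map_mul]⟩
    refine ((nz _ k.1).1 k).2 ?_
    have := m'.mul_mem_left ⟨_, le _ (np ν).1⟩ (m'.pow_mem_of_mem z n n0)
    exact (congrArg (· ∈ m') (Subtype.ext (by simp [q]))).mp this

end Vale.Agent.P283R.Uq
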