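import Vale.Agent.P283R.Uq.Kxs93
import Vale.Agent.P283R.Uq.Dn63

/-!
# P283R, block UQ: the density
-/

open Set

noncomputable section

namespace Vale.Agent.P283R.Uq

open Vale.Agent.P283R.Lx (Nz)

/-- **DNS** -/
theorem dns63 : DNS := by
  intro L F _ _ _ _ _ _ A m A' γ S n _ mx hγ n0 hS e m' mx' nz hm
  have sub : ∀ x ∈ insert (algebraMap L F γ⁻¹) (algebraMap L F '' A ∪ S), x ∈ A' := fun x hx =>
    e.ge (Algebra.subset_adjoin hx)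
  have one : Nz A m 1 := Lx.O15.nz_one mx.ne_top
  have γ0 : γ ≠ 0 := fun z => hγ.2 (by
    have : (⟨γ, hγ.1⟩ : A) = 0 := Subtype.ext z
    exact this ▸ m.zero_mem)
  refine D63.den A A' m' mx' hm (fun x hx => sub _ (.inr (.inl ⟨x, hx, rfl⟩))) _ e ?_
  rintro x (rfl | ⟨a, ha, rfl⟩ | hx)
  · exact ⟨1, γ, 1, hγ.1, one_mem _, (nz _ hγ.1).1 hγ, .inl rfl, by
      rw [pow_one, ← map_mul, mul_inv_cancel₀ γ0]⟩
  · exact ⟨1, 1, a, one_mem _, ha, (nz _ (one_mem _)).1 one, .inl rfl, by simp⟩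
  · obtain ⟨y, ν, h1, h2⟩ := hS x hx
    have gν : Nz A m (γ ^ ν) := ⟨pow_mem hγ.1 ν, fun z =>
      hγ.2 (mx.isPrime.mem_of_pow_mem ν (r := ⟨γ, hγ.1⟩) z)⟩
    have x1 := sub x (.inr (.inr hx))
    have g1 := (nz _ gν.1).1 gν
    have eq : algebraMap L F (γ ^ ν) * x ^ n = algebraMap L F (γ ^ ν * y) := by rw [h2, map_mul]
    refine ⟨n, γ ^ ν, γ ^ ν * y, gν.1, h1.1, g1, .inr ⟨n0, x1, fun z => ?_⟩, eq⟩
    obtain ⟨w1, w2⟩ := (nz _ h1.1).1 h1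
    refine w2 ?_
    rw [show (⟨_, w1⟩ : A') = ⟨_, g1.1⟩ * ⟨x, x1⟩ ^ n from Subtype.ext eq.symm]
    exact Ideal.mul_mem_left _ _ (Ideal.pow_mem_of_mem _ z _ n0)

end Vale.Agent.P283R.Uq
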