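import Vale.Agent.P283R.Uq.St
import Vale.Agent.P283R.Tq.Eigr87

/-!
# P283R, block UQ: generators which are eigenvectors
-/

open Set

noncomputable section

namespace Vale.Agent.P283R.Uq

open Vale.Agent.P287D Vale.Agent.P283M Vale.Agent.P283R.Cx
open Vale.Agent.P283R.Lx (Nz Ie)
open Vale.Agent.P283R.Lx.K33 (I2 IeS span_mul)
open Vale.Agent.P283R.Lx.O15 (ie_mul)
open Vale.Agent.P283R.Tq.E87 (pr_sp i2_sp i2_le)

namespace E87

variable {L : Type} [Field L] [Algebra ℂ L] {d l k N : ℕ} {T : Set (Pl L)}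
  {D : Pl L → Fin k → ℤ} {s z : Fin N → L} {a : Fin N → Fin k → ℤ} {A : Subalgebra ℂ L}
  {m : Ideal A} {J : Finset (Fin N)} {e e' : Fin k → ℤ} {θ θ' x : L}
  {G : Subgroup (L ≃ₐ[ℂ] L)} {π : Ac L k} {U : (Fin k → ℤ) → L → Prop}

theorem u_one (u : Un T D G π U) : U 0 1 := (u.cst 1).2 ⟨1, one_ne_zero, (map_one _).symm⟩

theorem u_ne (u : Un T D G π U) (h : U e θ) : θ ≠ 0 := (u.pr _ _ h).1

theorem u_smul (u : Un T D G π U) (h : U e θ) {c : ℂ} (c0 : c ≠ 0) : U e (c • θ) := by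
  have := u.mul _ _ _ _ ((u.cst _).2 ⟨c, c0, rfl⟩) h
  rwa [zero_add, ← Algebra.smul_def] at this

theorem u_uni (u : Un T D G π U) (h : U e θ) (h' : U e θ') : ∃ c : ℂ, θ' = c • θ := by
  obtain ⟨c, -, hc⟩ := (u.cst _).1 (by simpa using u.mul _ _ _ _ h' (u.inv _ _ h))
  exact ⟨c, by rw [Algebra.smul_def, ← hc, inv_mul_cancel_right₀ (u_ne u h)]⟩

variable (U s z a A m J e) in
/-- the span of the `z i * θ` modulo the square -/
def Sz : Submodule ℂ L :=
  I2 A m s a e ⊔ Submodule.span ℂ {y | ∃ i ∈ J, ∃ θ, U (e - a i) θ ∧ y = z i * θ}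

theorem sz_of (h : Spn U s a A m J z) (hx : x ∈ Ie A m s a e) : x ∈ Sz s z a A m J e U := by
  obtain ⟨I, θ, γ, a1, a2, a3⟩ := h e x hx
  rw [← sub_add_cancel x (∑ j ∈ I, γ j • (z j * θ j))]
  exact Submodule.add_mem_sup a3 (sum_mem fun j hj => Submodule.smul_mem _ _
    (Submodule.subset_span ⟨j, a1 hj, _, a2 j hj, rfl⟩))

theorem sz_mul (hc : Cox T D s a) (un : Un T D G π U) (hx : x ∈ Sz s z a A m J e U)
    (h : U e' θ) : x * θ ∈ Sz s z a A m J (e + e') U := by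
  obtain ⟨u, hu, v, hv, rfl⟩ := Submodule.mem_sup.1 hx
  rw [add_mul]
  refine Submodule.add_mem_sup (i2_sp hu (pr_sp hc (un.pr _ _ h))) (span_mul ?_ hv)
  rintro _ ⟨i, hi, η, b, rfl⟩
  exact Submodule.subset_span ⟨i, hi, η * θ, by
    rw [add_sub_right_comm]; exact un.mul _ _ _ _ b h, mul_assoc _ _ _⟩

theorem spn_of (un : Un T D G π U)
    (h : ∀ e, ∀ x ∈ Ie A m s a e, x ∈ Sz s z a A m J e U) : Spn U s a A m J z := by
  classical
  intro e x hx
  obtain ⟨u, hu, v, hv, rfl⟩ := Submodule.mem_sup.1 (h e x hx)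
  let I := J.filter fun i => ∃ θ, U (e - a i) θ
  have : ∀ i, ∃ θ, i ∈ I → U (e - a i) θ := fun i => by
    by_cases b : i ∈ I
    · obtain ⟨θ, c⟩ := (Finset.mem_filter.1 b).2
      exact ⟨θ, fun _ => c⟩
    · exact ⟨0, fun c => (b c).elim⟩
  choose θ hθ using this
  have le : v ∈ Submodule.span ℂ ((fun i => z i * θ i) '' I) := Submodule.span_le.2 (by
    rintro _ ⟨i, hi, η, b, rfl⟩
    have c : i ∈ I := Finset.mem_filter.2 ⟨hi, η, b⟩
    obtain ⟨γ, rfl⟩ := u_uni un (hθ i c) b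
    rw [mul_smul_comm]
    exact Submodule.smul_mem _ _ (Submodule.subset_span ⟨i, c, rfl⟩)) hv
  obtain ⟨γ, rfl⟩ := (Submodule.mem_span_image_finset_iff_exists_fun' ℂ).1 le
  exact ⟨I, θ, γ, Finset.filter_subset _ _, hθ, by rwa [add_sub_cancel_right]⟩

theorem prj_rel (act : ACT) (hp : Bu d T D s a A m G π U)
    (hr : ∀ σ ∈ G, ∀ e, ∃ θ, U (e - π σ e) θ) (e : Fin k → ℤ) :
    Qt.Prj G.subtype (fun σ φ => U (e - π σ e) φ) (IeS hp.zero m e) (I2 A m s a e) where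
  le := i2_le _
  ex σ := hr σ σ.2 e
  ne h := u_ne hp.un h
  mul {σ τ φ ψ} h h' := by
    have := hp.un.mul _ _ _ _ h (hp.un.act σ σ.2 _ _ h')
    rwa [map_sub, ← hp.pm.cmp σ σ.2 τ τ.2, sub_add_sub_cancel] at this
  smul h c := u_smul hp.un h c
  uni h h' := u_uni hp.un h h'
  mU {σ φ} h x hx := mul_comm _ φ ▸
    ((act d L k N T D s a A m G π U hp σ σ.2 e e φ h x).2.1.1 hx)
  mW {σ φ} h x hx := mul_comm _ φ ▸
    ((act d L k N T D s a A m G π U hp σ σ.2 e e φ h x).2.2.1 hx)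

/-- representatives of the classes -/
theorem rep (un : Un T D G π U) (a : Fin N → Fin k → ℤ)
    (J : Finset (Fin N)) : ∃ (ρ : Fin N → Fin N) (θ : Fin N → L), (∀ j ∈ J, ρ j ∈ J) ∧
      (∀ j, U (a (ρ j) - a j) (θ j)) ∧
      ∀ i ∈ J, ∀ j ∈ J, ∀ η, U (a i - a j) η → ρ i = ρ j := by
  let S : Setoid (Fin N) := ⟨fun i j => (i ∈ J ↔ j ∈ J) ∧ ∃ η, U (a i - a j) η,
    fun i => ⟨Iff.rfl, 1, by rw [sub_self]; exact u_one un⟩,
    fun ⟨b, η, c⟩ => ⟨b.symm, η⁻¹, by simpa using un.inv _ _ c⟩,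
    fun ⟨b, η, c⟩ ⟨b', η', c'⟩ => ⟨b.trans b', η * η', by simpa using un.mul _ _ _ _ c c'⟩⟩
  choose θ hθ using fun j => (Quotient.mk_out (s := S) j).2
  exact ⟨fun j => (Quotient.mk S j).out, θ, fun j h => (Quotient.mk_out (s := S) j).1.2 h, hθ,
    fun i hi j hj η b => congrArg Quotient.out (Quotient.sound ⟨iff_of_true hi hj, η, b⟩)⟩

theorem cnt (lam : LAM) (hp : Pu d l T D s a A m J G π U) {ρ : Fin N → Fin N} {θ : Fin N → L}
    (h : ∀ j, U (a (ρ j) - a j) (θ j)) (h' : ∀ j ∈ J, ρ (ρ j) = ρ j) :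
    (J.filter fun j => ρ j ≠ j).card ≤ l := by
  obtain ⟨a1, a2⟩ := lam d l L k N T D s a A m J G π U hp
  set F := J.filter fun j => ρ j ≠ j
  have b : ∀ j ∉ F, a j ∈ Submodule.span ℤ (range fun i : (Fᶜ : Finset _) => a i) := fun j c =>
    Submodule.subset_span ⟨⟨j, Finset.mem_compl.2 c⟩, rfl⟩
  have top : Submodule.span ℤ (range fun i : (Fᶜ : Finset _) => a i) = ⊤ := by
    rw [eq_top_iff, ← a2, Submodule.span_le]
    rintro _ ⟨j, rfl⟩
    by_cases c : j ∈ J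
    · have := sub_mem (b (ρ j) fun q => (Finset.mem_filter.1 q).2 (h' j c))
        (Submodule.span_le.2 (by
          rintro _ ⟨i, hi, rfl⟩
          exact b i fun q => hi (Finset.mem_filter.1 q).1) (a1 _ _ (h j)))
      rwa [sub_sub_cancel] at this
    · exact b j fun q => c (Finset.mem_filter.1 q).1
  have c := finrank_range_le_card (R := ℤ) fun i : (Fᶜ : Finset _) => a i
  rw [Set.finrank, top, finrank_top, Module.finrank_fin_fun, Fintype.card_coe,
    Finset.card_compl, Fintype.card_fin] at c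
  have := hp.le
  have := F.card_le_univ
  rw [Fintype.card_fin] at this
  omega

end E87

open E87

/-- **EIGR** -/
theorem eigr87 : EIGR := by
  classical
  intro act lam d l
  obtain ⟨J₀, pos, key⟩ := Qt.prj (l + 1)
  refine ⟨J₀ ^ l, fun L _ _ k N T D s a A m J G π U hp hr => ?_⟩
  have := hp.gp.fin
  have un := hp.un
  obtain ⟨ρ, θ, r1, r2, r3⟩ := rep un a J
  have r4 : ∀ j ∈ J, ρ (ρ j) = ρ j := fun j c => r3 _ (r1 j c) j c _ (r2 j)
  have ct := cnt lam hp r2 r4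
  set F := J.filter fun j => ρ j ≠ j
  have s1 := hp.spn
  have main : ∀ r : J.image ρ, ∃ (B : Subgroup G) (z : J.filter (ρ · = r) → L),
      B.index ≤ (if r.1 ∈ F.image ρ then J₀ else 1) ∧
      (∀ i, z i ∈ Ie A m s a (a r) ∧ z i ∉ I2 A m s a (a r)) ∧
      IeS hp.zero m (a r) ≤ I2 A m s a (a r) ⊔ Submodule.span ℂ (range z) ∧
      ∀ σ ∈ B, ∀ i, ∃ φ, U (a r - π σ (a r)) φ ∧ φ * σ.1 (z i) = z i := by
    rintro ⟨r, hr'⟩
    obtain ⟨j, hj, rfl⟩ := Finset.mem_image.1 hr'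
    have pr : ∀ i ∈ J.filter (ρ · = ρ j), U (a (ρ j) - a i) (θ i) := fun i c =>
      (Finset.mem_filter.1 c).2 ▸ r2 i
    obtain ⟨B, z, b1, b2⟩ := key L G G.subtype _ _ _ (J.filter (ρ · = ρ j))
      (fun i => s i * θ i) (prj_rel act hp.toBu hr (a (ρ j)))
      (by
        rw [Fintype.card_coe]
        refine (Finset.card_le_card (t := insert (ρ j) F) fun i c => ?_).trans
          ((Finset.card_insert_le _ _).trans (by omega))
        obtain ⟨c1, c2⟩ := Finset.mem_filter.1 c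
        by_cases q : ρ i = i
        · exact Finset.mem_insert.2 (.inl (q.symm.trans c2))
        · exact Finset.mem_insert_of_mem (Finset.mem_filter.2 ⟨c1, q⟩))
      (fun i => by
        have := ie_mul (hp.ie i (Finset.mem_filter.1 i.2).1) (pr_sp hp.cox (un.pr _ _ (pr i i.2)))
        rwa [add_sub_cancel] at this)
      (le_trans (b := Sz s s a A m J (a (ρ j)) U) (fun x hx => sz_of s1 hx)
        (sup_le_sup_left (Submodule.span_le.2 (by
        rintro _ ⟨i, hi, η, b, rfl⟩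
        have c : i ∈ J.filter (ρ · = ρ j) :=
          Finset.mem_filter.2 ⟨hi, (r3 _ (r1 j hj) i hi η b).symm.trans (r4 j hj)⟩
        obtain ⟨γ, rfl⟩ := u_uni un (pr i c) b
        rw [mul_smul_comm]
        exact Submodule.smul_mem _ _ (Submodule.subset_span ⟨⟨i, c⟩, rfl⟩))) _))
      (fun c hc => funext fun i => by
        have := hp.min (a (ρ j)) (J.filter (ρ · = ρ j)) θ
          (fun i => if q : i ∈ J.filter (ρ · = ρ j) then c ⟨i, q⟩ else 0)
          (Finset.filter_subset _ _) pr (by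
            rw [← Finset.sum_coe_sort]
            simpa only [SetLike.coe_mem, Finset.coe_mem, dif_pos] using hc) i i.2
        rwa [dif_pos i.2] at this)
    refine ⟨B, z, ?_, b2⟩
    split_ifs with q
    · exact b1.trans (by split_ifs; exacts [pos, le_rfl])
    · rwa [if_pos] at b1
      rw [Fintype.card_coe, Finset.card_eq_one]
      refine ⟨ρ j, Finset.eq_singleton_iff_unique_mem.2
        ⟨Finset.mem_filter.2 ⟨r1 j hj, r4 j hj⟩, fun i c => ?_⟩⟩
      obtain ⟨c1, c2⟩ := Finset.mem_filter.1 c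
      by_contra n
      exact q (Finset.mem_image.2 ⟨i, Finset.mem_filter.2 ⟨c1, fun w => n (w.symm.trans c2)⟩, c2⟩)
  choose B z b1 b2 b3 b4 using main
  have tr : ∀ r r' (_ : r = r') i c c', z r ⟨i, c⟩ = z r' ⟨i, c'⟩ := by
    rintro _ _ rfl _ _ _
    rfl
  let z' : Fin N → L := fun j => if q : j ∈ J then
    z ⟨ρ j, Finset.mem_image_of_mem ρ q⟩ ⟨j, Finset.mem_filter.2 ⟨q, rfl⟩⟩ * (θ j)⁻¹ else 0
  refine ⟨(⨅ r, B r).map G.subtype, Subgroup.map_subtype_le _, ?_, z', fun j q => ?_,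
    spn_of un fun e x hx => ?_⟩
  · rw [Subgroup.relIndex, Subgroup.subgroupOf,
      Subgroup.comap_map_eq_self_of_injective G.subtype_injective]
    refine (Subgroup.index_iInf_le B).trans ((Finset.prod_le_prod' fun r _ => b1 r).trans ?_)
    rw [Finset.prod_coe_sort _ fun r => if r ∈ F.image ρ then J₀ else 1, Finset.prod_ite_mem,
      Finset.prod_const]
    exact Nat.pow_le_pow_right pos ((Finset.card_le_card Finset.inter_subset_right).trans
      (Finset.card_image_le.trans ct))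
  · simp only [z', dif_pos q]
    set r : J.image ρ := ⟨ρ j, Finset.mem_image_of_mem ρ q⟩
    set i : J.filter (ρ · = r) := ⟨j, Finset.mem_filter.2 ⟨q, rfl⟩⟩
    have z0 : z r i ≠ 0 := fun w => (b2 r i).2 (w ▸ zero_mem _)
    have t0 := u_ne un (r2 j)
    refine ⟨by simpa [r] using ie_mul (b2 r i).1 (pr_sp hp.cox (un.pr _ _ (un.inv _ _ (r2 j)))),
      mul_ne_zero z0 (inv_ne_zero t0), ?_⟩
    rintro _ ⟨σ, hσ, rfl⟩
    obtain ⟨φ, v, w⟩ := b4 r σ (Subgroup.mem_iInf.1 hσ r) i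
    refine ⟨φ * σ.1 (θ j) * (θ j)⁻¹, ?_, ?_⟩
    · have := un.mul _ _ _ _ (un.mul _ _ _ _ v (un.act σ σ.2 _ _ (r2 j))) (un.inv _ _ (r2 j))
      rw [map_sub] at this
      convert this using 1
      change a j - π σ (a j) = a (ρ j) - π σ (a (ρ j)) + _ + _
      abel
    · have t1 : σ.1 (θ j) ≠ 0 := (map_ne_zero _).2 t0
      change σ.1 _ * _ = _
      rw [map_mul, map_inv₀]
      conv_rhs => rw [← w]
      field_simp
      exact mul_comm _ _
  · refine (?_ : Sz s s a A m J e U ≤ _) (sz_of s1 hx)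
    refine sup_le le_sup_left (Submodule.span_le.2 ?_)
    rintro _ ⟨j, q, η, b, rfl⟩
    have u : s j * θ j ∈ Sz s z' a A m J (a (ρ j)) U := by
      refine (b3 ⟨ρ j, Finset.mem_image_of_mem ρ q⟩).trans
        (sup_le_sup_left (Submodule.span_le.2 ?_) _) (by
        have := ie_mul (hp.ie j q) (pr_sp hp.cox (un.pr _ _ (r2 j)))
        rwa [add_sub_cancel] at this)
      rintro _ ⟨⟨i, c⟩, rfl⟩
      obtain ⟨c1, c2⟩ := Finset.mem_filter.1 c
      refine Submodule.subset_span ⟨i, c1, θ i, (show ρ i = ρ j from c2) ▸ r2 i, ?_⟩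
      simp only [z', dif_pos c1, inv_mul_cancel_right₀ (u_ne un (r2 i))]
      exact tr _ _ (Subtype.ext c2.symm) _ _ _
    have := sz_mul hp.cox un u (un.mul _ _ _ _ (un.inv _ _ (r2 j)) b)
    rwa [mul_assoc, mul_inv_cancel_left₀ (u_ne un (r2 j)),
      show a (ρ j) + (-(a (ρ j) - a j) + (e - a j)) = e by abel] at this

end Vale.Agent.P283R.Uq
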