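import Vale.Agent.P283R.Uq.St

/-!
# P283R, block UQ: the conormal space of the orbit is small
-/

open Set

noncomputable section

namespace Vale.Agent.P283R.Uq

open Vale.Agent.P287D Vale.Agent.P283M Vale.Agent.P283R.Cx
open Vale.Agent.P283R.Lx (Nz Ie)
open Vale.Agent.P283R.Lx.K33 (I2 IeS)
open Vale.Agent.P283R.Lx.O15 (ie_mul ie_zero nz_one)
open Vale.Agent.P283R.Tq.E87 (i2_sp i2_le pr_sp)
open Vale.Agent.P283R.Tq.S35 (split dg_eq dg_mem ex_mon)

namespace E91

variable {L : Type} [Field L] [Algebra ℂ L] {d k N n : ℕ} {T : Set (Pl L)} {D : Pl L → Fin k → ℤ}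
  {s : Fin N → L} {a : Fin N → Fin k → ℤ} {A : Subalgebra ℂ L} {m : Ideal A}
  {G : Subgroup (L ≃ₐ[ℂ] L)} {π : Ac L k} {U : (Fin k → ℤ) → L → Prop} {e e' : Fin k → ℤ}
  {θ θ' y y' x x' : L} (h : Bu d T D s a A m G π U)

include h

theorem one : U 0 1 := (h.un.cst 1).2 ⟨1, one_ne_zero, (map_one _).symm⟩

theorem usp (p : U e θ) : θ ∈ Sp s a e := pr_sp h.cox (h.un.pr _ _ p)

theorem uni (p : U e θ) (q : U e θ') : ∃ c : ℂ, θ' = c • θ := by
  have := h.un.mul _ _ _ _ q (h.un.inv _ _ p)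
  rw [add_neg_cancel] at this
  obtain ⟨c, -, hc⟩ := (h.un.cst _).1 this
  exact ⟨c, by rw [Algebra.smul_def, ← hc, inv_mul_cancel_right₀ (h.un.pr _ _ p).1]⟩

theorem nie (p : U e θ) : θ ∉ Ie A m s a e := fun c =>
  c.2 _ (usp h (h.un.inv _ _ p)) (by
    rw [mul_inv_cancel₀ (h.un.pr _ _ p).1]; exact nz_one h.max.ne_top)

omit h in
/-- `y = θ (1 + x)` modulo the square -/
def Q (U : (Fin k → ℤ) → L → Prop) (s : Fin N → L) (a : Fin N → Fin k → ℤ) (A : Subalgebra ℂ L)
    (m : Ideal A) (e : Fin k → ℤ) (y x : L) : Prop :=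
  x ∈ Ie A m s a 0 ∧ ∃ θ, ∃ ν ∈ I2 A m s a 0, U e θ ∧ y = θ * (1 + x + ν)

theorem q_one : Q U s a A m 0 1 0 := ⟨ie_zero 0, 1, 0, zero_mem _, one h, by simp⟩

theorem q_mul (p : Q U s a A m e y x) (q : Q U s a A m e' y' x') :
    Q U s a A m (e + e') (y * y') (x + x') := by
  obtain ⟨p0, θ, ν, p1, p2, rfl⟩ := p
  obtain ⟨q0, θ', ν', q1, q2, rfl⟩ := q
  refine ⟨(IeS h.zero m 0).add_mem p0 q0, θ * θ', ν + ν' + (x + ν) * (x' + ν'),
    add_mem (add_mem p1 q1) (Submodule.subset_span ⟨0, _,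
      (IeS h.zero m 0).add_mem p0 (i2_le h.zero p1), _, ?_, rfl⟩), h.un.mul _ _ _ _ p2 q2, by ring⟩
  rw [sub_zero]
  exact (IeS h.zero m 0).add_mem q0 (i2_le h.zero q1)

theorem q_prod {ι : Type} (S : Finset ι) {w : ι → Fin k → ℤ} {y x : ι → L}
    (p : ∀ i ∈ S, Q U s a A m (w i) (y i) (x i)) :
    Q U s a A m (∑ i ∈ S, w i) (∏ i ∈ S, y i) (∑ i ∈ S, x i) := by
  classical
  induction S using Finset.induction_on with
  | empty => simpa using q_one h
  | insert j S hj ih =>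
    rw [Finset.prod_insert hj, Finset.sum_insert hj, Finset.sum_insert hj]
    exact q_mul h (p j (Finset.mem_insert_self _ _)) (ih fun i hi => p i (Finset.mem_insert_of_mem hi))

theorem q_mon {μ : Fin N → L} {c : Fin N → ℕ} (p : ∀ j, c j ≠ 0 → Q U s a A m (a j) (s j) (μ j)) :
    Q U s a A m (dg a c) (∏ j, s j ^ c j) (∑ j, (c j : ℤ) • μ j) := by
  rw [dg_eq]
  refine q_prod h _ fun j _ => ?_
  by_cases z : c j = 0
  · simpa [z] using q_one h
  · simpa using q_prod h (Finset.range (c j)) fun _ _ => p j z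

theorem q_gen {j : Fin N} (p : s j ∉ Ie A m s a (a j)) : ∃ μ, Q U s a A m (a j) (s j) μ := by
  obtain ⟨θ, γ, p1, p2⟩ := (h.orb _ _ (Lx.G3.gen_sp s a j)).resolve_left p
  have g : γ ≠ 0 := fun z => p (by simpa [z] using p2)
  have u : U (a j) (γ • θ) := by
    have := h.un.mul _ _ _ _ ((h.un.cst _).2 ⟨γ, g, rfl⟩) p1
    rwa [zero_add, ← Algebra.smul_def] at this
  have := ie_mul p2 (usp h (h.un.inv _ _ u))
  rw [add_neg_cancel] at this
  refine ⟨_, this, _, 0, zero_mem _, u, ?_⟩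
  have := (h.un.pr _ _ u).1
  generalize γ • θ = η at this
  field_simp
  ring

theorem of_span {z : Fin n → L} {w : Fin n → Fin k → ℤ} {W : Submodule ℂ L}
    (p : y ∈ Submodule.span ℂ {y | ∃ j θ, U (e - w j) θ ∧ y = z j * θ} ⊔ W) :
    ∃ (I : Finset (Fin n)) (θ : Fin n → L) (γ : Fin n → ℂ),
      (∀ j ∈ I, U (e - w j) (θ j)) ∧ y - ∑ j ∈ I, γ j • (z j * θ j) ∈ W := by
  classical
  have ex : ∀ j, ∃ θ, (∃ θ, U (e - w j) θ) → U (e - w j) θ := fun j => by
    by_cases c : ∃ θ, U (e - w j) θ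
    · exact c.imp fun _ q _ => q
    · exact ⟨0, fun q => (c q).elim⟩
  choose θ hθ using ex
  let I := Finset.univ.filter fun j => ∃ θ, U (e - w j) θ
  obtain ⟨u, hu, v, hv, rfl⟩ := Submodule.mem_sup.1 p
  have : u ∈ Submodule.span ℂ ((fun j => z j * θ j) '' I) := Submodule.span_le.2 (by
    rintro _ ⟨j, η, q, rfl⟩
    obtain ⟨c, rfl⟩ := uni h (hθ j ⟨_, q⟩) q
    rw [mul_smul_comm]
    exact Submodule.smul_mem _ _ (Submodule.subset_span
      ⟨j, Finset.mem_coe.2 (Finset.mem_filter.2 ⟨Finset.mem_univ _, _, q⟩), rfl⟩)) hu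
  obtain ⟨g, rfl⟩ := (Submodule.mem_span_image_finset_iff_exists_fun' ℂ).1 this
  exact ⟨I, θ, g, fun j hj => hθ j (Finset.mem_filter.1 hj).2, by rwa [add_sub_cancel_left]⟩

theorem rel : Module.finrank ℤ (LinearMap.ker (Fintype.linearCombination ℤ a)) + k = N := by
  have sur : LinearMap.range (Fintype.linearCombination ℤ a) = ⊤ := by
    rw [Fintype.range_linearCombination]
    refine eq_top_iff.2 fun e _ => ?_
    obtain ⟨e', b, hb, c, hc, b0, c0⟩ := h.cox.fr1 e
    obtain ⟨u, hu⟩ := ex_mon hb b0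
    obtain ⟨v, hv⟩ := ex_mon hc c0
    rw [← add_sub_cancel_right e e', ← hu, ← hv]
    exact sub_mem (dg_mem _ u fun j _ => Submodule.subset_span ⟨j, rfl⟩)
      (dg_mem _ v fun j _ => Submodule.subset_span ⟨j, rfl⟩)
  have c2 := (LinearMap.ker (Fintype.linearCombination ℤ a)).finrank_quotient_add_finrank
  rw [(Fintype.linearCombination ℤ a).quotKerEquivRange.finrank_eq, sur, finrank_top] at c2
  simp only [Module.finrank_fintype_fun_eq_card, Fintype.card_fin] at c2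
  omega

end E91

open E91 in
/-- few generators give few generators of the conormal space -/
theorem emb91 {L : Type} [Field L] [Algebra ℂ L] {d k N l : ℕ} {T : Set (Pl L)}
    {D : Pl L → Fin k → ℤ} {s : Fin N → L} {a : Fin N → Fin k → ℤ} {A : Subalgebra ℂ L}
    {m : Ideal A} {G : Subgroup (L ≃ₐ[ℂ] L)} {π : Ac L k} {U : (Fin k → ℤ) → L → Prop}
    (h : Bu d T D s a A m G π U) (le : N ≤ k + l) : Fw (2 * l) U s a A m := by
  classical
  let J := Finset.univ.filter fun j => s j ∈ Ie A m s a (a j)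
  have hJ : ∀ j, j ∈ J ↔ s j ∈ Ie A m s a (a j) := fun j => by simp [J]
  have ex : ∀ j, ∃ μ ∈ Ie A m s a 0, j ∉ J → Q U s a A m (a j) (s j) μ := fun j => by
    by_cases c : j ∈ J
    · exact ⟨0, ie_zero 0, fun q => (q c).elim⟩
    · obtain ⟨μ, q⟩ := q_gen h (mt (hJ j).2 c)
      exact ⟨μ, q.1, fun _ => q⟩
  choose μ μ0 hμ using ex
  let M := LinearMap.ker (Fintype.linearCombination ℤ a)
  let b := Module.finBasis ℤ M
  let f := Fintype.linearCombination ℤ μ
  let p := J.orderEmbOfFin rfl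
  let q := Jᶜ.orderEmbOfFin rfl
  let z := Fin.append (s ∘ p) fun i => f (b i)
  let w := Fin.append (a ∘ p) fun _ : Fin (Module.finrank ℤ M) => (0 : Fin k → ℤ)
  have f0 : ∀ v, f v ∈ IeS h.zero m 0 := fun v => by
    rw [Fintype.linearCombination_apply]
    exact sum_mem fun j _ => zsmul_mem (μ0 j) _
  have zi : ∀ i, z i ∈ Ie A m s a (w i) := fun i => by
    induction i using Fin.addCases with
    | left i =>
      simp only [z, w, Fin.append_left]
      exact (hJ _).1 (J.orderEmbOfFin_mem rfl i)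
    | right i =>
      simp only [z, w, Fin.append_right]
      exact f0 _
  let W := fun e => Submodule.span ℂ {y | ∃ j θ, U (e - w j) θ ∧ y = z j * θ} ⊔ I2 A m s a e
  have wl : ∀ e, W e ≤ IeS h.zero m e := fun e => sup_le (Submodule.span_le.2 (by
    rintro _ ⟨j, θ, u, rfl⟩
    have := ie_mul (zi j) (usp h u)
    rwa [add_sub_cancel] at this)) (i2_le h.zero)
  have cA : ∀ c : Fin N → ℕ, (∃ j ∈ J, c j ≠ 0) → ∏ i, s i ^ c i ∈ W (dg a c) := by
    rintro c ⟨j, hj, n⟩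
    obtain ⟨y, hy, ey⟩ := split (s := s) (a := a) n
    rw [ey]
    have i2 : ∀ y ∈ Ie A m s a (dg a c - a j), s j * y ∈ W (dg a c) := fun y hy =>
      Submodule.mem_sup_right (Submodule.subset_span ⟨a j, _, (hJ j).1 hj, _, hy, rfl⟩)
    rcases h.orb _ _ hy with r | ⟨θ, γ, u, r⟩
    · exact i2 y r
    obtain ⟨i, rfl⟩ : j ∈ range p := by rw [J.range_orderEmbOfFin]; exact hj
    rw [show s (p i) * y = γ • (s (p i) * θ) + s (p i) * (y - γ • θ) by
      rw [mul_sub, mul_smul_comm, add_sub_cancel]]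
    refine add_mem (Submodule.smul_mem _ _ (Submodule.mem_sup_left (Submodule.subset_span
      ⟨Fin.castAdd _ i, θ, ?_, ?_⟩))) (i2 _ r)
    · simpa only [w, Fin.append_left, Function.comp] using u
    · simp only [z, Fin.append_left, Function.comp]
  have cB : ∀ c : Fin N → ℕ, (¬ ∃ j ∈ J, c j ≠ 0) →
      Q U s a A m (dg a c) (∏ j, s j ^ c j) (f fun j => c j) := fun c n => by
    rw [Fintype.linearCombination_apply]
    exact q_mon h fun j u => hμ j fun t => n ⟨j, t, u⟩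
  have no : ∀ e, (¬ ∃ c : Fin N → ℕ, dg a c = e ∧ ¬ ∃ j ∈ J, c j ≠ 0) → Sp s a e ≤ W e :=
    fun e n => Submodule.span_le.2 (by
      rintro _ ⟨c, rfl, rfl⟩
      exact cA c (not_not.1 fun t => n ⟨c, rfl, t⟩))
  have vq : ∀ j ∉ J, a j ∈ Submodule.span ℤ (range (a ∘ q)) := fun j hj => by
    obtain ⟨i, rfl⟩ : j ∈ range q := by
      rw [Jᶜ.range_orderEmbOfFin]; exact Finset.mem_compl.2 hj
    exact Submodule.subset_span ⟨i, rfl⟩
  refine ⟨_, _, z, w, a ∘ q, ?_, zi, fun e => ⟨fun ⟨θ, u⟩ => ?_, fun u => ?_⟩,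
    fun e φ hφ => of_span h (?_ : φ ∈ W e)⟩
  · have := rel h
    have := J.card_add_card_compl
    rw [Fintype.card_fin] at this
    simp only [M]
    omega
  · obtain ⟨c, rfl, t⟩ := not_not.1 fun n => nie h u (wl e (no e n (usp h u)))
    exact dg_mem _ c fun j n => vq j fun r => t ⟨j, r, n⟩
  · induction u using Submodule.span_induction with
    | mem x hx =>
      obtain ⟨i, rfl⟩ := hx
      obtain ⟨-, θ, -, -, u, -⟩ := hμ (q i) (Finset.mem_compl.1 (Jᶜ.orderEmbOfFin_mem rfl i))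
      exact ⟨θ, u⟩
    | zero => exact ⟨1, one h⟩
    | add x y _ _ hx hy => exact ⟨_, h.un.mul _ _ _ _ hx.choose_spec hy.choose_spec⟩
    | smul c x _ hx =>
      obtain ⟨θ, u⟩ := hx
      induction c using Int.induction_on with
      | zero => exact ⟨1, by simpa using one h⟩
      | succ c ih => exact ⟨_, by simpa [add_smul] using h.un.mul _ _ _ _ ih.choose_spec u⟩
      | pred c ih => exact ⟨_, by
          simpa [sub_smul, sub_eq_add_neg, add_smul] using
            h.un.mul _ _ _ _ ih.choose_spec (h.un.inv _ _ u)⟩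
  by_cases n : ∃ c : Fin N → ℕ, dg a c = e ∧ ¬ ∃ j ∈ J, c j ≠ 0
  swap
  · exact no e n hφ.1
  obtain ⟨c0, rfl, t0⟩ := n
  obtain ⟨-, θ0, -, -, u0, -⟩ := cB c0 t0
  have fm : ∀ v ∈ M, θ0 * f v ∈ W (dg a c0) := fun v hv => by
    have := congrArg (fun x : M => θ0 * f x) (b.sum_repr ⟨v, hv⟩)
    simp only [AddSubmonoidClass.coe_finsetSum, SetLike.val_smul, map_sum, map_smul,
      Finset.mul_sum, mul_smul_comm] at this
    rw [← this]
    refine sum_mem fun i _ => zsmul_mem (Submodule.mem_sup_left (Submodule.subset_span ?_)) _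
    refine ⟨Fin.natAdd _ i, θ0, ?_, ?_⟩
    · simpa only [w, Fin.append_right, sub_zero] using u0
    · simp only [z, Fin.append_right, mul_comm]
  have le : Sp s a (dg a c0) ≤ Submodule.span ℂ {θ0 * (1 + f fun j => c0 j)} ⊔ W (dg a c0) :=
    Submodule.span_le.2 (by
      rintro _ ⟨c, hc, rfl⟩
      have hc : dg a c = dg a c0 := hc
      by_cases t : ∃ j ∈ J, c j ≠ 0
      · exact Submodule.mem_sup_right (hc ▸ cA c t)
      obtain ⟨-, θ, ν, v1, u, ey⟩ := cB c t
      rw [hc] at u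
      obtain ⟨γ, rfl⟩ := uni h u0 u
      change ∏ j, s j ^ c j ∈ _
      rw [ey, show γ • θ0 * (1 + (f fun j => c j) + ν) = γ • (θ0 * (1 + f fun j => c0 j) +
        (θ0 * f ((fun j => (c j : ℤ)) - fun j => (c0 j : ℤ)) + ν * θ0)) by
          rw [map_sub, smul_mul_assoc]; congr 1; ring]
      refine Submodule.smul_mem _ _ (Submodule.add_mem_sup (Submodule.mem_span_singleton_self _)
        (add_mem (fm _ ?_) (Submodule.mem_sup_right ?_)))
      · rw [LinearMap.mem_ker, map_sub, Fintype.linearCombination_apply,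
          Fintype.linearCombination_apply, ← dg_eq, ← dg_eq, hc, sub_self]
      · simpa using i2_sp v1 (usp h u0))
  obtain ⟨_, hu, y, hy, rfl⟩ := Submodule.mem_sup.1 (le hφ.1)
  obtain ⟨γ, rfl⟩ := Submodule.mem_span_singleton.1 hu
  obtain rfl : γ = 0 := by_contra fun g => nie h u0 (by
    have m1 := ((IeS h.zero m _).smul_mem_iff g).1
      (add_sub_cancel_right (γ • (θ0 * (1 + f fun j => c0 j))) y ▸
        (IeS h.zero m _).sub_mem hφ (wl _ hy))
    have m2 := ie_mul (f0 fun j => c0 j) (usp h u0)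
    rw [zero_add] at m2
    have := (IeS h.zero m _).sub_mem m1 m2
    rwa [show θ0 * (1 + f fun j => c0 j) - (f fun j => c0 j) * θ0 = θ0 by ring] at this)
  rwa [zero_smul, zero_add]

end Vale.Agent.P283R.Uq
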