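import Vale.Agent.P283R.Uq.St2

/-!
# P283R, block UQ: the row ETGR
-/

set_option linter.all false

open Set

noncomputable section

namespace Vale.Agent.P283R.Uq

open Vale.Agent.P287D Vale.Agent.P283M Vale.Agent.P297Z Vale.Agent.P283R.Cx
open Vale.Agent.P283R.Lx (Nz)
open Vale.Agent.P283R.Tq (Cj Qt cv Out up)

namespace G12

variable {K L : Type} [Field K] [Algebra ℂ K] [Field L] [Algebra ℂ L] {d k N : ℕ}
  {T : Set (Pl L)} {D : Pl L → Fin k → ℤ} {s : Fin N → L} {a : Fin N → Fin k → ℤ}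

theorem nn (x : Cox T D s a) {g : L} (hg : g ∈ Sp s a 0) {P : Pl L} (h : P ∈ T) : 0 ≤ P.ord g := by
  rcases eq_or_ne g 0 with rfl | g0
  · simp
  · simpa using (x.sec 0 g g0).1 hg P h

theorem clr (x : Cox T D s a) {g φ : L} (hg : g ∈ Sp s a 0) (g0 : g ≠ 0) (φ0 : φ ≠ 0)
    {e : Fin k → ℤ} (h : ∀ P ∈ T, P.ord g = 0 → 0 ≤ P.ord φ + e ⬝ᵥ D P) :
    ∃ n : ℕ, g ^ n * φ ∈ Sp s a e := by
  classical
  obtain ⟨M, hM⟩ := ((x.fin φ e).image fun P => (P.ord φ + e ⬝ᵥ D P).natAbs).bddAbove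
  refine ⟨M, (x.sec e _ (mul_ne_zero (pow_ne_zero _ g0) φ0)).2 fun P p => ?_⟩
  rw [Pl.ord_mul _ (pow_ne_zero _ g0) φ0, Pl.ord_pow, add_assoc]
  have n := nn x hg p
  have m0 : (0 : ℤ) ≤ M := Int.natCast_nonneg M
  rcases n.eq_or_lt with z | z
  · rw [← z, mul_zero, zero_add]
    exact h P p z.symm
  · have b : (M : ℤ) * 1 ≤ M * P.ord g := mul_le_mul_of_nonneg_left z m0
    by_cases c : P.ord φ + e ⬝ᵥ D P = 0
    · omega
    · have : (P.ord φ + e ⬝ᵥ D P).natAbs ≤ M := hM ⟨P, ⟨p, c⟩, rfl⟩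
      omega

theorem term (P : Pl L) {S : Set L} {φ : L} (h : φ ∈ Submodule.span ℂ S) (φ0 : φ ≠ 0) :
    ∃ x ∈ S, x ≠ 0 ∧ P.ord x ≤ P.ord φ := by
  by_contra! c
  have : Submodule.span ℂ S ≤ P.sub (-(P.ord φ + 1)) := Submodule.span_le.2 fun x hx => by
    rcases eq_or_ne x 0 with rfl | x0
    · exact zero_mem _
    · have h2 : (P.ord φ : ℝ) + 1 ≤ P.ord x := by exact_mod_cast c x hx x0
      exact .inr (by linarith)
  linarith [(this h).resolve_left φ0]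

theorem nz0 {A : Subalgebra ℂ L} {m : Ideal A} {x : L} (h : Nz A m x) : x ≠ 0 := by
  obtain ⟨a, b⟩ := h
  rintro rfl
  exact b m.zero_mem

theorem nz_mul {A : Subalgebra ℂ L} {m : Ideal A} (hm : m.IsPrime) {x y : L} (hx : Nz A m x)
    (hy : Nz A m y) : Nz A m (x * y) :=
  ⟨mul_mem hx.1 hy.1, fun c => (hm.mem_or_mem (x := ⟨x, hx.1⟩) (y := ⟨y, hy.1⟩) c).elim hx.2 hy.2⟩

theorem nz_pow {A : Subalgebra ℂ L} {m : Ideal A} (hm : m.IsPrime) {x : L} (h : Nz A m x)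
    (n : ℕ) : Nz A m (x ^ n) :=
  ⟨pow_mem h.1 n, fun c => h.2 (hm.mem_of_pow_mem n c)⟩

variable [Algebra K L] [IsScalarTower ℂ K L]

theorem ov (hK : FF K d) (hL : FF L d) {T₀ : Set (Pl K)} {P : Pl K} {Q : Pl L} {z : L}
    (o : ∀ x, (∀ R ∈ T₀, x ∈ R.ring) → x ∈ P.ring) (l : Lies (algebraMap K L) Q P)
    (h : ∀ R ∈ T₀, ∀ U, Lies (algebraMap K L) U R → z ∈ U.ring) : z ∈ Q.ring := by
  have := Pb.fin_of_ff hK hL
  have hi := Algebra.IsIntegral.isIntegral (R := K) z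
  have i : IsIntegral Q.ring z := Fre.int_of ((minpoly.monic hi).map (algebraMap K L))
    (fun i => ⟨⟨_, (l _).1 (o _ fun R r => Tq.F55.int (h R r) i)⟩, by
      rw [Polynomial.coeff_map]; rfl⟩) (by rw [Polynomial.eval_map_algebraMap, minpoly.aeval])
  obtain ⟨w, hw⟩ := IsIntegrallyClosed.isIntegral_iff.1 i
  exact hw ▸ w.2

omit [Algebra K L] [IsScalarTower ℂ K L] in
theorem out (lcx : LCX) {l J : ℕ} {T₀ T₁ : Set (Pl K)} {Z : Pl K → Fin k → ℤ} {g : K}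
    (h : Out d l J T₀ T₁ Z) (le : T₁ ⊆ T₀) (g0 : g ≠ 0) (hg : ∀ P ∈ T₁, 0 ≤ P.ord g) :
    Out d (l + 1) J (Tz T₁ g) (Tz T₁ g) Z := by
  obtain ⟨K', _, _, _, _, k', N', D', s', a', h1, h2, h3, h4, h5⟩ := h
  have g1 := (map_ne_zero (algebraMap K K')).2 g0
  have c := lcx K' _ _ _ _ _ _ (algebraMap K K' g) h5 ((h5.sec 0 _ g1).2 fun Q ⟨P, p, l⟩ => by
    rw [zero_dotProduct, add_zero, l.ord]
    exact mul_nonneg l.e_pos.le (hg P p)) g1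
  refine ⟨K', inferInstance, inferInstance, inferInstance, inferInstance, k', N' + 1, D',
    Fin.cons (algebraMap K K' g)⁻¹ s', Fin.cons 0 a', h1, h2, fun P p => h3 P (le p.1), by omega, ?_⟩
  convert c using 1
  ext Q
  refine ⟨fun ⟨P, p, l⟩ => ⟨⟨P, p.1, l⟩, by rw [l.ord, p.2, mul_zero]⟩,
    fun ⟨⟨P, p, l⟩, z⟩ => ⟨P, ⟨p, ?_⟩, l⟩⟩
  rw [l.ord] at z
  exact (mul_eq_zero.1 z).resolve_left l.e_pos.ne'

end G12

open G12 in
/-- **ETGR** -/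
theorem etgr12 : ETGR := by
  intro lcx pre kx uur emu nky opn qtf pnt stg d l
  obtain ⟨J₀, stg⟩ := stg d (l + d + 3)
  refine ⟨d + (l + d + 3) + 3 + 1, J₀, ?_⟩
  intro L _ _ k N T D s a A m G π K _ _ _ _ T₀ k₀ Z w e rw eb qt hw hZ
  obtain ⟨F, _, _, _, _, t, ex⟩ := Cx.ext L d k rw.ff
  obtain ⟨p, r, v, u, ob⟩ := Lx.orb L F d k N t s a A m ⟨ex, rw.zero, rw.fg, rw.max⟩
  obtain ⟨γ₀, c, n0, f0, h1, h2⟩ := pre L d k N T D s a A m G π rw F t p r v u ob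
  have fG := rw.gp.fin
  have c0 : 0 < Nat.card G := Nat.card_pos
  obtain ⟨L', _, _, _, _, N', T', D', s', a', A', m', G', G'', π', β, ku, hβ⟩ :=
    kx L d k N T D s a A m G π rw r _ γ₀ c c0 n0 f0 fun j => (h1 j).2
  have bu := uur L L' d k N N' T D s a A m G π γ₀ T' D' s' a' A' m' G' G'' π' rw ku F t p r _ v u c β
    c0 ob h1 h2 fun j => (hβ j).1
  have fw := emu L L' d k N N' T D s a A m G π γ₀ T' D' s' a' A' m' G' G'' π' rw ku F t p r l v u β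
    ex ob (eb F t p r v u ex ob) (fun j => (hβ j).2) bu
  obtain ⟨γ₁, N'', s'', a'', A'', m'', J, n1, f1, pu, bk⟩ :=
    pnt d l L' k N' T' D' s' a' A' m' G'' π' _ bu fw
  obtain ⟨g, ng, hg⟩ := nky L L' d k N N' T D s a A m G π γ₀ T' D' s' a' A' m' G' G'' π' rw ku
    (cv w e) fun σ h => by
      rw [cv, map_sum]
      exact Finset.sum_congr rfl fun i _ => by rw [map_zsmul, hw σ h]
  let _ : Algebra K L' := ((algebraMap L L').comp (algebraMap K L)).toAlgebra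
  have kl : ∀ x, algebraMap K L' x = algebraMap L L' (algebraMap K L x) := fun _ => rfl
  have : IsScalarTower ℂ K L' := .of_algebraMap_eq fun x => by
    rw [kl, ← IsScalarTower.algebraMap_apply ℂ K L, ← IsScalarTower.algebraMap_apply ℂ L L']
  have hL := ku.rw.ff
  have pm := ku.rw.max.isPrime
  have fx : ∀ x, Fix G' (algebraMap K L' x) := fun x => (ku.fix _).2 ⟨_, (qt.fix _).2 ⟨x, rfl⟩, rfl⟩
  have dnT : ∀ Q ∈ T', ∀ P, Lies (algebraMap K L') Q P → P ∈ T₀ ∧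
      Q.ord (algebraMap K L' P.t) = 1 ∧ ∀ i, Z P i = w i ⬝ᵥ D' Q := fun Q q P l => by
    obtain ⟨P₁, p1, l1⟩ := (ku.lies Q).1 q
    obtain ⟨P₀, p0, l0⟩ := (qt.lies P₁).1 p1.1
    obtain rfl : P = P₀ := l.uniq (l1.comp l0)
    obtain ⟨e1, e2⟩ := ku.unr Q q P₁ l1
    exact ⟨p0, by rw [kl, l1.ord, e1, qt.unr P p0 P₁ l0, one_mul],
      fun i => e2 ▸ hZ P₁ p1.1 P l0 i⟩
  obtain ⟨K₁, _, _, _, _, _, _, _, q1⟩ := qtf K L' d (Tz T' γ₁) G'' qt.ff hL ku.rw.gp.fin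
    (fun x σ h => fx x σ (ku.le h)) pu.gp.stT fun Q q P l => (dnT Q q.1 P l).2.1
  have k1 : ∀ x, algebraMap K L' x = algebraMap K₁ L' (algebraMap K K₁ x) :=
    IsScalarTower.algebraMap_apply K K₁ L'
  choose dn hdn using Pb.down qt.ff q1.ff
  have lc : ∀ {Q R P}, Lies (algebraMap K₁ L') Q R → Lies (algebraMap K K₁) R P →
      Lies (algebraMap K L') Q P := fun x y f => k1 f ▸ x.comp y f
  obtain ⟨γ₂, n2, ot⟩ := stg L' k N'' _ D' s'' a'' A'' m'' J G'' π' _ pu K₁ _ k₀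
    (fun R => Z (dn R)) w q1 (fun σ h i => by
      obtain ⟨τ, b, -, z⟩ := ku.res σ h
      rw [z, hw τ b]) fun Q q R l i => (dnT Q q.1 _ (lc l (hdn R))).2.2 i
  obtain ⟨n, n3⟩ := bk _ n2
  have n4 := nz_mul pm n1 n3
  obtain ⟨h, nh, fh, hh⟩ := opn L' A' m' G' _ ku.rw.max ku.fin ku.stab (nz_mul pm ng n4)
  obtain ⟨x, x1, rfl⟩ := (ku.fix h).1 fh
  have A1 : ∀ μ ∈ A', ∀ Q ∈ T', 0 ≤ Q.ord μ := fun μ b Q q => nn ku.rw.cox ((ku.rw.zero μ).1 b) q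
  have x0 : x ≠ 0 := (map_ne_zero _).1 (nz0 nh)
  obtain ⟨n', xA⟩ := clr rw.cox ((rw.zero _).1 n0.1) (nz0 n0) x0 (e := 0) fun P b z => by
    obtain ⟨Q, l⟩ := Pb.up_alg hL P
    have := A1 _ nh.1 Q ((ku.lies Q).2 ⟨P, ⟨b, z⟩, l⟩)
    rw [l.ord, mul_nonneg_iff_of_pos_left l.e_pos] at this
    simpa using this
  replace xA := (rw.zero _).2 xA
  have n5 := (ku.nz _ n0.1).2.1 n0
  have n6 : Nz A' m' (algebraMap L L' (γ₀ ^ n' * x)) := by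
    rw [map_mul, map_pow]
    exact nz_mul pm (nz_pow pm n5 _) nh
  obtain ⟨γ, hγ⟩ := (qt.fix (γ₀ * (γ₀ ^ n' * x))).1 fun σ b => by
    rw [map_mul, map_mul, map_pow, f0 σ b, x1 σ b]
  have n7 : Nz A' m' (algebraMap K L' γ) := by
    rw [kl, hγ, map_mul]
    exact nz_mul pm n5 n6
  have γ0 : γ ≠ 0 := (map_ne_zero _).1 (nz0 n7)
  have upT : ∀ R ∈ Tz T₀ γ, ∀ U, Lies (algebraMap K L') U R → U ∈ T' := fun R b U l => by
    obtain ⟨P, l1⟩ := Pb.down rw.ff hL U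
    have l0 : Lies (algebraMap K L) P R := l1.of_comp l
    have p := (qt.lies P).2 ⟨R, b.1, l0⟩
    have z := l0.ord γ
    rw [b.2, mul_zero, hγ, Pl.ord_mul _ (nz0 n0) (mul_ne_zero (pow_ne_zero _ (nz0 n0)) x0)] at z
    have := nn rw.cox ((rw.zero _).1 n0.1) p
    have := nn rw.cox ((rw.zero _).1 xA) p
    exact (ku.lies U).2 ⟨P, ⟨p, by omega⟩, l1⟩
  have g1 := (map_ne_zero (algebraMap K K₁)).2 γ0
  refine ⟨γ, hγ ▸ nz_mul rw.max.isPrime n0 ((ku.nz _ xA).2.2 n6), K₁, inferInstance,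
    inferInstance, inferInstance, inferInstance, _, fun R => Z (dn R), q1.ff, ?_,
    out lcx ot (fun _ b => b.1) g1 ?_, fun P o => ?_⟩
  · rintro R ⟨⟨⟨Q, q, l⟩, -⟩, z⟩
    obtain ⟨b1, b2, -⟩ := dnT Q q.1 _ (lc l (hdn R))
    rw [(hdn R).ord] at z
    rw [k1, l.ord] at b2
    exact ⟨dn R, ⟨b1, (mul_eq_zero.1 z).resolve_left (hdn R).e_pos.ne'⟩, hdn R,
      Int.eq_one_of_mul_eq_one_left (hdn R).e_pos.le b2, rfl⟩
  · rintro R ⟨⟨Q, q, l⟩, -⟩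
    have := A1 _ n7.1 Q q.1
    rwa [k1, l.ord, mul_nonneg_iff_of_pos_left l.e_pos] at this
  obtain ⟨Q₀, l₀⟩ := Pb.up_alg hL P
  have A2 : ∀ μ ∈ A', μ ∈ Q₀.ring := fun μ b => ov qt.ff hL o l₀ fun R r U l => by
    rcases eq_or_ne μ 0 with rfl | z
    · exact zero_mem _
    · exact (Pl.ord_nonneg_iff _ z).1 (A1 μ b U (upT R r U l))
  have A3 : ∀ μ ∈ A', 0 ≤ Q₀.ord μ := fun μ b => Pl.ord_nonneg_of_mem _ (A2 μ b)
  have o1 : Q₀.ord (algebraMap K L' γ) = 0 := by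
    have := Pl.ord_nonneg_of_mem _ ((l₀ _).1 (o γ⁻¹ fun R b =>
      (Pl.ord_nonneg_iff _ (inv_ne_zero γ0)).1 (by rw [Pl.ord_inv, b.2, neg_zero])))
    rw [map_inv₀, Pl.ord_inv] at this
    have := A3 _ n7.1
    omega
  obtain ⟨σ, b, Q, cj, o2⟩ := hh Q₀ A2 (by
    have z := o1
    rw [kl, hγ, map_mul, map_mul, map_pow, ← mul_assoc, Pl.ord_mul _
      (mul_ne_zero (nz0 n5) (pow_ne_zero _ (nz0 n5))) (nz0 nh)] at z
    have := A3 _ (mul_mem n5.1 (pow_mem n5.1 n'))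
    have := A3 _ nh.1
    omega)
  have A4 : ∀ μ ∈ A', 0 ≤ Q.ord μ := fun μ c => cj μ ▸ A3 _ (ku.stab σ b μ c)
  have n8 := nz_mul pm n4 n7
  have o3 : Q.ord g = 0 ∧
      Q.ord (γ₁ * (γ₁ ^ n * algebraMap K₁ L' γ₂) * algebraMap K L' γ) = 0 := by
    rw [Pl.ord_mul _ (nz0 ng) (nz0 n4)] at o2
    rw [Pl.ord_mul _ (nz0 n4) (nz0 n7), cj (algebraMap K L' γ), fx γ σ b, o1]
    have := A4 _ ng.1
    have := A4 _ n4.1
    omega
  obtain ⟨R, l⟩ := Pb.down q1.ff hL Q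
  have cl : ∀ (ψ : K₁) (e : Fin k₀ → ℤ), ψ ≠ 0 → (∀ R ∈ Tz (Tz {R : Pl K₁ | ∃ Q ∈ Tz T' γ₁,
      Lies (algebraMap K₁ L') Q R} γ₂) (algebraMap K K₁ γ), 0 ≤ R.ord ψ + e ⬝ᵥ Z (dn R)) → ∃ M : ℕ,
      (γ₁ * (γ₁ ^ n * algebraMap K₁ L' γ₂) * algebraMap K L' γ) ^ M * algebraMap K₁ L' ψ ∈
        Sp s' a' (cv w e) := fun ψ e ψ0 hψ => by
    refine clr ku.rw.cox ((ku.rw.zero _).1 n8.1) (nz0 n8) ((map_ne_zero _).2 ψ0) fun U q z => ?_
    obtain ⟨V, l⟩ := Pb.down q1.ff hL U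
    rw [Pl.ord_mul _ (nz0 n4) (nz0 n7), Pl.ord_mul _ (nz0 n1) (nz0 n3)] at z
    have a1 := A1 _ n1.1 U q
    have a2 := A1 _ n3.1 U q
    have a3 := A1 _ n7.1 U q
    have z1 : U.ord γ₁ = 0 := by omega
    have v : V ∈ {R : Pl K₁ | ∃ Q ∈ Tz T' γ₁, Lies (algebraMap K₁ L') Q R} := ⟨U, ⟨q, z1⟩, l⟩
    have lo : ∀ f, U.ord (algebraMap K₁ L' f) = V.ord f := fun f => by
      rw [l.ord, q1.unr V v U l, one_mul]
    rw [Pl.ord_mul _ (pow_ne_zero _ (nz0 n1)) (nz0 n2), Pl.ord_pow, z1, mul_zero, zero_add,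
      lo] at z a2
    rw [k1, lo] at z a3
    have := hψ V ⟨⟨v, by omega⟩, by omega⟩
    rw [lo, cv, sum_dotProduct]
    convert this using 2
    exact Finset.sum_congr rfl fun i _ => by
      rw [smul_dotProduct, smul_eq_mul, (dnT U q _ (lc l (hdn V))).2.2 i]
  have lP : Lies (algebraMap K L') Q P := Tq.S48.lies_cj cj (fun x => fx x σ b) l₀
  refine ⟨R, fun f => (lP f).trans (k1 f ▸ (l _).symm), fun ψ hψ => ?_, fun ψ ψ0 hψ => ?_⟩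
  · rcases eq_or_ne ψ 0 with rfl | ψ0
    · exact zero_mem _
    obtain ⟨M, hM⟩ := cl ψ 0 ψ0 fun V v => by simpa using Pl.ord_nonneg_of_mem _ (hψ V v)
    have ψ1 := (map_ne_zero (algebraMap K₁ L')).2 ψ0
    have := A4 _ ((ku.rw.zero _).2 (by simpa [cv] using hM))
    rw [Pl.ord_mul _ (pow_ne_zero _ (nz0 n8)) ψ1, Pl.ord_pow, o3.2, mul_zero, zero_add] at this
    exact (l ψ).2 ((Pl.ord_nonneg_iff _ ψ1).1 this)
  · obtain ⟨M, hM⟩ := cl ψ e ψ0 hψ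
    have ψ1 := (map_ne_zero (algebraMap K₁ L')).2 ψ0
    have fk : ∀ f, Fix G'' (algebraMap K₁ L' f) := fun f => (q1.fix _).2 ⟨f, rfl⟩
    have m0 := mul_ne_zero (pow_ne_zero M (nz0 n8)) ψ1
    obtain ⟨_, ⟨μ, hμ, χ, c1, c2, rfl⟩, z, le⟩ := term Q (hg _ hM fun τ i => by
      simp only [map_mul, map_pow, f1 τ i, fk _ τ i, fx _ τ (ku.le i)]) (mul_ne_zero (nz0 ng) m0)
    obtain ⟨χ, rfl⟩ := (qt.fix χ).1 c2
    have z1 := right_ne_zero_of_mul z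
    have z2 := (map_ne_zero _).1 z1
    refine ⟨χ, (map_ne_zero _).1 z2, fun V v => ?_, ?_⟩
    · obtain ⟨U, lU⟩ := Pb.up_alg rw.ff V
      have p := (qt.lies U).2 ⟨V, v.1, lU⟩
      have := (rw.cox.sec _ _ z2).1 c1 U p
      rw [lU.ord, qt.unr V v.1 U lU, one_mul, cv, sum_dotProduct] at this
      convert this using 2
      exact Finset.sum_congr rfl fun i _ => by rw [smul_dotProduct, smul_eq_mul, hZ U p V lU i]
    · rw [Pl.ord_mul _ (left_ne_zero_of_mul z) z1, Pl.ord_mul _ (nz0 ng) m0, Pl.ord_mul _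
        (pow_ne_zero _ (nz0 n8)) ψ1, Pl.ord_pow, o3.1, o3.2, mul_zero, zero_add, zero_add, ← kl, k1,
        l.ord, l.ord ψ] at le
      have := A4 μ hμ
      exact le_of_mul_le_mul_left (by omega) l.e_pos

end Vale.Agent.P283R.Uq
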