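import Vale.Agent.P283R.Uq.Nkm32
import Vale.Agent.P283R.Uq.Etl23

/-!
# P283R, block UQ: the first stage if the point is not fixed
-/

open Set

noncomputable section

namespace Vale.Agent.P283R.Uq

open Vale.Agent.P287D Vale.Agent.P283M Vale.Agent.P283R.Cx Vale.Agent.P297Z
open Vale.Agent.P283R.Lx (Nz Ie)
open Vale.Agent.P283R.Lx.O15 (nz_mul)
open Vale.Agent.P283R.Tq (cv Qt Cj Out)
open E23 M32

namespace M32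

theorem loco {K : Type} [Field K] [Algebra ℂ K] {d l J k : ℕ} {T : Set (Pl K)}
    {Z : Pl K → Fin k → ℤ} (fK : FF K d) (h : Out d l J T T Z) {g : K} (g0 : g ≠ 0)
    (hg : ∀ R ∈ T, g ∈ R.ring) {e : Fin k → ℤ} {ψ : K} (ψ0 : ψ ≠ 0)
    (hψ : ∀ R ∈ Tz T g, 0 ≤ R.ord ψ + e ⬝ᵥ Z R) :
    ∃ j : ℕ, ∀ R ∈ T, 0 ≤ R.ord (g ^ j * ψ) + e ⬝ᵥ Z R := by
  obtain ⟨K', _, _, _, _, k', N', D', s', a', ff, -, un, -, cx⟩ := h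
  have := Pb.fin_of_ff fK ff
  have g1 := (map_ne_zero (algebraMap K K')).2 g0
  have ψ1 := (map_ne_zero (algebraMap K K')).2 ψ0
  have tr : ∀ R ∈ T, ∀ Q, Lies (algebraMap K K') Q R → ∀ y : K,
      Q.ord (algebraMap K K' y) + Fin.append e 0 ⬝ᵥ D' Q = R.ord y + e ⬝ᵥ Z R := fun R r Q lq y => by
    rw [lq.ord, (un R r Q lq).1, one_mul]
    simp [dotProduct, Fin.sum_univ_add, (un R r Q lq).2]
  obtain ⟨j, hj⟩ := loc cx ((cx.sec _ _ g1).2 fun Q ⟨R, r, lq⟩ => by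
    rw [zero_dotProduct, add_zero]
    exact Pl.ord_nonneg_of_mem _ ((lq g).1 (hg R r))) g1 (e := Fin.append e 0) ψ1
    fun Q ⟨R, r, lq⟩ z => tr R r Q lq ψ ▸ hψ R ⟨r, (ord_zero lq g).1 z⟩
  refine ⟨j, fun R r => ?_⟩
  obtain ⟨Q, lq⟩ := Pb.up_fin (K' := K') R
  rw [← tr R r Q lq, map_mul, map_pow]
  exact (cx.sec _ _ (mul_ne_zero (pow_ne_zero _ g1) ψ1)).1 hj Q ⟨R, r, lq⟩

end M32

/-- **ETV32**: the first stage -/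
def ETV32 : Prop := ∀ d l, ∃ l₀ J₀ : ℕ, ∀ (L : Type) [Field L] [Algebra ℂ L] (k N : ℕ)
  (T : Set (Pl L)) (D : Pl L → Fin k → ℤ) (s : Fin N → L) (a : Fin N → Fin k → ℤ)
  (A : Subalgebra ℂ L) (m : Ideal A) (G : Subgroup (L ≃ₐ[ℂ] L)) (π : Ac L k) (K : Type) [Field K]
  [Algebra ℂ K] [Algebra K L] [IsScalarTower ℂ K L] (T₀ : Set (Pl K)) (k₀ : ℕ)
  (Z : Pl K → Fin k₀ → ℤ) (w : Fin k₀ → Fin k → ℤ) (e : Fin k₀ → ℤ) (γ₀ : L) (u : L → Prop),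
    Rv d T D s a A m G π → (∀ x y, u x → (u (x * y) ↔ u y)) → (∀ y, Nz A m y ↔ y ∈ A ∧ u y) →
    Nz A m γ₀ → (∀ x, Nz A m x → ∃ (N₁ : ℕ) (s₁ : Fin N₁ → L) (a₁ : Fin N₁ → Fin k → ℤ)
      (A₁ : Subalgebra ℂ L) (m₁ : Ideal A₁), Cox (Tz T (γ₀ * x)) D s₁ a₁ ∧
      (∀ y, y ∈ A₁ ↔ y ∈ Sp s₁ a₁ 0) ∧ A₁.FG ∧ m₁.IsMaximal ∧ (∀ y, Nz A₁ m₁ y ↔ y ∈ A₁ ∧ u y) ∧
      Eb d l s₁ a₁ A₁ m₁) → Qt d T₀ T G → (∀ σ ∈ G, ∀ i, π σ (w i) = w i) →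
    (∀ P ∈ T, ∀ Q, Lies (algebraMap K L) P Q → ∀ i, Z Q i = w i ⬝ᵥ D P) →
    ∃ γ : K, Nz A m (algebraMap K L γ) ∧ Ot d l₀ J₀ (Tz T₀ γ) Z e

theorem etv32 (lcx : LCX) (opn : OPN) (qtf : QTF) (etg : ETG) : ETV32 := by
  intro d l
  classical
  obtain ⟨l₀, J₀, etg⟩ := etg d l
  refine ⟨l₀ + 1, J₀, fun L _ _ k N T D s a A m G π K _ _ _ _ T₀ k₀ Z w e γ₀ u R hu nA n0 lo qt pw
    hw => ?_⟩
  obtain ⟨H, le, hH⟩ := stb A m R.fin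
  have := R.fin
  have fH : Finite H := Finite.of_injective _ (Subgroup.inclusion_injective le)
  have := Fintype.ofFinite H
  have pr := R.max.isPrime
  have fKL := Pb.fin_of_ff qt.ff R.ff
  have rA : ∀ {z}, z ∈ A → ∀ U ∈ T, z ∈ U.ring := fun hz U u =>
    ring_of R.cox ((R.zero _).1 hz) u
  have fxK : ∀ y, Fix G (algebraMap K L y) := fun y => (qt.fix _).2 ⟨y, rfl⟩
  have nx : Nz A m (∏ σ ∈ Finset.univ.erase (1 : H), σ.1 γ₀) :=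
    Finset.prod_induction _ _ (fun _ _ => nz_mul pr) (pow_zero γ₀ ▸ L79.nz_pow pr n0 0)
      fun σ _ => (hH σ (le σ.2)).1 σ.2 _ n0
  obtain ⟨N₁, s₁, a₁, A₁, m₁, cx₁, z₁, fg₁, mx₁, nA₁, eb⟩ := lo _ nx
  have n1 := nz_mul pr n0 nx
  have f1 : Fix H (γ₀ * ∏ σ ∈ Finset.univ.erase (1 : H), σ.1 γ₀) := fun σ h => by
    rw [show γ₀ * _ = ∏ τ : H, τ.1 γ₀ from
      Finset.mul_prod_erase _ (fun τ : H => τ.1 γ₀) (Finset.mem_univ 1), map_prod]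
    exact Fintype.prod_equiv (Equiv.mulLeft ⟨σ, h⟩) _ _ fun _ => rfl
  generalize γ₀ * ∏ σ ∈ Finset.univ.erase (1 : H), σ.1 γ₀ = γ₁ at cx₁ n1 f1
  clear nx lo n0
  have cp : ∀ y, Nz A₁ m₁ y ↔ ∃ n : ℕ, Nz A m (γ₁ ^ n * y) := fun y => by
    have up := fun n => hu _ y ((nA _).1 (L79.nz_pow pr n1 n)).2
    refine ⟨fun h => ?_, fun ⟨n, h⟩ => (nA₁ y).2 ⟨?_, (up n).1 ((nA _).1 h).2⟩⟩
    · obtain ⟨n, hn⟩ := loc R.cox ((R.zero _).1 n1.1) (nz_ne n1) (nz_ne h) fun P p z =>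
        (cx₁.sec _ _ (nz_ne h)).1 ((z₁ y).1 h.1) P ⟨p, z⟩
      exact ⟨n, (nA _).2 ⟨(R.zero _).2 hn, (up n).2 ((nA₁ y).1 h).2⟩⟩
    · have y0 := right_ne_zero_of_mul (nz_ne h)
      refine (z₁ y).2 ((cx₁.sec _ _ y0).2 fun P p => ?_)
      have := (R.cox.sec _ _ (nz_ne h)).1 ((R.zero _).1 h.1) P p.1
      rwa [Pl.ord_mul _ (pow_ne_zero _ (nz_ne n1)) y0, Pl.ord_pow, p.2, mul_zero, zero_add] at this
  have sT : ∀ σ ∈ H, ∀ P ∈ Tz T γ₁, ∀ P', Cj σ P P' → P' ∈ Tz T γ₁ := fun σ h P p P' c =>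
    ⟨R.stT σ (le h) P p.1 P' c, by rw [c, f1 σ h, p.2]⟩
  have dn : ∀ U ∈ T, ∀ P, Lies (algebraMap K L) U P → P ∈ T₀ := fun U u P lu => by
    obtain ⟨P₀, p0, l0⟩ := (qt.lies U).1 u
    exact lu.uniq l0 ▸ p0
  obtain ⟨K₁, _, _, _, _, _, _, _, q1⟩ := qtf K L d (Tz T γ₁) H qt.ff R.ff fH
    (fun y σ hσ => fxK y σ (le hσ)) sT fun U u P lu => qt.unr P (dn U u.1 P lu) U lu
  choose dK lK using Pb.down qt.ff q1.ff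
  choose d1 l1 using Pb.down q1.ff R.ff
  obtain ⟨γ₂, n2, K₂, _, _, _, _, T₂, Z₂, ff₂, c1, ou, c3⟩ := etg L k N₁ _ D s₁ a₁ A₁ m₁ H π K₁ _ k₀
    (fun R => Z (dK R)) w e ⟨R.ff, cx₁, z₁, fg₁, mx₁, ⟨fH, sT, fun σ h y b => by
      obtain ⟨n, b⟩ := (cp y).1 b
      have := (hH σ (le h)).1 h _ b
      rw [map_mul, map_pow, f1 σ h] at this
      exact (cp _).2 ⟨n, this⟩⟩, fun σ h v => ⟨one_ne_zero, fun P p => (R.pm.rel σ (le h) v).2 P p.1⟩,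
      R.pm.one, fun σ x τ y => R.pm.cmp σ (le x) τ (le y)⟩ eb q1 (fun σ h => pw σ (le h))
    fun U u Q lu => hw U u.1 _ (cmp lu (lK Q))
  obtain ⟨n, n3⟩ := (cp _).1 n2
  obtain ⟨g₁, n4, ny⟩ := nkm R le hH (cv w e) fun σ hσ => by
    simp only [cv, map_sum, map_zsmul, pw σ hσ]
  have nG := nz_mul pr n1 n3
  obtain ⟨h, nh, fh, op⟩ := opn L A m G _ R.max R.fin (stab R) (nz_mul pr nG n4)
  obtain ⟨γ, rfl⟩ := (qt.fix h).1 fh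
  let _ : Algebra K K₂ := ((algebraMap K₁ K₂).comp (algebraMap K K₁)).toAlgebra
  have : IsScalarTower K K₁ K₂ := .of_algebraMap_eq fun _ => rfl
  have t2 : IsScalarTower ℂ K K₂ := .of_algebraMap_eq fun y => by
    rw [IsScalarTower.algebraMap_apply K K₁ K₂, ← IsScalarTower.algebraMap_apply ℂ K K₁,
      ← IsScalarTower.algebraMap_apply ℂ K₁ K₂]
  have γ0 : γ ≠ 0 := (map_ne_zero _).1 (nz_ne nh)
  have γ1 : algebraMap K K₂ γ ≠ 0 := (map_ne_zero _).2 γ0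
  have eK : ∀ y, algebraMap K₁ L (algebraMap K K₁ y) = algebraMap K L y := fun y =>
    (IsScalarTower.algebraMap_apply K K₁ L y).symm
  have rγ : ∀ Q ∈ T₂, algebraMap K K₂ γ ∈ Q.ring := fun Q q => by
    obtain ⟨P, ⟨⟨U, u, lu⟩, -⟩, lq, -⟩ := c1 Q q
    exact (lq _).1 ((lu _).2 (eK γ ▸ rA nh.1 U u.1))
  refine ⟨γ, nh, K₂, _, _, _, t2, _, Z₂, ff₂, ?_, out lcx ou le_rfl γ1 rγ, fun P hP => ?_⟩
  · rintro Q ⟨q, z⟩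
    obtain ⟨P, ⟨⟨U, u, lu⟩, -⟩, lq, e1, e2⟩ := c1 Q q
    have l0 := cmp lu (lK P)
    have k := qt.unr _ (dn U u.1 _ l0) U l0
    rw [emul lu, q1.unr P ⟨U, u, lu⟩ U lu, one_mul] at k
    exact ⟨dK P, ⟨dn U u.1 _ l0, (ord_zero (cmp lq (lK P)) γ).1 z⟩, cmp lq (lK P),
      by rw [emul lq, e1, k, one_mul], e2⟩
  have ovP : ∀ Q, Lies (algebraMap K L) Q P → ∀ z ∈ A, z ∈ Q.ring := fun Q lq z hz =>
    ov hP lq fun R r U lu => rA hz U ((qt.lies U).2 ⟨R, r.1, lu⟩)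
  have pγ : P.ord γ = 0 := Pl.ord_unit _
    (hP _ fun R r => ((Pl.ord_eq_zero_iff _ γ0).1 r.2).1)
    (hP _ fun R r => ((Pl.ord_eq_zero_iff _ γ0).1 r.2).2)
  obtain ⟨U₀, lq0⟩ := Pb.up_fin (K' := L) P
  obtain ⟨σ, hσ', U, cj, zq⟩ := op U₀ (ovP U₀ lq0) ((ord_zero lq0 γ).2 pγ)
  have lq := Tq.S48.lies_cj cj (fun y => fxK y σ hσ') lq0
  have oq := ovP U lq
  obtain ⟨zG, z1⟩ := split (nz_ne nG) (nz_ne n4) (oq _ nG.1) (oq _ n4.1) zq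
  have fG : Fix H (γ₁ * (γ₁ ^ n * algebraMap K₁ L γ₂)) := fun τ hτ => by
    rw [map_mul, map_mul, map_pow, f1 τ hτ, (q1.fix _).2 ⟨γ₂, rfl⟩ τ hτ]
  have key : ∀ U ∈ T, U.ord (γ₁ * (γ₁ ^ n * algebraMap K₁ L γ₂)) = 0 →
      d1 U ∈ Tz {R : Pl K₁ | ∃ Q ∈ Tz T γ₁, Lies (algebraMap K₁ L) Q R} γ₂ ∧
        U.ord (algebraMap K₁ L (d1 U).t) = 1 := fun U u z => by
    have a2 := split (nz_ne n1) (nz_ne n3) (rA n1.1 U u) (rA n3.1 U u) z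
    have a3 := a2.2
    rw [Pl.ord_mul _ (pow_ne_zero _ (nz_ne n1)) (nz_ne n2), Pl.ord_pow, a2.1, mul_zero,
      zero_add] at a3
    exact ⟨⟨⟨U, ⟨u, a2.1⟩, l1 U⟩, (ord_zero (l1 U) _).1 a3⟩, q1.unr _ ⟨U, ⟨u, a2.1⟩, l1 U⟩ U (l1 U)⟩
  generalize γ₁ * (γ₁ ^ n * algebraMap K₁ L γ₂) = G₀ at nG zG fG key
  have G0 := nz_ne nG
  have oG : ∀ (j : ℕ) {y : K₁}, y ≠ 0 → U.ord (G₀ ^ j * algebraMap K₁ L y) =
      U.ord (algebraMap K₁ L y) := fun j y y0 => by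
    rw [Pl.ord_mul _ (pow_ne_zero _ G0) ((map_ne_zero _).2 y0), Pl.ord_pow, zG, mul_zero, zero_add]
  obtain ⟨Q, lQ, q2, q3⟩ := c3 (d1 U) fun y hy => by
    rcases eq_or_ne y 0 with rfl | y0
    · exact zero_mem _
    have y1 := (map_ne_zero (algebraMap K₁ L)).2 y0
    obtain ⟨j, hj⟩ := loc R.cox ((R.zero _).1 nG.1) G0 (e := 0) y1 fun U u z => by
      rw [zero_dotProduct, add_zero]
      exact Pl.ord_nonneg_of_mem _ ((l1 U _).1 (hy _ (key U u z).1))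
    have := Pl.ord_nonneg_of_mem _ (oq _ ((R.zero _).2 hj))
    rw [oG j y0] at this
    exact (l1 U _).2 ((Pl.ord_nonneg_iff _ y1).1 this)
  have lP := cmp lQ (mid (l1 U) lq)
  have oγ : ∀ (j : ℕ) {y : K₂}, y ≠ 0 → Q.ord (algebraMap K K₂ γ ^ j * y) = Q.ord y :=
    fun j y y0 => by
      rw [Pl.ord_mul _ (pow_ne_zero _ γ1) y0, Pl.ord_pow, (ord_zero lP γ).2 pγ, mul_zero, zero_add]
  refine ⟨Q, lP, fun y hy => ?_, fun ψ ψ0 hψ => ?_⟩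
  · rcases eq_or_ne y 0 with rfl | y0
    · exact zero_mem _
    obtain ⟨j, hj⟩ := loco ff₂ ou γ1 rγ (e := 0) y0 fun R r => by
      rw [zero_dotProduct, add_zero]
      exact Pl.ord_nonneg_of_mem _ (hy R r)
    have := Pl.ord_nonneg_of_mem _ (q2 _ fun R r =>
      (Pl.ord_nonneg_iff _ (mul_ne_zero (pow_ne_zero j γ1) y0)).1 (by simpa using hj R r))
    rw [oγ j y0] at this
    exact (Pl.ord_nonneg_iff _ y0).1 this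
  obtain ⟨i, hi⟩ := loco ff₂ ou γ1 rγ ψ0 hψ
  obtain ⟨χ₁, χ0, b1, b2⟩ := q3 _ (mul_ne_zero (pow_ne_zero i γ1) ψ0) hi
  rw [oγ i ψ0] at b2
  have ψ1 := (map_ne_zero (algebraMap K₁ L)).2 χ0
  obtain ⟨j, hj⟩ := loc R.cox ((R.zero _).1 nG.1) G0 (e := cv w e) ψ1 fun U u z => by
    have k := b1 _ (key U u z).1
    rw [(l1 U).ord, (key U u z).2, one_mul, cv_dot, ← funext (hw U u _ (cmp (l1 U) (lK _)))]
    exact k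
  have j0 := mul_ne_zero (pow_ne_zero j G0) ψ1
  obtain ⟨_, ⟨μ, hμ, χ, hχ, fχ, rfl⟩, x0, le'⟩ := term U (ny _ hj fun τ hτ => by
    rw [map_mul, map_pow, fG τ hτ, (q1.fix _).2 ⟨χ₁, rfl⟩ τ hτ]) (mul_ne_zero (nz_ne n4) j0)
  obtain ⟨χ, rfl⟩ := (qt.fix χ).1 fχ
  have χ2 := right_ne_zero_of_mul x0
  refine ⟨χ, (map_ne_zero _).1 χ2, fun R' r => ?_, le_trans ?_ b2⟩
  · obtain ⟨P₁, lp⟩ := Pb.up_fin (K' := L) R'
    have p1 := (qt.lies P₁).2 ⟨R', r.1, lp⟩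
    have := (R.cox.sec _ _ χ2).1 hχ P₁ p1
    rwa [lp.ord, qt.unr R' r.1 P₁ lp, one_mul, cv_dot, ← funext (hw P₁ p1 R' lp)] at this
  · have := Pl.ord_nonneg_of_mem _ (oq _ hμ)
    rw [Pl.ord_mul _ (left_ne_zero_of_mul x0) χ2, Pl.ord_mul _ (nz_ne n4) j0, z1, zero_add,
      oG j χ0] at le'
    have k := ord_le (l1 U) (algebraMap K K₁ χ) χ₁ (by rw [eK]; omega)
    rw [emul lQ, lQ.ord χ₁]
    exact mul_le_mul_of_nonneg_left k lQ.e_pos.le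

end Vale.Agent.P283R.Uq
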