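import Vale.Agent.P283R.Uq.St2

/-!
# P283R, block UQ: a stable family of prime divisors
-/

open Set CategoryTheory AlgebraicGeometry

noncomputable section

namespace Vale.Agent.P283R.Uq

open Vale.Agent.P289 (Pt)
open Vale.Agent.P287D Vale.Agent.P283M.Stm Vale.Agent.P283M.Stm.Var Vale.Agent.P297Z
open Vale.Agent.P283M Vale.Agent.P283M.Br Vale.Agent.P283R.Sch Vale.Agent.P283R.Cox
open Vale.Agent.P283R.Gl (pq pq_is pq_ord)
open Vale.Agent.P283R.Tq (Cj Rel)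
open Vale.Agent.P283R.Tq.A15 (cj_inv cj_uniq)

theorem pq_inj {X : Var} : Function.Injective (pq (X := X)) := fun E E' e =>
  is_uniq (pq_is E).dom (e ▸ (pq_is E').dom)

theorem fam48 {X Y : Var} [Algebra X.K Y.K] {G : Subgroup (Y.K ≃ₐ[ℂ] Y.K)}
    (dn : Y.PrimeDiv → X.PrimeDiv) (hd : ∀ E, Lies (algebraMap X.K Y.K) (pq E) (pq (dn E)))
    (fx : ∀ σ ∈ G, ∀ x, σ (algebraMap X.K Y.K x) = algebraMap X.K Y.K x)
    (st : ∀ σ ∈ G, ∀ E : Y.PrimeDiv, ∀ P', Cj σ (pq E) P' → ∃ E', pq E' = P')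
    (Ω : Finset Y.PrimeDiv) (Φ : Set X.PrimeDiv) (hΩ : ∀ E, E ∈ Ω ↔ dn E ∈ Φ)
    (D' : Fin 2 → X.PrimeDiv →₀ ℤ) (hD : ∀ i F, D' i F ≠ 0 → F ∈ Φ) (T : Set (Pl Y.K))
    (hT : ∀ P ∈ T, ∃ E, pq E = P) :
    ∃ (k : ℕ) (E : Fin k → Y.PrimeDiv →₀ ℤ) (π : Ac Y.K k) (w : Fin 2 → Fin k → ℤ), 2 ≤ k ∧
      (∀ i, E i = 0 ∨ ∃ P ∈ Ω, E i = .single P 1) ∧ (∀ P ∈ Ω, ∃ i, E i = .single P 1) ∧
      Pm T (fun P i => Cox.up (E i) P) G π ∧ (∀ σ ∈ G, ∀ i, π σ (w i) = w i) ∧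
      ∀ P ∈ T, ∀ Q, Lies (algebraMap X.K Y.K) P Q → ∀ i,
        Cox.up (D' i) Q = w i ⬝ᵥ fun j => Cox.up (E j) P := by
  classical
  have dc : ∀ σ ∈ G, ∀ E E' : Y.PrimeDiv, Cj σ (pq E) (pq E') → dn E' = dn E := fun σ z E E' c =>
    pq_inj ((hd E').uniq (Tq.S48.lies_cj c (fx σ z) (hd E)))
  have ex : ∀ (σ : Y.K ≃ₐ[ℂ] Y.K) (E : Ω), ∃ E' : Ω, σ ∈ G → Cj σ (pq E.1) (pq E'.1) :=
    fun σ E => by
      by_cases z : σ ∈ G
      · obtain ⟨P', c⟩ := Tq.A15.ex σ (pq E.1)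
        obtain ⟨E', rfl⟩ := st σ z _ _ c
        exact ⟨⟨E', (hΩ _).2 (dc σ z _ _ c ▸ (hΩ _).1 E.2)⟩, fun _ => c⟩
      · exact ⟨E, fun h => (z h).elim⟩
  choose c hc using ex
  have cu : ∀ σ ∈ G, ∀ E E' : Ω, Cj σ (pq E.1) (pq E'.1) → c σ E = E' := fun σ z E E' h =>
    Subtype.ext (pq_inj (cj_uniq (hc σ E z) h))
  obtain ⟨k, q, -⟩ : ∃ (k : ℕ) (_ : Ω ⊕ Fin 2 ≃ Fin k), True := ⟨_, Fintype.equivFin _, trivial⟩
  let E : Fin k → Y.PrimeDiv →₀ ℤ := fun j =>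
    Sum.elim (fun P : Ω => Finsupp.single P.1 1) (fun _ => 0) (q.symm j)
  have dE : ∀ (e : Fin k → ℤ) (F : Y.PrimeDiv), (e ⬝ᵥ fun j => Cox.up (E j) (pq F)) =
      if h : F ∈ Ω then e (q (.inl ⟨F, h⟩)) else 0 := fun e F => by
    simp only [up_eq _ (pq_is F).dom, dotProduct]
    rw [← q.sum_comp, Fintype.sum_sum_type]
    simp only [E, Equiv.symm_apply_apply, Sum.elim_inl, Sum.elim_inr, Finsupp.coe_zero,
      Pi.zero_apply, mul_zero, Finset.sum_const_zero, add_zero]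
    split_ifs with h
    · rw [Finset.sum_eq_single ⟨F, h⟩ (fun P _ n => by
        rw [Finsupp.single_eq_of_ne fun e => n (Subtype.ext e.symm), mul_zero])
        fun n => (n (Finset.mem_univ _)).elim, Finsupp.single_eq_same, mul_one]
    · exact Finset.sum_eq_zero fun P _ => by
        rw [Finsupp.single_eq_of_ne fun e : F = P.1 => h (e ▸ P.2), mul_zero]
  let π : Ac Y.K k := fun σ =>
    { toFun := fun v j => v (q (Sum.map (c σ) id (q.symm j)))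
      map_zero' := rfl
      map_add' := fun _ _ => rfl }
  have hπ : ∀ σ v j, π σ v (q j) = v (q (Sum.map (c σ) id j)) := fun σ v j =>
    congrArg (fun z => v (q (Sum.map (c σ) id z))) (q.symm_apply_apply j)
  let w : Fin 2 → Fin k → ℤ := fun i j =>
    Sum.elim (fun P : Ω => D' i (dn P.1)) (fun _ => 0) (q.symm j)
  refine ⟨k, E, π, w, ?_, fun i => ?_, fun P h => ⟨q (.inl ⟨P, h⟩), by simp [E]⟩,
    ⟨fun σ z v => ⟨one_ne_zero, fun P p P' cj => ?_⟩, fun v => funext fun j => ?_,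
      fun σ z τ y v => funext fun j => ?_⟩, fun σ z i => funext fun j => ?_, fun P p Q l i => ?_⟩
  · simpa using Fintype.card_le_of_injective (fun i : Fin 2 => q (.inr i))
      fun i j e => Sum.inr_injective (q.injective e)
  · obtain ⟨j, rfl⟩ := q.surjective i
    rcases j with P | j
    · exact .inr ⟨P.1, P.2, by simp [E]⟩
    · exact .inl (by simp [E])
  · obtain ⟨F, rfl⟩ := hT P p
    obtain ⟨F', rfl⟩ := st σ z _ _ cj
    rw [Pl.ord_one, zero_add, dE, dE]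
    have e : F' ∈ Ω ↔ F ∈ Ω := by rw [hΩ, hΩ, dc σ z _ _ cj]
    by_cases h : F ∈ Ω
    · rw [dif_pos h, dif_pos (e.2 h), hπ, Sum.map_inl, cu σ z ⟨F, h⟩ ⟨F', e.2 h⟩ cj]
    · rw [dif_neg h, dif_neg (mt e.1 h)]
  · obtain ⟨j, rfl⟩ := q.surjective j
    rw [hπ]
    rcases j with P | j
    · rw [Sum.map_inl, cu 1 (one_mem G) P P fun _ => rfl]
    · rfl
  · obtain ⟨j, rfl⟩ := q.surjective j
    rw [hπ, hπ, hπ]
    rcases j with P | j
    · rw [Sum.map_inl, Sum.map_inl, Sum.map_inl, cu _ (mul_mem z y) P (c τ (c σ P))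
        fun φ => (hc τ _ y φ).trans (hc σ P z _)]
    · rfl
  · obtain ⟨j, rfl⟩ := q.surjective j
    rw [hπ]
    rcases j with P | j
    · simp only [w, Sum.map_inl, Equiv.symm_apply_apply, Sum.elim_inl, dc σ z _ _ (hc σ P z)]
    · rfl
  · obtain ⟨F, rfl⟩ := hT P p
    rw [dE, l.uniq (hd F), up_eq _ (pq_is _).dom]
    split_ifs with h
    · simp [w]
    · exact by_contra fun n => h ((hΩ _).2 (hD i _ n))

end Vale.Agent.P283R.Uq
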