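import Vale.Agent.P283R.Uq.Fb3

/-!
# P283R, block UQ: low complexity, any family of divisors
-/

open CategoryTheory AlgebraicGeometry

namespace Vale.Agent.P283R.Uq.F3

open Sl Sl.Var Lx.C23 Vale.Agent.P287D Vale.Agent.P297Z

variable {X Z : Sl.Var} {d : ℕ} {f : X.X ⟶ Z.X} {ω : X.Form d} {z : Pt Z.X}

/-- every family of divisors which contains the prime divisors of `S` and has the canonical divisor
in its span has Cox data of small embedding dimension over all small affine neighbourhoods -/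
theorem front (h : MldCx f ω z) (hd : 1 ≤ d) (hdim : dimension X.str = d) (hω : ω.Nonzero)
    (hf : Contraction f) (hF : FanoType f ω) (hz : z.Closed) :
    ∃ S : Finset X.PrimeDiv, ∀ (k : ℕ) (D : Fin k → X.Div), 2 ≤ k →
      (∀ E ∈ S, ∃ i, D i = .single E 1) → ∃ V₁ : Z.X.Opens, z.In V₁ ∧ ∀ W ≤ V₁, IsAffineOpen W →
        z.In W → InSpan (pre f W) D (logCan ω 0) → Out (X := X.o) (Z := Z.o) d f z W D := by
  obtain ⟨V, Λ, m, φ, S, ρ, D', c, zV, pr, m0, hφ, hS, cl, hc, lt⟩ := h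
  refine ⟨S, fun k D k2 hD => ?_⟩
  have sg : ∀ (E : X.PrimeDiv) (r : ℕ), QDiv.coeff (.single E (r : ℚ)) =
      fun E' => r * QDiv.coeff (.single E 1) E' := fun E r => funext fun E' => by
    by_cases e : E = E'
    · subst e
      simp
    · simp [Finsupp.single_eq_of_ne' e]
  have one : ∀ E, Lx.C23.Lo f z D' (QDiv.coeff (.single E 1)) := fun E =>
    let ⟨U, r, u, r0, a⟩ := cl E
    ⟨U, r, u, r0, sg E r ▸ a⟩
  choose U r u p a using fun i => lo_all one ((D i).mapRange (fun n : ℤ => (n : ℚ)) Int.cast_zero)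
  have zi : z ∈ Finset.univ.inf U := by
    refine Finset.inf_induction (p := fun O : Z.X.Opens => z ∈ O) trivial
      (fun _ a _ b => ⟨a, b⟩) fun E _ => u E
  refine ⟨V ⊓ Finset.univ.inf U, ⟨zV, zi⟩, fun W le hW zW hK => ?_⟩
  simp only [le_inf_iff, Finset.le_inf_iff] at le
  obtain ⟨l0, l3⟩ := le
  obtain ⟨n, rfl⟩ : ∃ n, d = n + 1 := ⟨d - 1, by omega⟩
  have pW : Pair (0 ≤ ·) (pre f W) ω Λ :=
    ⟨fun y c => pr.1 y (l0 c), fun x c => pr.2.1 x (l0 c), fun M E c => pr.2.2 M E (l0 c)⟩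
  obtain ⟨x₀, e₀⟩ := hf.2.2.1.surj (generic Z.X)
  have hc' := congrArg (Rat.cast : ℚ → ℝ) hc
  rw [Rat.cast_sub, Rat.cast_add, Rat.cast_natCast, Rat.cast_natCast] at hc'
  refine core (X := X.o) (Z := Z.o) (β := c - 2) (r := ∏ i, r i) (L := Λ) (S := S) (D' := D') k2
    hdim hω hf ((fanoType_iff f ω).1 hF) hz hW zW
    (fun u bs => Lx.M3.bas (X := X.o) (Z := Z.o) hf hz bs)
    (fun h h0 fr => Lx.ofl _ m X _ ω Λ φ h m0 h0 fr pW fun x c => hφ x (l0 c)) pW.1 m0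
    (fun x c => hφ x (l0 c)) (Finset.prod_pos fun i _ => p i) (fun E e => ⟨hS E e, hD E e⟩) hK
    (fun i => up (a i) (l3 i (Finset.mem_univ i)) (Finset.dvd_prod_of_mem r (Finset.mem_univ i)))
    ?_
  by_cases c2 : c < 2
  · have : (c : ℝ) < 2 := by exact_mod_cast c2
    exact .inl ((eq_add_of_sub_eq hc'.symm).trans_lt (add_lt_add_of_lt_of_le this le_rfl))
  obtain ⟨c3, gn, ml⟩ := lt.resolve_left c2
  refine .inr ⟨sub_nonneg.2 (by exact_mod_cast not_lt.1 c2), ?_,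
    ⟨x₀, show f x₀ ∈ W from e₀ ▸ (genericPoint_specializes z).mem_open W.isOpen zW,
      fun e => gn (e.symm.trans e₀)⟩, fun h h0 fr Q y hy hQ e => ?_,
    (eq_add_of_sub_eq hc'.symm).le.trans_eq (congrArg (· + _) (by ring))⟩
  · have : (c : ℝ) ≤ 3 := by exact_mod_cast c3
    linarith
  · have m1 : (m : ℝ) ≠ 0 := Nat.cast_ne_zero.2 m0.ne'
    obtain ⟨M, E, rfl, e'⟩ := P283M.Br.mod X.o Q y hQ
    have o := (P283M.Br.plc X.o M.Y M.pull (P283M.Br.mdc X.o M).1 E).2 Q e'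
    have : (c : ℝ) - 2 < 1 + (P283M.Stm.Var.formOrd ω M.pull E -
      (P283M.Stm.Var.ord (M.pull φ) E : ℝ) / m) := ml (Model.nw M) E e
    rw [fr _ _ E Q e' o, o] at this
    rw [Pl.ord_div _ (hφ _ (l0 hy)).1 (pow_ne_zero m h0), Pl.ord_pow]
    push_cast
    have k : ((Q.ord φ : ℝ) - m * Q.ord h) / m = Q.ord φ / m - Q.ord h := by field_simp
    rw [k]
    linarith

end Vale.Agent.P283R.Uq.F3
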