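import Vale.Agent.P283R.Tq.St
import Vale.Agent.P283R.Cf.Gal
import Mathlib.FieldTheory.Galois.IsGaloisGroup

/-!
# P283R, block UQ: roots of finitely many functions and of their conjugates
-/

open Set Polynomial

noncomputable section

namespace Vale.Agent.P283R.Uq.K93

open Vale.Agent.P287D Vale.Agent.P283M Vale.Agent.P283R.Cx

variable {K L : Type} [Field K] [Algebra ℂ K] [Field L] [Algebra ℂ L] [Algebra K L]

omit [Algebra ℂ K] in
theorem gg {G : Subgroup (L ≃ₐ[ℂ] L)} (h : ∀ φ, Fix G φ ↔ φ ∈ range (algebraMap K L)) :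
    IsGaloisGroup G K L :=
  { faithful := inferInstance
    commutes := ⟨fun g a x => by
      rw [Algebra.smul_def, Algebra.smul_def, smul_mul']
      exact congrArg (· * _) ((h _).2 ⟨a, rfl⟩ g g.2)⟩
    isInvariant := ⟨fun x hx => (h x).1 fun σ s => hx ⟨σ, s⟩⟩ }

/-- **the Kummer extension** -/
theorem kum [IsScalarTower ℂ K L] {d n : ℕ} {ι : Type} [Finite ι] {G : Subgroup (L ≃ₐ[ℂ] L)}
    [Finite G] (hL : FF L d) (h : ∀ φ, Fix G φ ↔ φ ∈ range (algebraMap K L)) (c : ι → L)
    (n0 : 0 < n) :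
    ∃ (F : Type) (_ : Field F) (_ : Algebra ℂ F) (_ : Algebra K F) (_ : Algebra L F)
      (_ : IsScalarTower ℂ K F) (_ : IsScalarTower ℂ L F) (_ : IsScalarTower K L F)
      (G' : Subgroup (F ≃ₐ[ℂ] F)) (r : G' →* G), FF F d ∧ FiniteDimensional L F ∧ Finite G' ∧
      (∀ φ, Fix G' φ ↔ φ ∈ range (algebraMap K F)) ∧ Function.Surjective r ∧
      (∀ (τ : G') (x : L), τ.1 (algebraMap L F x) = algebraMap L F ((r τ).1 x)) ∧
      (∀ σ ∈ G, ∀ j, ∃ β : F, β ^ n = algebraMap L F (σ (c j))) ∧
      Algebra.adjoin L {β : F | ∃ σ ∈ G, ∃ j, β ^ n = algebraMap L F (σ (c j))} = ⊤ := by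
  have := Fintype.ofFinite ι
  have : CharZero K := charZero_of_injective_algebraMap (algebraMap ℂ K).injective
  have g1 := gg h
  have g2 := IsGaloisGroup.isGalois G K L
  have g3 := IsGaloisGroup.finiteDimensional G K L
  obtain ⟨f, f1, f2⟩ := IsGalois.is_separable_splitting_field K L
  let g : K[X] := ∏ j, expand K n (minpoly K (c j))
  have mo : ∀ j, (minpoly K (c j)).Monic := fun j => minpoly.monic (Algebra.IsIntegral.isIntegral _)
  have g0 : g ≠ 0 := Finset.prod_ne_zero_iff.2 fun j _ => ((mo j).expand n0).ne_zero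
  let p : L[X] := g.map (algebraMap K L)
  have p0 : p ≠ 0 := (Polynomial.map_ne_zero_iff (algebraMap K L).injective).2 g0
  let F : Type := p.SplittingField
  have t1 : IsScalarTower ℂ L F := inferInstance
  have t2 : IsScalarTower K L F := inferInstance
  have t3 : IsScalarTower ℂ K F := .of_algebraMap_eq fun a => by
    rw [IsScalarTower.algebraMap_apply ℂ L F, IsScalarTower.algebraMap_apply K L F,
      IsScalarTower.algebraMap_apply ℂ K L]
  have s1 := IsSplittingField.mul (K := L) F f g f1.ne_zero g0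
  have s2 := Normal.of_isSplittingField (E := F) (f * g)
  have s3 := IsSplittingField.finiteDimensional F (f * g)
  have s4 : IsGalois K F := ⟨⟩
  have fx : ∀ φ, Fix (Cf.Gal.rs K F).range φ ↔ φ ∈ range (algebraMap K F) := fun z => by
    rw [IsGalois.mem_range_algebraMap_iff_fixed]
    exact ⟨fun a σ => a _ ⟨σ, rfl⟩, fun a _ ⟨σ, e⟩ => e ▸ a σ⟩
  have fi : Finite (Cf.Gal.rs K F).range :=
    .of_surjective _ (Cf.Gal.rs K F).rangeRestrict_surjective
  have g4 := gg fx
  have ev : ∀ β : F, aeval β p = ∏ j, aeval (β ^ n) (minpoly K (c j)) := fun β => by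
    rw [aeval_map_algebraMap, map_prod]
    exact Finset.prod_congr rfl fun j _ => expand_aeval _ _ _
  refine ⟨F, inferInstance, inferInstance, inferInstance, inferInstance, t3, t1, t2, _,
    IsGaloisGroup.restrictHom _ G K L F, Hd.ff_up hL, inferInstance, fi, fx,
    IsGaloisGroup.restrictHom_surjective _ G K L F,
    fun τ x => (IsGaloisGroup.algebraMap_restrictHom_smul _ G K L F τ x).symm, fun σ s j => ?_,
    top_le_iff.1 ((IsSplittingField.adjoin_rootSet F p).ge.trans (Algebra.adjoin_mono fun β b => ?_))⟩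
  · have dv : X ^ n - C (σ (c j)) ∣ p := by
      have z : (minpoly K (c j)).map (algebraMap K L) |>.IsRoot (σ (c j)) := by
        have := minpoly.aeval_algHom K
          ((IsGaloisGroup.mulEquivAlgEquiv G K L ⟨σ, s⟩ : L ≃ₐ[K] L) : L →ₐ[K] L) (c j)
        rwa [IsRoot, eval_map_algebraMap]
      have := map_dvd (expand L n) (dvd_iff_isRoot.2 z)
      rw [map_sub, expand_X, expand_C, ← map_expand] at this
      exact this.trans (Polynomial.map_dvd _ (Finset.dvd_prod_of_mem _ (Finset.mem_univ j)))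
    have sp := (SplittingField.splits p).of_dvd (Polynomial.map_ne_zero p0)
      (Polynomial.map_dvd (algebraMap L F) dv)
    obtain ⟨β, b⟩ := sp.exists_eval_eq_zero (by
      rw [degree_map, degree_X_pow_sub_C n0]
      exact_mod_cast n0.ne')
    exact ⟨β, by simpa [sub_eq_zero] using b⟩
  · have z := (mem_rootSet.1 b).2
    rw [ev, Finset.prod_eq_zero_iff] at z
    obtain ⟨j, -, z⟩ := z
    obtain ⟨x, e⟩ : β ^ n ∈ range (algebraMap L F) :=
      (Normal.splits g2.to_normal (c j)).mem_range_of_isRoot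
        (Polynomial.map_ne_zero (mo j).ne_zero) (i := algebraMap L F) (by
          rwa [IsRoot, Polynomial.map_map, ← IsScalarTower.algebraMap_eq, eval_map_algebraMap])
    rw [← e, aeval_algebraMap_apply, map_eq_zero] at z
    obtain ⟨σ, k⟩ := minpoly.exists_algEquiv_of_root' (Algebra.IsAlgebraic.isAlgebraic (c j)) z
    obtain ⟨σ, rfl⟩ := (IsGaloisGroup.mulEquivAlgEquiv G K L).surjective σ
    exact ⟨σ, σ.2, j, e ▸ congrArg _ k.symm⟩

end Vale.Agent.P283R.Uq.K93
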