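import Vale.Agent.P283R.Uq.Kum93

/-!
# P283R, block UQ: roots of units do not ramify
-/

open Set Polynomial

noncomputable section

namespace Vale.Agent.P283R.Uq.K93

open Vale.Agent.P287D Vale.Agent.P297Z Vale.Agent.P283M Vale.Agent.P283R.Cx
open Tq (Qt up)

variable {K L F : Type} [Field K] [Algebra ℂ K] [Field L] [Algebra ℂ L] [Field F] [Algebra ℂ F]
  {n d : ℕ}

/-- roots of unity are constants -/
theorem con (n0 : 0 < n) {u : F} (h : u ^ n = 1) : ∃ ζ : ℂ, algebraMap ℂ F ζ = u :=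
  (IsAlgClosed.splits (X ^ n - C 1 : ℂ[X])).mem_range_of_isRoot (X_pow_sub_C_ne_zero n0 1)
    (i := algebraMap ℂ F) (by simp [h])

variable [Algebra L F]

omit [Algebra ℂ L] in
theorem unr [Algebra ℂ L] [FiniteDimensional L F] [IsGalois L F] {S : Set F}
    (hS : Algebra.adjoin L S = ⊤) (n0 : 0 < n) {Q : Pl F} {P : Pl L}
    (l : Lies (algebraMap L F) Q P)
    (h : ∀ β ∈ S, ∃ x : L, x ≠ 0 ∧ P.ord x = 0 ∧ β ^ n = algebraMap L F x) :
    Q.ord (algebraMap L F P.t) = 1 := by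
  refine (Hd.ei_card l).trans (Nat.cast_eq_one.2 (Subgroup.card_eq_one.2
    ((Subgroup.eq_bot_iff_forall _).2 fun τ a => ?_)))
  refine AlgEquiv.coe_toAlgHom_injective (AlgHom.ext_of_adjoin_eq_top hS fun β b => ?_)
  obtain ⟨x, x0, x1, e⟩ := h β b
  have β0 : β ≠ 0 := fun z => (_root_.map_ne_zero _).2 x0 (by rw [← e, z, zero_pow n0.ne'])
  have β1 : Q.ord β = 0 := by
    have := l.ord x
    rw [← e, Pl.ord_pow, x1, mul_zero, mul_eq_zero] at this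
    exact this.resolve_left (Int.natCast_ne_zero.2 n0.ne')
  obtain ⟨ζ, z⟩ := con n0 (u := τ β / β) (by
    rw [div_pow, ← map_pow, e, τ.commutes, div_self ((_root_.map_ne_zero _).2 x0)])
  have w : τ • β - β = algebraMap ℂ F (ζ - 1) * β := by
    rw [map_sub, z, map_one, sub_mul, div_mul_cancel₀ _ β0, one_mul]
    rfl
  refine sub_eq_zero.1 ((a β ((Pl.ord_nonneg_iff _ β0).1 β1.ge)).resolve_right fun k => ?_)
  rw [w] at k
  have c0 : algebraMap ℂ F (ζ - 1) ≠ 0 := fun y => by simp [y] at k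
  rw [Pl.ord_mul _ c0 β0, β1,
    Pl.ord_unit _ (Q.con _) (by rw [← map_inv₀]; exact Q.con _)] at k
  exact lt_irrefl _ k

variable [Algebra K L] [Algebra K F] [IsScalarTower ℂ L F] [IsScalarTower K L F]

/-- the quotient data upstairs -/
theorem qt {T₀ : Set (Pl K)} {T : Set (Pl L)} {G : Subgroup (L ≃ₐ[ℂ] L)}
    {G' : Subgroup (F ≃ₐ[ℂ] F)} [Finite G'] (q : Qt d T₀ T G) (hL : FF L d) (hF : FF F d)
    (fx : ∀ φ, Fix G' φ ↔ φ ∈ range (algebraMap K F)) {S : Set F} (hS : Algebra.adjoin L S = ⊤)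
    (n0 : 0 < n)
    (h : ∀ β ∈ S, ∃ x : L, x ≠ 0 ∧ (∀ P ∈ T, P.ord x = 0) ∧ β ^ n = algebraMap L F x) :
    (∀ P ∈ T, ∀ Q, Lies (algebraMap L F) Q P → Q.ord (algebraMap L F P.t) = 1) ∧
      Qt d T₀ (up F T) G' := by
  have g1 := gg fx
  have g2 := IsGaloisGroup.isGalois G' K F
  have g3 := IsGaloisGroup.finiteDimensional G' K F
  have g4 := IsGalois.tower_top_of_isGalois K L F
  have g5 := Module.Finite.right K L F
  have u : ∀ P ∈ T, ∀ Q, Lies (algebraMap L F) Q P → Q.ord (algebraMap L F P.t) = 1 :=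
    fun P a Q l => unr hS n0 l fun β b => let ⟨x, x0, x1, e⟩ := h β b; ⟨x, x0, x1 P a, e⟩
  have e := IsScalarTower.algebraMap_eq K L F
  refine ⟨u, q.ff, fx, fun Q => ⟨fun ⟨P, a, l⟩ => ?_, fun ⟨P₀, a, l⟩ => ?_⟩, fun P₀ a Q l => ?_⟩
  · obtain ⟨P₀, b, l'⟩ := (q.lies P).1 a
    exact ⟨P₀, b, e ▸ l.comp l'⟩
  · obtain ⟨P, l'⟩ := Pb.down hL hF Q
    exact ⟨P, (q.lies P).2 ⟨P₀, a, l'.of_comp (e ▸ l)⟩, l'⟩
  · obtain ⟨P, l'⟩ := Pb.down hL hF Q
    have k := l'.of_comp (e ▸ l)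
    rw [IsScalarTower.algebraMap_apply K L F, l'.ord, u P ((q.lies P).2 ⟨P₀, a, k⟩) Q l',
      q.unr P₀ a P k, mul_one]

end Vale.Agent.P283R.Uq.K93
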