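import Vale.Agent.P283R.Uq.St2

/-!
# P283R, block UQ: the pieces of the extension by roots
-/

open Set

noncomputable section

namespace Vale.Agent.P283R.Uq

open Vale.Agent.P283R.Lx (Nz)

/-- a property of `A' = A[1 / γ, roots of units]` -/
def ForE (q : ∀ (L F : Type) [Field L] [Algebra ℂ L] [Field F] [Algebra ℂ F] [Algebra L F]
    (A : Subalgebra ℂ L) (_ : Ideal A) (_ : Subalgebra ℂ F), Prop) : Prop :=
  ∀ (L F : Type) [Field L] [Algebra ℂ L] [Field F] [Algebra ℂ F] [Algebra L F]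
    [IsScalarTower ℂ L F] (A : Subalgebra ℂ L) (m : Ideal A) (A' : Subalgebra ℂ F) (γ : L)
    (S : Set F) (n : ℕ), A.FG → m.IsMaximal → Nz A m γ → 0 < n →
    (∀ β ∈ S, ∃ (x : L) (ν : ℕ), Nz A m (γ ^ ν * x) ∧ β ^ n = algebraMap L F x) →
    A' = Algebra.adjoin ℂ (insert (algebraMap L F γ⁻¹) (algebraMap L F '' A ∪ S)) →
    q L F A m A'

/-- **PTS**: a point over the point -/
def PTS : Prop := ForE fun L F _ _ _ _ _ A m A' => ∃ m' : Ideal A', m'.IsMaximal ∧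
  (∀ x ∈ A, Nz A m x ↔ Nz A' m' (algebraMap L F x)) ∧
  ∀ μ : A', ∃ z : ℂ, μ - algebraMap ℂ A' z ∈ m'

/-- **DNS**: the density -/
def DNS : Prop := ForE fun L F _ _ _ _ _ A m A' => ∀ m' : Ideal A', m'.IsMaximal →
  (∀ x ∈ A, Nz A m x ↔ Nz A' m' (algebraMap L F x)) →
  (∀ μ : A', ∃ z : ℂ, μ - algebraMap ℂ A' z ∈ m') →
  ∀ (n : ℕ) (μ : A'), ∃ x ∈ A, ∃ ν ∈ m' ^ n, (μ : F) = algebraMap L F x + ν

/-- **TRS**: the points over a point of the quotient are conjugate; `τ` stabilises `A'` -/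
def TRS : Prop := ∀ (F : Type) [Field F] [Algebra ℂ F] (A' : Subalgebra ℂ F) (m' : Ideal A')
  (H : Subgroup (F ≃ₐ[ℂ] F)) (τ : F ≃ₐ[ℂ] F), m'.IsMaximal → Finite H → Stab H A' →
    (∀ x, x ∈ A' ↔ τ x ∈ A') → (∀ x, Fix H x → Nz A' m' x → Nz A' m' (τ x)) →
    ∃ h ∈ H, ∀ x, Nz A' m' x ↔ Nz A' m' (τ (h x))

end Vale.Agent.P283R.Uq
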