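import Vale.Agent.P283R.Uq.St3
import Vale.Agent.P283R.Uq.Nky21

/-!
# P283R, block UQ: the row NKM
-/

open Set

noncomputable section

namespace Vale.Agent.P283R.Uq

open Vale.Agent.P287D Vale.Agent.P297Z Vale.Agent.P283M Vale.Agent.P283R.Cx
open Vale.Agent.P283R.Lx (Nz Ie)
open Vale.Agent.P283R.Lx.K33
open Vale.Agent.P283R.Lx.O15
open Vale.Agent.P283R.Tq (Cj)

namespace N31

variable {L : Type} [Field L] [Algebra ℂ L] {S : Set (Pl L)} {δ : Pl L → ℤ} {φ : L}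

/-- sections over `S` -/
def Ss (S : Set (Pl L)) (δ : Pl L → ℤ) (φ : L) : Prop := φ ≠ 0 → ∀ P ∈ S, 0 ≤ P.ord φ + δ P

theorem iff : Ss S δ φ ↔ ∀ P ∈ S, φ * P.t ^ δ P ∈ P.ring := by
  rcases eq_or_ne φ 0 with rfl | h
  · exact ⟨fun _ P _ => by simp, fun _ z => (z rfl).elim⟩
  · have k : ∀ P : Pl L, 0 ≤ P.ord φ + δ P ↔ φ * P.t ^ δ P ∈ P.ring := fun P => by
      rw [← P.ord_mul_t h, Pl.ord_nonneg_iff _ (mul_ne_zero h (zpow_ne_zero _ P.t_ne))]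
    exact ⟨fun a P p => (k P).1 (a h P p), fun a _ P p => (k P).2 (a P p)⟩

theorem sum {ι : Type} [Fintype ι] {f : ι → L} (h : ∀ i, Ss S δ (f i)) : Ss S δ (∑ i, f i) :=
  iff.2 fun P p => by
    rw [Finset.sum_mul]
    exact sum_mem fun i _ => iff.1 (h i) P p

theorem mul {x : L} (hx : ∀ P ∈ S, x ∈ P.ring) (h : Ss S δ φ) : Ss S δ (x * φ) :=
  iff.2 fun P p => mul_assoc x _ _ ▸ mul_mem (hx P p) (iff.1 h P p)

theorem map {σ : L ≃ₐ[ℂ] L} (st : ∀ P ∈ S, ∀ P', Cj σ P P' → P' ∈ S ∧ δ P' = δ P)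
    (h : Ss S δ φ) : Ss S δ (σ φ) := fun z P p => by
  obtain ⟨P', c⟩ := Tq.A15.ex σ P
  rw [← c, ← (st P p P' c).2]
  exact h (fun o => z (by rw [o, map_zero])) P' (st P p P' c).1

end N31

open N21 N31

theorem nkm31 : NKM := by
  classical
  intro L _ _ d k N T D s a A m G π R S B G₀ b e K he
  have := R.gp.fin
  have := K.fin
  have := Fintype.ofFinite G
  have := Fintype.ofFinite G₀
  have mx := R.max
  have : Algebra.FiniteType ℂ A := (Subalgebra.fg_iff_finiteType A).1 R.fg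
  obtain ⟨τ, hτ, fin, n, pw⟩ := Tq.tau27 L d A m G R.ff R.fg R.max R.gp.fin (stab R) R.gp.stm
  have TS : ∀ P ∈ T, P ∈ S ∧ P.ord b = 0 := fun P p => by
    rw [K.eq] at p
    exact p
  have dw : ∀ e φ, Ss S (fun P => e ⬝ᵥ D P) φ → φ ∈ Sp s a e := fun e φ h => by
    rcases eq_or_ne φ 0 with rfl | o
    · simp
    · exact (R.cox.sec _ _ o).2 fun P p => h o P (TS P p).1
  have b1 : ∀ x, x ∈ B ↔ Ss S (fun P => (0 : Fin k → ℤ) ⬝ᵥ D P) x := fun x => by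
    simp [N31.iff, K.reg]
  have BA : ∀ x ∈ B, x ∈ A := fun x h => (R.zero _).2 (dw _ _ ((b1 x).1 h))
  have sB : ∀ σ ∈ G₀, ∀ x ∈ B, σ x ∈ B := fun σ h x z =>
    (b1 _).2 (N31.map (fun P p P' c => ⟨K.st σ h P p P' c, by simp⟩) ((b1 x).1 z))
  have b0 : b ≠ 0 := fun z => by
    obtain ⟨h, n⟩ := K.nz
    subst z
    exact n (zero_mem m)
  have bi : b⁻¹ ∈ A := (R.zero _).2 ((R.cox.sec _ _ (inv_ne_zero b0)).2 fun P p => by
    rw [P.ord_inv, (TS P p).2]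
    simp)
  have nm : ∀ x y, Nz A m x → Nz A m y → Nz A m (x * y) := fun x y ⟨p, u⟩ ⟨q, v⟩ =>
    ⟨mul_mem p q, fun z => (mx.isPrime.mem_or_mem (x := ⟨x, p⟩) (y := ⟨y, q⟩) z).elim u v⟩
  have n1 : Nz A m 1 := ⟨one_mem _, fun z => mx.ne_top ((Ideal.eq_top_iff_one _).2 z)⟩
  obtain ⟨y, y1, y2, y3⟩ : ∃ y : G₀ → L, (∀ σ, y σ ∈ B) ∧ (∀ σ, Nz A m (y σ)) ∧
      ∀ σ : G₀, σ.1 ∉ G → ¬ Nz A m (σ.1 (y σ)) := by
    have : ∀ σ : G₀, ∃ y ∈ B, Nz A m y ∧ (σ.1 ∉ G → ¬ Nz A m (σ.1 y)) := fun σ => by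
      by_cases h : σ.1 ∈ G
      · exact ⟨1, one_mem _, n1, fun z => (z h).elim⟩
      · obtain ⟨y, p, q, r⟩ := K.sep σ σ.2 h
        exact ⟨y, p, q, fun _ => r⟩
    choose y p q r using this
    exact ⟨y, p, q, r⟩
  let Y : L := ∏ ρ : G, ρ.1 (∏ σ, y σ)
  have Y0 : ∏ σ, y σ ∈ B := prod_mem fun σ _ => y1 σ
  have Y1 : Y ∈ B := prod_mem fun ρ _ => sB _ (K.le ρ.2) _ Y0
  have Y2 : Nz A m Y := Finset.prod_induction _ _ nm n1 fun ρ _ =>
    R.gp.stm _ ρ.2 _ (Finset.prod_induction _ _ nm n1 fun σ _ => y2 σ)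
  have Y3 : Fix G Y := fun σ h => by
    simp only [Y, map_prod σ]
    exact Fintype.prod_equiv (Equiv.mulLeft ⟨σ, h⟩) _ _ fun _ => rfl
  have Y4 : ∀ σ : G₀, ∃ r ∈ B, Y = y σ * r := fun σ =>
    ⟨(∏ σ' ∈ Finset.univ.erase σ, y σ') * ∏ ρ ∈ Finset.univ.erase (1 : G), ρ.1 (∏ σ, y σ),
      mul_mem (prod_mem fun σ _ => y1 σ) (prod_mem fun ρ _ => sB _ (K.le ρ.2) _ Y0), by
      rw [← mul_assoc, Finset.mul_prod_erase _ _ (Finset.mem_univ σ)]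
      exact (Finset.mul_prod_erase _ (fun ρ : G => ρ.1 (∏ σ, y σ)) (Finset.mem_univ 1)).symm⟩
  obtain ⟨c, hc⟩ := val m ⟨Y, Y2.1⟩
  have c0 : c ≠ 0 := fun z => Y2.2 (by simpa [z] using hc)
  let u : L := c⁻¹ • Y
  have u1 : u ∈ B := B.smul_mem Y1 _
  have u2 : Fix G u := fun σ h => by rw [map_smul, Y3 σ h]
  have u3 : (1 : A) - ⟨u, BA u u1⟩ ∈ m := by
    have := m.mul_mem_left (-algebraMap ℂ A c⁻¹) hc
    rwa [neg_mul, mul_sub, ← map_mul, inv_mul_cancel₀ c0, map_one, neg_sub,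
      ← Algebra.smul_def] at this
  have u4 : ∀ σ : G₀, σ.1 ∉ G → (⟨σ.1 u, BA _ (sB _ σ.2 _ u1)⟩ : A) ∈ m := fun σ h => by
    obtain ⟨r, r1, r2⟩ := Y4 σ
    have p : (⟨σ.1 (y σ), BA _ (sB _ σ.2 _ (y1 σ))⟩ : A) ∈ m := by_contra fun z => y3 σ h ⟨_, z⟩
    have := m.mul_mem_right ⟨σ.1 (c⁻¹ • r), BA _ (sB _ σ.2 _ (B.smul_mem r1 _))⟩ p
    have q : σ.1 u = σ.1 (y σ) * σ.1 (c⁻¹ • r) := by
      rw [← map_mul, mul_smul_comm, ← r2]
    simp only [q]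
    exact this
  let w : L := 1 - (1 - u ^ (n + 1)) ^ n
  have w1 : w ∈ B := sub_mem (one_mem _) (pow_mem (sub_mem (one_mem _) (pow_mem u1 _)) _)
  have w2 : ∀ σ : L ≃ₐ[ℂ] L, σ w = 1 - (1 - σ u ^ (n + 1)) ^ n := fun σ => by simp [w]
  have w3 : ∃ ν ∈ m ^ n, w = 1 - (ν : A) := ⟨(1 - ⟨u, BA u u1⟩ ^ (n + 1)) ^ n,
    Ideal.pow_mem_pow (m.mem_of_dvd (by simpa using sub_dvd_pow_sub_pow (1 : A) ⟨u, BA u u1⟩ (n + 1)) u3) n,
      rfl⟩
  have w4 : ∀ σ : G₀, σ.1 ∉ G → ∃ ν ∈ m ^ n, σ.1 w = (ν : A) := fun σ h =>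
    ⟨1 - (1 - ⟨σ.1 u, BA _ (sB _ σ.2 _ u1)⟩ ^ (n + 1)) ^ n, (m ^ n).mem_of_dvd
      (by simpa using sub_dvd_pow_sub_pow 1 (1 - (⟨σ.1 u, BA _ (sB _ σ.2 _ u1)⟩ : A) ^ (n + 1)) n)
      (Ideal.pow_le_pow_right n.le_succ (Ideal.pow_mem_pow (u4 σ h) _)), w2 _⟩
  let av : L →ₗ[ℂ] L := ∑ σ : G, σ.1.toLinearMap
  have a0 : ∀ x, av x = ∑ σ : G, σ.1 x := fun x => by simp [av]
  have a1 : ∀ x y, Fix G x → av (x * y) = x * av y := fun x y h => by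
    rw [a0, a0, Finset.mul_sum]
    exact Finset.sum_congr rfl fun σ _ => by rw [map_mul, h σ σ.2]
  have a2 : ∀ x, Fix G (av x) := fun x σ h => by
    rw [a0, map_sum]
    exact Fintype.sum_equiv (Equiv.mulLeft ⟨σ, h⟩) _ _ fun _ => rfl
  have a3 : ∀ x ∈ Sp s a e, av x ∈ Sp s a e := fun x h => by
    rw [a0]
    refine sum_mem fun σ _ => ?_
    rcases eq_or_ne x 0 with rfl | o
    · simp
    refine (R.cox.sec _ _ ((map_ne_zero _).2 o)).2 ?_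
    exact N31.map (S := T) (δ := fun P => e ⬝ᵥ D P) (fun P p P' c => ⟨R.gp.stT _ σ.2 P p P' c,
      he _ (K.le σ.2) P (TS P p).1 P' c⟩) (fun o => (R.cox.sec _ _ o).1 h) ((map_ne_zero _).2 o)
  have a5 : ∀ x, Fix G x → av x = (Fintype.card G : ℂ) • x := fun x h => by
    rw [a0, Finset.sum_congr rfl fun σ _ => h σ.1 σ.2, Finset.sum_const, Finset.card_univ,
      Nat.cast_smul_eq_nsmul]
  let W : Submodule ℂ L := Submodule.span ℂ {x | ∃ μ ∈ A, ∃ χ, Fix G₀ χ ∧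
    (χ ≠ 0 → ∀ P ∈ S, 0 ≤ P.ord χ + e ⬝ᵥ D P) ∧ x = μ * χ}
  have hW : ∀ i, ∀ x ∈ W, τ i * x ∈ W := fun i x hx => mul_comm x _ ▸ span_mul (by
    rintro _ ⟨μ, hμ, χ, h1, h2, rfl⟩
    exact Submodule.subset_span ⟨μ * τ i, mul_mem hμ (τ i).2, χ, h1, h2, mul_right_comm _ _ _⟩) hx
  let M : Submodule ℂ L :=
    { carrier := {x | x ∈ Sp s a e ∧ Fix G x}
      add_mem' := fun x y => ⟨add_mem x.1 y.1, fun σ h => by rw [map_add, x.2 σ h, y.2 σ h]⟩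
      zero_mem' := ⟨zero_mem _, fun σ _ => map_zero σ⟩
      smul_mem' := fun c x y => ⟨Submodule.smul_mem _ c y.1, fun σ h => by
        rw [map_smul, y.2 σ h]⟩ }
  have hM : ∀ i, ∀ x ∈ M, τ i * x ∈ M := fun i x h =>
    ⟨sp_tau R.zero e i x h.1, fun σ z => by rw [map_mul, (hτ i).2 σ z, h.2 σ z]⟩
  have : Algebra.FiniteType ℂ (Algebra.adjoin ℂ (range τ)) :=
    (Subalgebra.fg_iff_finiteType _).1 (Subalgebra.fg_def.2 ⟨_, finite_range _, rfl⟩)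
  have : IsNoetherianRing (Algebra.adjoin ℂ (range τ)) := Algebra.FiniteType.isNoetherianRing ℂ _
  let J : Ideal (Algebra.adjoin ℂ (range τ)) :=
    (Ideal.span (range τ)).comap (Algebra.adjoin ℂ (range τ)).val
  obtain ⟨g, g1, g2⟩ := nak0 J (sb τ W hW) (sb τ M hM)
    ((fg Lx.fim40 R.zero fin e).of_le fun x h => h.1) fun x hx Q q1 q2 => by
      have sm : ∀ (c : ℂ), ∀ y ∈ Q, c • y ∈ Q := fun c y u => by
        have := Submodule.smul_mem _ (algebraMap ℂ (Algebra.adjoin ℂ (range τ)) c) u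
        have q : algebraMap ℂ (Algebra.adjoin ℂ (range τ)) c • y = c • y :=
          (Algebra.smul_def c y).symm
        exact q ▸ this
      have k1 : ∀ y ∈ Tm τ s a e, av y ∈ Q := fun y hy => by
        induction hy using Submodule.span_induction with
        | mem _ b =>
          obtain ⟨i, y, hy, rfl⟩ := b
          rw [a1 _ _ (hτ i).2]
          exact q2 ⟨τ i, Algebra.subset_adjoin ⟨i, rfl⟩⟩
            (Ideal.subset_span (s := range τ) ⟨i, rfl⟩) _ ⟨a3 y hy, a2 y⟩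
        | zero => simp
        | add _ _ _ _ u v => exact map_add av _ _ ▸ add_mem u v
        | smul c _ _ u => exact map_smul av _ _ ▸ sm c _ u
      obtain ⟨j, hj⟩ : ∃ j : ℕ, Ss S (fun P => e ⬝ᵥ D P) (b ^ j * x) := by
        obtain ⟨j, hj⟩ := ((K.sup x e).image fun P => (-(P.ord x + e ⬝ᵥ D P)).toNat).bddAbove
        refine ⟨j, fun o P p => ?_⟩
        have x0 := right_ne_zero_of_mul o
        have p0 : 0 ≤ P.ord b := (Pl.ord_nonneg_iff _ b0).2 ((K.reg b).1 K.mem P p)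
        rw [Pl.ord_mul _ (pow_ne_zero _ b0) x0, Pl.ord_pow, add_assoc]
        change 0 ≤ _ + (_ + e ⬝ᵥ D P)
        rcases p0.eq_or_lt with z | z
        · rw [← z, mul_zero, zero_add]
          exact (R.cox.sec _ _ x0).1 hx.1 P (K.eq ▸ ⟨p, z.symm⟩)
        · by_cases v : P.ord x + e ⬝ᵥ D P = 0
          · rw [v]
            positivity
          · have := Int.toNat_le.1 (hj ⟨P, ⟨p, v⟩, rfl⟩)
            nlinarith [Int.natCast_nonneg j]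
      have s1 : ∀ σ : G₀, ∀ z, Ss S (fun P => e ⬝ᵥ D P) z → Ss S (fun P => e ⬝ᵥ D P) (σ.1 z) :=
        fun σ z => N31.map fun P p P' c => ⟨K.st _ σ.2 P p P' c, he _ σ.2 P p P' c⟩
      let χ : L := ∑ σ : G₀, σ.1 (w * (b ^ j * x))
      have c1 : Fix G₀ χ := fun σ h => by
        simp only [χ, map_sum σ]
        exact Fintype.sum_equiv (Equiv.mulLeft ⟨σ, h⟩) _ _ fun _ => rfl
      have c2 : b⁻¹ ^ j * χ ∈ Q := q1 (Submodule.subset_span ⟨_, pow_mem bi _, χ, c1,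
        N31.sum fun σ => s1 σ _ (N31.mul ((K.reg w).1 w1) hj), rfl⟩)
      have c3 : Fix G (b⁻¹ ^ j * χ) := fun σ h => by
        rw [map_mul, map_pow, map_inv₀, K.fix σ h, c1 σ (K.le h)]
      have c4 : (∑ σ : G₀, if σ.1 ∈ G then (1 : ℂ) else 0) • x - b⁻¹ ^ j * χ ∈ Tm τ s a e := by
        rw [Finset.sum_smul, Finset.mul_sum, ← Finset.sum_sub_distrib]
        refine sum_mem fun σ _ => ?_
        split_ifs with h
        · obtain ⟨ν, v1, v2⟩ := w3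
          have : (1 : ℂ) • x - b⁻¹ ^ j * σ.1 (w * (b ^ j * x)) = ν * x := by
            rw [map_mul, map_mul, map_pow, K.fix _ h, hx.2 _ h, w2, u2 _ h]
            change _ - _ * (w * _) = _
            rw [v2, one_smul, mul_left_comm, inv_pow, inv_mul_cancel_left₀ (pow_ne_zero _ b0)]
            ring
          exact this ▸ tm_of R.zero (pw v1) hx.1
        · obtain ⟨ν, v1, v2⟩ := w4 σ h
          rw [zero_smul, zero_sub, map_mul, v2, mul_left_comm]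
          exact neg_mem (tm_of R.zero (pw v1) (zero_add e ▸
            sp_mul ((R.zero _).1 (pow_mem bi _)) (dw _ _ (s1 σ _ hj))))
      have c5 : (∑ σ : G₀, if σ.1 ∈ G then (1 : ℂ) else 0) ≠ 0 := by
        rw [Finset.sum_boole]
        exact Nat.cast_ne_zero.2 (Finset.card_ne_zero.2 ⟨1, by simp⟩)
      have k3 := k1 _ c4
      rw [map_sub, map_smul, a5 _ hx.2, a5 _ c3] at k3
      have k4 := sm (Fintype.card G : ℂ)⁻¹ _ (sm (∑ σ : G₀, if σ.1 ∈ G then (1 : ℂ) else 0)⁻¹ _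
        (add_mem k3 (sm (Fintype.card G : ℂ) _ c2)))
      rwa [sub_add_cancel, inv_smul_smul₀ c5,
        inv_smul_smul₀ (Nat.cast_ne_zero.2 Fintype.card_ne_zero)] at k4
  exact ⟨_, nz_of R.max.ne_top (fun i => (hτ i).1) g1, fun ψ h1 h2 => g2 ψ ⟨h1, h2⟩⟩

end Vale.Agent.P283R.Uq
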