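import Vale.Agent.P283R.Uq.St2
import Vale.Agent.P283R.Uq.Act15
import Vale.Agent.P283R.Tq.Tau27
import Vale.Agent.P283R.Lx.Cnt

/-!
# P283R, block UQ: the sections which are invariant under the stabiliser of the point
-/

open Set

noncomputable section

namespace Vale.Agent.P283R.Uq

open Vale.Agent.P287D Vale.Agent.P297Z Vale.Agent.P283M Vale.Agent.P283R.Cx
open Vale.Agent.P283R.Lx (Nz Ie)
open Vale.Agent.P283R.Lx.K33
open Vale.Agent.P283R.Lx.O15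
open Vale.Agent.P283R.Tq (Cj)

namespace M32

variable {L : Type} [Field L] [Algebra ℂ L] {d k N : ℕ} {T : Set (Pl L)} {D : Pl L → Fin k → ℤ}
  {s : Fin N → L} {a : Fin N → Fin k → ℤ} {A : Subalgebra ℂ L} {m : Ideal A}
  {G H : Subgroup (L ≃ₐ[ℂ] L)} {π : Ac L k}

/-- the data on the cover, the point is not fixed -/
structure Rv (d : ℕ) (T : Set (Pl L)) (D : Pl L → Fin k → ℤ) (s : Fin N → L)
    (a : Fin N → Fin k → ℤ) (A : Subalgebra ℂ L) (m : Ideal A) (G : Subgroup (L ≃ₐ[ℂ] L))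
    (π : Ac L k) : Prop where
  ff : FF L d
  cox : Cox T D s a
  zero : ∀ x, x ∈ A ↔ x ∈ Sp s a 0
  fg : A.FG
  max : m.IsMaximal
  fin : Finite G
  stT : ∀ σ ∈ G, ∀ P ∈ T, ∀ P', Cj σ P P' → P' ∈ T
  pm : Pm T D G π

theorem act (R : Rv d T D s a A m G π) {σ : L ≃ₐ[ℂ] L} (h : σ ∈ G) {e : Fin k → ℤ} {φ : L}
    (hφ : φ ∈ Sp s a e) : σ φ ∈ Sp s a (π σ e) := by
  simpa using A15.sp (A := A) (m := ⊤) R.cox ⟨R.fin, R.stT, fun _ _ _ h => (h.2 trivial).elim⟩ h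
    (R.pm.rel σ h e) hφ

theorem stab (R : Rv d T D s a A m G π) : Stab G A := fun σ h x b =>
  (R.zero _).2 (by simpa using act R h ((R.zero _).1 b))

/-- the stabiliser -/
theorem stb (A : Subalgebra ℂ L) (m : Ideal A) (fin : Finite G) : ∃ H ≤ G,
    ∀ σ ∈ G, σ ∈ H ↔ ∀ x, Nz A m x → Nz A m (σ x) := by
  refine ⟨{ carrier := {σ | σ ∈ G ∧ ∀ x, Nz A m x → Nz A m (σ x)}
            one_mem' := ⟨one_mem _, fun _ h => h⟩
            mul_mem' := fun a b => ⟨mul_mem a.1 b.1, fun x h => a.2 _ (b.2 x h)⟩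
            inv_mem' := fun {σ} a => ⟨inv_mem a.1, ?_⟩ }, fun _ h => h.1,
    fun σ h => ⟨fun c => c.2, fun c => ⟨h, c⟩⟩⟩
  have pw : ∀ n : ℕ, ∀ x, Nz A m x → Nz A m ((σ ^ n) x) := fun n => by
    induction n with
    | zero => exact fun _ h => h
    | succ n ih => exact fun x h => pow_succ σ n ▸ ih _ (a.2 x h)
  obtain ⟨n, n0, hn⟩ := isOfFinOrder_iff_pow_eq_one.1 (isOfFinOrder_of_finite (⟨σ, a.1⟩ : G))
  obtain ⟨n, rfl⟩ := Nat.exists_eq_succ_of_ne_zero n0.ne'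
  have : σ ^ n * σ = 1 := (pow_succ σ n).symm.trans (congrArg Subtype.val hn)
  rw [← eq_inv_of_mul_eq_one_left this]
  exact pw n

/-- an idempotent modulo a power -/
theorem idem (R : Rv d T D s a A m G π) (hH : ∀ σ ∈ G, σ ∈ H ↔ ∀ x, Nz A m x → Nz A m (σ x))
    (n : ℕ) : ∃ ε ∈ A, ∀ σ ∈ G, ∃ ν ∈ m ^ n,
      (σ ∈ H → 1 - σ ε = ν) ∧ (σ ∉ H → σ ε = ν) := by
  classical
  have := R.fin
  have := Fintype.ofFinite G
  have := R.max
  obtain ⟨χ, hχ⟩ := Lx.C3.chi R.fg m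
  let ρ : G → A →+* A := fun σ => (σ.1.toRingEquiv.toRingHom.comp A.val.toRingHom).codRestrict A
    fun x => stab R σ σ.2 x x.2
  have ex : ∀ σ : G, ∃ x : A, x ∉ m ∧ (σ.1 ∉ H → ρ σ x ∈ m) := fun σ => by
    by_cases c : σ.1 ∈ H
    · exact ⟨1, (Ideal.ne_top_iff_one m).1 R.max.ne_top, fun z => (z c).elim⟩
    · obtain ⟨x, hx⟩ := not_forall.1 (mt (hH σ σ.2).2 c)
      obtain ⟨⟨x1, x2⟩, x3⟩ := Classical.not_imp.1 hx
      exact ⟨⟨x, x1⟩, x2, fun _ => by_contra fun z => x3 ⟨_, z⟩⟩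
  choose x x1 x2 using ex
  have p0 : χ (∏ σ, x σ) ≠ 0 := by
    rw [map_prod]
    exact Finset.prod_ne_zero_iff.2 fun σ _ z => x1 σ ((hχ _).1 z)
  let y : A := algebraMap ℂ A (χ (∏ σ, x σ))⁻¹ * ∏ σ, x σ
  have y1 : y - 1 ∈ m := (hχ _).1 (by
    rw [map_sub, map_mul, AlgHom.commutes, map_one]
    exact sub_eq_zero.2 (inv_mul_cancel₀ p0))
  refine ⟨(1 - (1 - y ^ n) ^ n : A), (1 - (1 - y ^ n) ^ n : A).2, fun σ hσ => ?_⟩
  have e : σ (1 - (1 - y ^ n) ^ n : A) = (1 - (1 - ρ ⟨σ, hσ⟩ y ^ n) ^ n : A) := by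
    refine Eq.trans (b := (ρ ⟨σ, hσ⟩ (1 - (1 - y ^ n) ^ n) : L)) rfl ?_
    rw [map_sub, map_pow, map_sub, map_pow, map_one]
  by_cases c : σ ∈ H
  · have y2 : ρ ⟨σ, hσ⟩ (y - 1) ∈ m := by_contra fun z => by
      have := (hH σ⁻¹ (inv_mem hσ)).1 (inv_mem c) _ ⟨_, z⟩
      obtain ⟨u, v⟩ := this
      have q : (⟨_, u⟩ : A) = y - 1 := Subtype.ext (σ.symm_apply_apply _)
      rw [q] at v
      exact v y1
    rw [map_sub, map_one] at y2
    refine ⟨(1 - ρ ⟨σ, hσ⟩ y ^ n) ^ n, Ideal.pow_mem_pow ((hχ _).1 ?_) n,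
      fun _ => by rw [e]; simp, fun z => (z c).elim⟩
    have := (hχ _).2 y2
    rw [map_sub, map_one, sub_eq_zero] at this
    rw [map_sub, map_pow, this, map_one, one_pow, sub_self]
  · have y2 : ρ ⟨σ, hσ⟩ y ∈ m := by
      rw [map_mul]
      exact Ideal.mul_mem_left _ _ (Ideal.mem_of_dvd _ (map_dvd _ (Finset.dvd_prod_of_mem _
        (Finset.mem_univ (⟨σ, hσ⟩ : G)))) (x2 ⟨σ, hσ⟩ c))
    refine ⟨_, Ideal.mem_of_dvd _ ?_ (Ideal.pow_mem_pow y2 n), fun z => (c z).elim, fun _ => e⟩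
    simpa using sub_dvd_pow_sub_pow 1 (1 - ρ ⟨σ, hσ⟩ y ^ n) n

theorem apx (R : Rv d T D s a A m G π) (hH : ∀ σ ∈ G, σ ∈ H ↔ ∀ x, Nz A m x → Nz A m (σ x))
    {c n : ℕ} {τ : Fin c → A} (pw : m ^ n ≤ Ideal.span (range τ)) {e : Fin k → ℤ}
    (he : ∀ σ ∈ G, π σ e = e) {x : L} (h1 : x ∈ Sp s a e) (h2 : Fix H x) :
    ∃ (c : ℂ) (S : L), c ≠ 0 ∧ S ∈ Sp s a e ∧ Fix G S ∧ c • x - S ∈ Tm τ s a e := by
  classical
  have := R.fin
  have := Fintype.ofFinite G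
  obtain ⟨ε, ε0, hε⟩ := idem R hH n
  have ac : ∀ σ ∈ G, ∀ x ∈ Sp s a e, σ x ∈ Sp s a e := fun σ h x b => he σ h ▸ act R h b
  have εx : ε * x ∈ Sp s a e := zero_add e ▸ sp_mul ((R.zero _).1 ε0) h1
  refine ⟨∑ σ : G, if σ.1 ∈ H then 1 else 0, ∑ σ : G, σ.1 (ε * x), ?_,
    sum_mem fun (σ : G) _ => ac σ σ.2 _ εx, fun σ h => ?_, ?_⟩
  · rw [Finset.sum_boole]
    exact Nat.cast_ne_zero.2 (Finset.card_ne_zero.2
      ⟨1, Finset.mem_filter.2 ⟨Finset.mem_univ _, (hH 1 (one_mem G)).2 fun _ h => h⟩⟩)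
  · rw [map_sum]
    exact Fintype.sum_equiv (Equiv.mulLeft ⟨σ, h⟩) _ _ fun _ => rfl
  rw [Finset.sum_smul, ← Finset.sum_sub_distrib]
  refine sum_mem fun σ _ => ?_
  obtain ⟨ν, n1, n2, n3⟩ := hε σ σ.2
  rw [map_mul]
  split_ifs with c
  · have := tm_of R.zero (pw n1) h1
    rw [← n2 c, sub_mul, one_mul] at this
    rwa [one_smul, h2 σ c]
  · rw [zero_smul, zero_sub, n3 c]
    exact neg_mem (tm_of R.zero (pw n1) (ac σ σ.2 x h1))

theorem nkm (R : Rv d T D s a A m G π) (le : H ≤ G)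
    (hH : ∀ σ ∈ G, σ ∈ H ↔ ∀ x, Nz A m x → Nz A m (σ x)) (e : Fin k → ℤ)
    (he : ∀ σ ∈ G, π σ e = e) : ∃ g, Nz A m g ∧ ∀ ψ ∈ Sp s a e, Fix H ψ →
      g * ψ ∈ Submodule.span ℂ {x | ∃ μ ∈ A, ∃ χ ∈ Sp s a e, Fix G χ ∧ x = μ * χ} := by
  classical
  have := R.fin
  have fH : Finite H := Finite.of_injective _ (Subgroup.inclusion_injective le)
  have := Fintype.ofFinite H
  obtain ⟨τ, hτ, fin, n, pw⟩ := Tq.tau27 L d A m H R.ff R.fg R.max fH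
    (fun σ h => stab R σ (le h)) fun σ h => (hH σ (le h)).1 h
  have ac : ∀ σ ∈ G, ∀ x ∈ Sp s a e, σ x ∈ Sp s a e := fun σ h x b => he σ h ▸ act R h b
  let av : L →ₗ[ℂ] L := ∑ σ : H, σ.1.toLinearMap
  have a0 : ∀ x, av x = ∑ σ : H, σ.1 x := fun x => by simp [av]
  have a1 : ∀ x y, Fix H x → av (x * y) = x * av y := fun x y h => by
    rw [a0, a0, Finset.mul_sum]
    exact Finset.sum_congr rfl fun σ _ => by rw [map_mul, h σ σ.2]
  have a2 : ∀ x, Fix H (av x) := fun x σ h => by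
    rw [a0, map_sum]
    exact Fintype.sum_equiv (Equiv.mulLeft ⟨σ, h⟩) _ _ fun _ => rfl
  have a3 : ∀ x ∈ Sp s a e, av x ∈ Sp s a e := fun x h => by
    rw [a0]
    exact sum_mem fun σ _ => ac σ (le σ.2) x h
  have a5 : ∀ x, Fix H x → av x = (Fintype.card H : ℂ) • x := fun x h => by
    rw [a0, Finset.sum_congr rfl fun σ _ => h σ.1 σ.2, Finset.sum_const, Finset.card_univ,
      Nat.cast_smul_eq_nsmul]
  let W : Submodule ℂ L := Submodule.span ℂ {x | ∃ μ ∈ A, ∃ χ ∈ Sp s a e, Fix G χ ∧ x = μ * χ}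
  have hW : ∀ i, ∀ x ∈ W, τ i * x ∈ W := fun i x hx => mul_comm x _ ▸ span_mul (by
    rintro _ ⟨μ, hμ, χ, h1, h2, rfl⟩
    exact Submodule.subset_span ⟨μ * τ i, mul_mem hμ (τ i).2, χ, h1, h2, mul_right_comm _ _ _⟩) hx
  let M : Submodule ℂ L :=
    { carrier := {x | x ∈ Sp s a e ∧ Fix H x}
      add_mem' := fun x y => ⟨add_mem x.1 y.1, fun σ h => by rw [map_add, x.2 σ h, y.2 σ h]⟩
      zero_mem' := ⟨zero_mem _, fun σ _ => map_zero σ⟩
      smul_mem' := fun c x y => ⟨Submodule.smul_mem _ c y.1, fun σ h => by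
        rw [map_smul, y.2 σ h]⟩ }
  have hM : ∀ i, ∀ x ∈ M, τ i * x ∈ M := fun i x h =>
    ⟨sp_tau R.zero e i x h.1, fun σ z => by rw [map_mul, (hτ i).2 σ z, h.2 σ z]⟩
  have : Algebra.FiniteType ℂ (Algebra.adjoin ℂ (range τ)) :=
    (Subalgebra.fg_iff_finiteType _).1 (Subalgebra.fg_def.2 ⟨_, finite_range _, rfl⟩)
  have : IsNoetherianRing (Algebra.adjoin ℂ (range τ)) := Algebra.FiniteType.isNoetherianRing ℂ _
  let J : Ideal (Algebra.adjoin ℂ (range τ)) :=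
    (Ideal.span (range τ)).comap (Algebra.adjoin ℂ (range τ)).val
  obtain ⟨g, g1, g2⟩ := nak0 J (sb τ W hW) (sb τ M hM)
    ((fg Lx.fim40 R.zero fin e).of_le fun x h => h.1) fun x hx Q q1 q2 => by
      have sm : ∀ (c : ℂ), ∀ y ∈ Q, c • y ∈ Q := fun c y u => by
        have := Submodule.smul_mem _ (algebraMap ℂ (Algebra.adjoin ℂ (range τ)) c) u
        have q : algebraMap ℂ (Algebra.adjoin ℂ (range τ)) c • y = c • y :=
          (Algebra.smul_def c y).symm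
        exact q ▸ this
      have k1 : ∀ y ∈ Tm τ s a e, av y ∈ Q := fun y hy => by
        induction hy using Submodule.span_induction with
        | mem _ b =>
          obtain ⟨i, y, hy, rfl⟩ := b
          rw [a1 _ _ (hτ i).2]
          exact q2 ⟨τ i, Algebra.subset_adjoin ⟨i, rfl⟩⟩
            (Ideal.subset_span (s := range τ) ⟨i, rfl⟩) _ ⟨a3 y hy, a2 y⟩
        | zero => simp
        | add _ _ _ _ u v => exact map_add av _ _ ▸ add_mem u v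
        | smul c _ _ u => exact map_smul av _ _ ▸ sm c _ u
      obtain ⟨c, S, c0, S1, S2, k2⟩ := apx R hH pw he hx.1 hx.2
      have wS : S ∈ Q := q1 (Submodule.subset_span ⟨1, one_mem _, _, S1, S2, (one_mul _).symm⟩)
      have k3 := k1 _ k2
      rw [map_sub, map_smul, a5 x hx.2, a5 _ fun σ h => S2 σ (le h)] at k3
      have k4 := add_mem k3 (sm (Fintype.card H : ℂ) _ wS)
      rw [sub_add_cancel, smul_smul] at k4
      have := sm (c * Fintype.card H)⁻¹ _ k4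
      rwa [inv_smul_smul₀ (mul_ne_zero c0 (Nat.cast_ne_zero.2 Fintype.card_ne_zero))] at this
  exact ⟨_, nz_of R.max.ne_top (fun i => (hτ i).1) g1, fun ψ h1 h2 => g2 ψ ⟨h1, h2⟩⟩

end M32

end Vale.Agent.P283R.Uq
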