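import Vale.Agent.P283R.Uq.St3
import Vale.Agent.P283R.Uq.Nky21

/-!
# P283R, block UQ: the sections which are fixed by the decomposition group come from below
-/

open Set

noncomputable section

namespace Vale.Agent.P283R.Uq

open Vale.Agent.P287D Vale.Agent.P297Z Vale.Agent.P283M Vale.Agent.P283R.Cx
open Vale.Agent.P283R.Lx (Nz Ie)
open Vale.Agent.P283R.Lx.K33
open Vale.Agent.P283R.Lx.O15
open N21

theorem nkm79 : NKM := by
  classical
  intro L _ _ d k N T D s a A m G π R S B G₀ b e K he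
  have := R.gp.fin
  have := K.fin
  have := Fintype.ofFinite G
  have := Fintype.ofFinite G₀
  have pr := R.max.isPrime
  obtain ⟨τ, hτ, fin, n, pw⟩ := Tq.tau27 L d A m G R.ff R.fg R.max R.gp.fin (stab R) R.gp.stm
  have TS : ∀ P ∈ T, P ∈ S := fun P h => (K.eq ▸ h : P ∈ Tz S b).1
  let Sc : Submodule ℂ L := ⨅ P ∈ S, P.sub (e ⬝ᵥ D P : ℤ)
  have sc : ∀ x, x ∈ Sc ↔ (x ≠ 0 → ∀ P ∈ S, 0 ≤ P.ord x + e ⬝ᵥ D P) := fun x => by
    simp only [Sc, Submodule.mem_iInf, Pl.mem_sub]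
    exact ⟨fun h x0 P hP => by exact_mod_cast (h P hP).resolve_left x0,
      fun h P hP => or_iff_not_imp_left.2 fun x0 => by exact_mod_cast h x0 P hP⟩
  have s1 : ∀ x ∈ Sc, x ∈ Sp s a e := fun x h => by
    rcases eq_or_ne x 0 with rfl | x0
    · simp
    exact (R.cox.sec _ _ x0).2 fun P hP => (sc x).1 h x0 P (TS P hP)
  have s2 : ∀ σ ∈ G₀, ∀ x ∈ Sc, σ x ∈ Sc := fun σ hσ x h => (sc _).2 fun x0 P hP => by
    obtain ⟨P', c⟩ := Tq.A15.ex σ P
    rw [← c, ← he σ hσ P hP P' c]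
    exact (sc x).1 h (by simpa using x0) P' (K.st σ hσ P hP P' c)
  have s3 : ∀ y ∈ B, ∀ x ∈ Sc, y * x ∈ Sc := fun y hy x h => (sc _).2 fun x0 P hP => by
    have := (sc x).1 h (right_ne_zero_of_mul x0) P hP
    have := P297Z.Pl.ord_nonneg_of_mem P.toPlace ((K.reg y).1 hy P hP)
    rw [P.ord_mul (left_ne_zero_of_mul x0) (right_ne_zero_of_mul x0)]
    change 0 ≤ P.ord y at this
    omega
  have bA : ∀ y ∈ B, y ∈ A := fun y hy => by
    rcases eq_or_ne y 0 with rfl | y0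
    · simp
    refine (R.zero _).2 ((R.cox.sec _ _ y0).2 fun P hP => ?_)
    rw [zero_dotProduct, add_zero]
    exact P297Z.Pl.ord_nonneg_of_mem P.toPlace ((K.reg y).1 hy P (TS P hP))
  have bs : ∀ σ ∈ G₀, ∀ y ∈ B, σ y ∈ B := fun σ hσ y hy => (K.reg _).2 fun P hP => by
    rcases eq_or_ne y 0 with rfl | y0
    · simp
    obtain ⟨P', c⟩ := Tq.A15.ex σ P
    refine (P297Z.Pl.ord_nonneg_iff P.toPlace (by simpa using y0)).1 ?_
    exact (c y) ▸ P297Z.Pl.ord_nonneg_of_mem P'.toPlace ((K.reg y).1 hy P' (K.st σ hσ P hP P' c))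
  have nm : ∀ x y, Nz A m x → Nz A m y → Nz A m (x * y) := fun x y ⟨p, h⟩ ⟨q, g⟩ =>
    ⟨mul_mem p q, fun z => (pr.mem_or_mem (x := ⟨x, p⟩) (y := ⟨y, q⟩) z).elim h g⟩
  have n1 : Nz A m 1 := ⟨one_mem _, fun z => pr.ne_top ((Ideal.eq_top_iff_one _).2 z)⟩
  have np : ∀ x (j : ℕ), Nz A m x → Nz A m (x ^ j) := fun x j h => by
    induction j with
    | zero => simpa using n1
    | succ j ih => exact pow_succ x j ▸ nm _ _ ih h
  have nd : ∀ x ∈ A, ∀ y ∈ A, Nz A m (x * y) → Nz A m x := fun x p y q ⟨_, h⟩ =>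
    ⟨p, fun z => h (m.mul_mem_right (⟨y, q⟩ : A) z)⟩
  obtain ⟨y, yB, yn, ys⟩ : ∃ y ∈ B, Nz A m y ∧ ∀ σ ∈ G₀, σ ∉ G → ¬ Nz A m (σ y) := by
    have : ∀ σ : G₀, ∃ y ∈ B, Nz A m y ∧ (σ.1 ∉ G → ¬ Nz A m (σ.1 y)) := fun σ => by
      by_cases h : σ.1 ∈ G
      · exact ⟨1, one_mem _, n1, fun z => (z h).elim⟩
      · exact let ⟨y, p, q, r⟩ := K.sep σ σ.2 h; ⟨y, p, q, fun _ => r⟩
    choose y p q r using this
    refine ⟨∏ σ, y σ, prod_mem fun σ _ => p σ, Finset.prod_induction _ _ nm n1 fun σ _ => q σ,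
      fun σ h g z => r ⟨σ, h⟩ g ?_⟩
    rw [← Finset.mul_prod_erase _ _ (Finset.mem_univ (⟨σ, h⟩ : G₀)), map_mul] at z
    exact nd _ (bA _ (bs σ h _ (p _))) _ (bA _ (bs σ h _ (prod_mem fun τ _ => p τ))) z
  obtain ⟨z, zB, zn, zf, zs⟩ : ∃ z ∈ B, Nz A m z ∧ Fix G z ∧ ∀ σ ∈ G₀, σ ∉ G → ¬ Nz A m (σ z) := by
    have p : ∀ τ : G, τ.1 y ∈ B := fun τ => bs _ (K.le τ.2) _ yB
    refine ⟨∏ τ : G, τ.1 y, prod_mem fun τ _ => p τ,
      Finset.prod_induction _ _ nm n1 fun τ _ => R.gp.stm _ τ.2 _ yn, fun σ h => ?_,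
      fun σ h g z => ys σ h g ?_⟩
    · rw [map_prod]
      exact Fintype.prod_equiv (Equiv.mulLeft ⟨σ, h⟩) _ _ fun _ => rfl
    · rw [← Finset.mul_prod_erase _ _ (Finset.mem_univ (1 : G)), map_mul] at z
      exact nd _ (bA _ (bs σ h _ yB)) _ (bA _ (bs σ h _ (prod_mem fun τ _ => p τ))) z
  let av : L →ₗ[ℂ] L := ∑ σ : G, σ.1.toLinearMap
  have a0 : ∀ x, av x = ∑ σ : G, σ.1 x := fun x => by simp [av]
  have a1 : ∀ x y, Fix G x → av (x * y) = x * av y := fun x y h => by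
    rw [a0, a0, Finset.mul_sum]
    exact Finset.sum_congr rfl fun σ _ => by rw [map_mul, h σ σ.2]
  have a2 : ∀ x, Fix G (av x) := fun x σ h => by
    rw [a0, map_sum]
    exact Fintype.sum_equiv (Equiv.mulLeft ⟨σ, h⟩) _ _ fun _ => rfl
  have a3 : ∀ x ∈ Sp s a e, av x ∈ Sp s a e := fun x h => by
    rw [a0]
    refine sum_mem fun σ _ => ?_
    rcases eq_or_ne x 0 with rfl | x0
    · simp
    refine (R.cox.sec _ _ (by simpa using x0)).2 fun P hP => ?_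
    obtain ⟨P', c⟩ := Tq.A15.ex σ.1 P
    rw [← c, ← he σ (K.le σ.2) P (TS P hP) P' c]
    exact (R.cox.sec _ _ x0).1 h P' (R.gp.stT σ σ.2 P hP P' c)
  let W : Submodule ℂ L := Submodule.span ℂ {x | ∃ μ ∈ A, ∃ χ, Fix G₀ χ ∧
    (χ ≠ 0 → ∀ P ∈ S, 0 ≤ P.ord χ + e ⬝ᵥ D P) ∧ x = μ * χ}
  have hW : ∀ i, ∀ x ∈ W, τ i * x ∈ W := fun i x hx => mul_comm x _ ▸ span_mul (by
    rintro _ ⟨μ, hμ, χ, h1, h2, rfl⟩
    exact Submodule.subset_span ⟨μ * τ i, mul_mem hμ (τ i).2, χ, h1, h2, mul_right_comm _ _ _⟩) hx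
  let M : Submodule ℂ L :=
    { carrier := {x | x ∈ Sp s a e ∧ Fix G x}
      add_mem' := fun x y => ⟨add_mem x.1 y.1, fun σ h => by rw [map_add, x.2 σ h, y.2 σ h]⟩
      zero_mem' := ⟨zero_mem _, fun σ _ => map_zero σ⟩
      smul_mem' := fun c x y => ⟨Submodule.smul_mem _ c y.1, fun σ h => by
        rw [map_smul, y.2 σ h]⟩ }
  have hM : ∀ i, ∀ x ∈ M, τ i * x ∈ M := fun i x h =>
    ⟨sp_tau R.zero e i x h.1, fun σ z => by rw [map_mul, (hτ i).2 σ z, h.2 σ z]⟩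
  have : Algebra.FiniteType ℂ (Algebra.adjoin ℂ (range τ)) :=
    (Subalgebra.fg_iff_finiteType _).1 (Subalgebra.fg_def.2 ⟨_, finite_range _, rfl⟩)
  have : IsNoetherianRing (Algebra.adjoin ℂ (range τ)) := Algebra.FiniteType.isNoetherianRing ℂ _
  let J : Ideal (Algebra.adjoin ℂ (range τ)) :=
    (Ideal.span (range τ)).comap (Algebra.adjoin ℂ (range τ)).val
  obtain ⟨g, g1, g2⟩ := nak0 J (sb τ W hW) (sb τ M hM)
    ((fg Lx.fim40 R.zero fin e).of_le fun x h => h.1) fun x hx Q q1 q2 => by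
      have sm : ∀ (c : ℂ), ∀ y ∈ Q, c • y ∈ Q := fun c y u => by
        have := Submodule.smul_mem _ (algebraMap ℂ (Algebra.adjoin ℂ (range τ)) c) u
        have q : algebraMap ℂ (Algebra.adjoin ℂ (range τ)) c • y = c • y :=
          (Algebra.smul_def c y).symm
        exact q ▸ this
      have k1 : ∀ y ∈ Tm τ s a e, av y ∈ Q := fun y hy => by
        induction hy using Submodule.span_induction with
        | mem _ b =>
          obtain ⟨i, y, hy, rfl⟩ := b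
          rw [a1 _ _ (hτ i).2]
          exact q2 ⟨τ i, Algebra.subset_adjoin ⟨i, rfl⟩⟩
            (Ideal.subset_span (s := range τ) ⟨i, rfl⟩) _ ⟨a3 y hy, a2 y⟩
        | zero => simp
        | add _ _ _ _ u v => exact map_add av _ _ ▸ add_mem u v
        | smul c _ _ u => exact map_smul av _ _ ▸ sm c _ u
      have b0 : b ≠ 0 := by
        rintro rfl
        exact K.nz.2 (zero_mem m)
      obtain ⟨j, hj⟩ : ∃ j : ℕ, b ^ j * x ∈ Sc := by
        rcases eq_or_ne x 0 with rfl | x0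
        · exact ⟨0, by simp⟩
        obtain ⟨j, hj⟩ := ((K.sup x e).image fun P => (P.ord x + e ⬝ᵥ D P).natAbs).bddAbove
        refine ⟨j, (sc _).2 fun _ P hP => ?_⟩
        have o : 0 ≤ P.ord b := P297Z.Pl.ord_nonneg_of_mem P.toPlace ((K.reg b).1 K.mem P hP)
        have o2 : P.ord (b ^ j) = j * P.ord b := P297Z.Pl.ord_pow P.toPlace b j
        rw [P.ord_mul (pow_ne_zero _ b0) x0, o2, add_assoc]
        rcases o.eq_or_lt with h | h
        · rw [← h, mul_zero, zero_add]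
          exact (R.cox.sec _ _ x0).1 hx.1 P (K.eq ▸ ⟨hP, h.symm⟩)
        by_cases u : P.ord x + e ⬝ᵥ D P = 0
        · rw [u]
          positivity
        have : (P.ord x + e ⬝ᵥ D P).natAbs ≤ j := hj ⟨P, ⟨hP, u⟩, rfl⟩
        have : (j : ℤ) * 1 ≤ j * P.ord b := mul_le_mul_of_nonneg_left h (Int.natCast_nonneg j)
        omega
      obtain ⟨cA, cn⟩ := nm _ _ (np z n zn) (np b j K.nz)
      obtain ⟨u, ν, hν, uν⟩ : ∃ u : A, ∃ ν ∈ m ^ n, (u : L) * (z ^ n * b ^ j) + ν = 1 := by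
        have := R.max
        obtain ⟨u, ν, hν, q⟩ := Ideal.IsMaximal.exists_inv_pow m cn n
        exact ⟨u, ν, hν, congrArg Subtype.val q⟩
      let F := Finset.univ.filter fun σ : G₀ => σ.1 ∈ G
      let t := ∑ σ ∈ Finset.univ.filter (fun σ : G₀ => ¬ σ.1 ∈ G), σ.1 (z ^ n * (b ^ j * x))
      let χ := ∑ σ : G₀, σ.1 (z ^ n * (b ^ j * x))
      have ht : t ∈ Tm τ s a e := sum_mem fun σ h => by
        have p := bA _ (bs σ σ.2 z zB)
        have q : (⟨_, p⟩ : A) ∈ m := by_contra fun w => zs σ σ.2 (Finset.mem_filter.1 h).2 ⟨p, w⟩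
        rw [map_mul, map_pow]
        exact tm_of R.zero (pw (Ideal.pow_mem_pow q n)) (s1 _ (s2 σ σ.2 _ hj))
      have eχ : χ = (F.card : ℂ) • (z ^ n * (b ^ j * x)) + t := by
        rw [Nat.cast_smul_eq_nsmul, ← Finset.sum_const]
        refine (Finset.sum_filter_add_sum_filter_not _ (fun σ : G₀ => σ.1 ∈ G) _).symm.trans ?_
        refine congrArg (· + t) (Finset.sum_congr rfl fun σ h => ?_)
        have h := (Finset.mem_filter.1 h).2
        rw [map_mul, map_mul, map_pow, map_pow, zf σ h, K.fix σ h, hx.2 σ h]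
      have fχ : Fix G₀ χ := fun σ h => by
        rw [map_sum]
        exact Fintype.sum_equiv (Equiv.mulLeft ⟨σ, h⟩) _ _ fun _ => rfl
      have k2 : av (χ * u) ∈ Q := by
        rw [a1 _ _ fun σ h => fχ σ (K.le h)]
        refine q1 (Submodule.subset_span ⟨av u, ?_, χ, fχ, (sc _).1
          (sum_mem fun σ _ => s2 σ σ.2 _ (s3 _ (pow_mem zB n) _ hj)), mul_comm _ _⟩)
        rw [a0]
        exact sum_mem fun σ _ => stab R σ σ.2 _ u.2
      have k3 : av (t * u) ∈ Q := k1 _ (by simpa using tm_mul ht ((R.zero _).1 u.2))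
      have k4 := sm F.card _ (k1 _ (tm_of R.zero (pw hν) hx.1))
      have k5 : av ((F.card : ℂ) • x) ∈ Q := by
        have q : (F.card : ℂ) • x = χ * u - t * u + (F.card : ℂ) • (ν * x) := by
          rw [eχ, Algebra.smul_def, Algebra.smul_def, Algebra.smul_def]
          linear_combination (-algebraMap ℂ L F.card * x) * uν
        rw [q, map_add, map_sub, map_smul]
        exact add_mem (sub_mem k2 k3) k4
      have F0 : (F.card : ℂ) ≠ 0 := Nat.cast_ne_zero.2 (Finset.card_ne_zero.2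
        ⟨1, Finset.mem_filter.2 ⟨Finset.mem_univ _, one_mem G⟩⟩)
      have k6 := sm (Fintype.card G : ℂ)⁻¹ _ (sm (F.card : ℂ)⁻¹ _ k5)
      rwa [map_smul, inv_smul_smul₀ F0, a0, Finset.sum_congr rfl fun σ _ => hx.2 σ.1 σ.2,
        Finset.sum_const, Finset.card_univ, ← Nat.cast_smul_eq_nsmul ℂ,
        inv_smul_smul₀ (Nat.cast_ne_zero.2 Fintype.card_ne_zero)] at k6
  exact ⟨_, nz_of R.max.ne_top (fun i => (hτ i).1) g1, fun ψ h1 h2 => g2 ψ ⟨h1, h2⟩⟩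

end Vale.Agent.P283R.Uq
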