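import Vale.Agent.P283R.Uq.Top48
import Vale.Agent.P283R.Uq.Fan48
import Vale.Agent.P283R.Uq.Frm3
import Vale.Agent.P283R.Sl.Uq2

/-!
# P283R, block UQ: the short word
-/

open Set CategoryTheory AlgebraicGeometry

noncomputable section

namespace Vale.Agent.P283R.Uq

section

open Sl Sl.Var

/-- a class `C` with bounded embedding dimension -/
def FRD (l : ℕ → ℕ) (C : ∀ (d : ℕ) (Y W : Sl.Var), (Y.X ⟶ W.X) → Y.Form d → Pt W.X → Prop) :
    Prop :=
  ∀ (d : ℕ) (Y W : Sl.Var) (g : Y.X ⟶ W.X) (η : Y.Form d) (w : Pt W.X), 1 ≤ d →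
    dimension Y.str = d → η.Nonzero → Contraction g → FanoType g η → w.Closed → C d Y W g η w →
    Fr (Y := Y.o) (W := W.o) d (l d) g w

theorem FRD.frc {l C} (h : FRD l C) : FRC l C := fun d _ Y W g η _ w a _ b c _ e f _ i j =>
  h d Y W g η w a b c e f i j

/-- the quotients -/
theorem onq48 (fc : FCE) (etg : ETG) {l C} (fr : FRD l C) :
    OnN fun d _ _ f _ _ z => QuotOf (C d) f z := by
  refine (On.den (C := fun q d _ _ f ω B z => (∀ E, ∃ m : ℤ, q * B.coeff E = m) ∧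
    FanoType f ω ∧ NefOver f (-logCan ω B) ∧ QuotOf (C d) f z) fun q hq => ?_).mono
      fun _ _ _ _ _ _ _ h _ w => ⟨w, h⟩
  intro d hd ε hε R hR
  obtain ⟨n, rfl⟩ : ∃ n, d = n + 1 := ⟨d - 1, by omega⟩
  obtain ⟨M, M1, H⟩ := core48 fc etg Tq.quo10 n q (l (n + 1)) hq hε
  refine ⟨M, M1, fun X Z f ω B z a b c _ s t ⟨w, u1, u2, Y, W, π, g, κ, η, p, fq, hκ, ec, hw,
    v2, v5, v8⟩ => (has_iff f ω B _ z).2 ?_⟩
  obtain ⟨h1, h2, h3, ι, G, pe, ⟨h4, h5⟩, h6⟩ := fq.fin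
  obtain ⟨J, qp⟩ := qp48 (X := X.o) (Y := Y.o) h1 h2 h3 pe h4 h5 h6
  have cl : p.Closed := by
    have := IsClosed.preimage κ.continuous t
    rwa [show κ ⁻¹' {z} = {p} from Set.ext hw] at this
  have u := (fanoType_iff f ω).1 u1
  exact H X.o Y.o W.o Z.o f ω B z π g κ p ι G a b ((pair_iff _ _ ω B).1 c) s t w u
    ((nefOver_iff f _).1 u2) h1 h2 h3 pe h4
    (fun g => ⟨fun e => (h5 g).1 e, fun e => (h5 g).2 e⟩) h6 hκ ec hw
    (fr _ Y W g η p hd (qp.dim a) v2 v5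
      ((fanoType_iff g η).2 (fan48 (Z := Z.o) (W := W.o) qp ec hd a b v2 u)) cl v8)

end

open Sl Sl.Var Lx.C23 Vale.Agent.P287D Vale.Agent.P297Z F3
open Vale.Agent.P283R.Lx (Nz)

/-- low complexity -/
theorem frd_m : FRD (fun d => d + 1) fun _ _ _ g η w => MldCx g η w := by
  intro d X Z f ω z hd hdim hω hf hF hz h
  classical
  obtain ⟨V, Λ, m, φ, S, ρ, D', c, zV, pr, m0, hφ, hS, cl, hc, lt⟩ := h
  obtain ⟨n, rfl⟩ : ∃ n, d = n + 1 := ⟨d - 1, by omega⟩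
  have hK := P283M.Br.ffd X.o _ hdim
  obtain ⟨j, -, fr⟩ := P283M.Br.frm X.o _ hK ω hω
  have fK := P283R.Br.form_fin hK fr
  refine ⟨S ∪ fK.toFinset, fun Ω hΩ => ?_⟩
  have sg : ∀ (E : X.PrimeDiv) (r : ℕ), QDiv.coeff (.single E (r : ℚ)) =
      fun E' => r * QDiv.coeff (.single E 1) E' := fun E r => funext fun E' => by
    by_cases e : E = E'
    · subst e
      simp
    · simp [Finsupp.single_eq_of_ne' e]
  have one : ∀ E, Lx.C23.Lo f z D' (QDiv.coeff (.single E 1)) := fun E =>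
    let ⟨U, r, u, r0, a⟩ := cl E
    ⟨U, r, u, r0, sg E r ▸ a⟩
  choose U r u p a using one
  have zi : z ∈ Ω.inf U := by
    refine Finset.inf_induction (p := fun O : Z.X.Opens => z ∈ O) trivial
      (fun _ a _ b => ⟨a, b⟩) fun E _ => u E
  refine ⟨V ⊓ Ω.inf U, ⟨zV, zi⟩, fun W le hW zW k D k2 d1 d2 => ?_⟩
  obtain ⟨l0, l3⟩ := le_inf_iff.1 le
  have l3 := Finset.le_inf_iff.1 l3
  have pW : Pair (0 ≤ ·) (pre f W) ω Λ :=
    ⟨fun y c => pr.1 y (l0 c), fun x c => pr.2.1 x (l0 c), fun M E c => pr.2.2 M E (l0 c)⟩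
  obtain ⟨x₀, e₀⟩ := hf.2.2.1.surj (generic Z.X)
  have hc' := congrArg (Rat.cast : ℚ → ℝ) hc
  rw [Rat.cast_sub, Rat.cast_add, Rat.cast_natCast, Rat.cast_natCast] at hc'
  refine fin (X := X.o) (Z := Z.o) hf hz zW (core (X := X.o) (Z := Z.o) (β := c - 2)
    (r := ∏ E ∈ Ω, r E) (L := Λ) (S := S) (D' := D') (D := D) k2
    hdim hω hf ((fanoType_iff f ω).1 hF) hz hW zW
    (fun u bs => Lx.M3.bas (X := X.o) (Z := Z.o) hf hz bs)
    (fun h h0 fr => Lx.ofl _ m X _ ω Λ φ h m0 h0 fr pW fun x c => hφ x (l0 c)) pW.1 m0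
    (fun x c => hφ x (l0 c)) (Finset.prod_pos fun E _ => p E)
    (fun E e => ⟨hS E e, d2 E (hΩ (Finset.mem_union_left _ e))⟩)
    (kspan _ (fun E e => hΩ (Finset.mem_union_right _ (fK.mem_toFinset.2 e))) d2 k2)
    (fun i => ?_) ?_)
  · obtain e | ⟨E, e1, e⟩ := d1 i
    · refine mono zero le_rfl fun E _ => ?_
      rw [e]
      exact (congrArg _ Int.cast_zero).trans (mul_zero _)
    · refine mono (up (a E) (l3 E e1) (Finset.dvd_prod_of_mem r e1)) le_rfl fun E' _ => ?_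
      rw [e]
      refine congrArg _ ?_
      by_cases c : E = E'
      · subst c
        exact (congrArg _ Finsupp.single_eq_same).trans
          (Int.cast_one.trans Finsupp.single_eq_same.symm)
      · exact (congrArg _ (Finsupp.single_eq_of_ne' c)).trans
          (Int.cast_zero.trans (Finsupp.single_eq_of_ne' c).symm)
  by_cases c2 : c < 2
  · have : (c : ℝ) < 2 := by exact_mod_cast c2
    exact .inl ((eq_add_of_sub_eq hc'.symm).trans_lt (add_lt_add_of_lt_of_le this le_rfl))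
  obtain ⟨c3, gn, ml⟩ := lt.resolve_left c2
  refine .inr ⟨sub_nonneg.2 (by exact_mod_cast not_lt.1 c2), ?_,
    ⟨x₀, show f x₀ ∈ W from e₀ ▸ (genericPoint_specializes z).mem_open W.isOpen zW,
      fun e => gn (e.symm.trans e₀)⟩, fun h h0 fr Q y hy hQ e => ?_,
    (eq_add_of_sub_eq hc'.symm).le.trans_eq (congrArg (· + _) (by ring))⟩
  · have : (c : ℝ) ≤ 3 := by exact_mod_cast c3
    linarith
  · have m1 : (m : ℝ) ≠ 0 := Nat.cast_ne_zero.2 m0.ne'
    obtain ⟨M, E, rfl, e'⟩ := P283M.Br.mod X.o Q y hQ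
    have o := (P283M.Br.plc X.o M.Y M.pull (P283M.Br.mdc X.o M).1 E).2 Q e'
    have : (c : ℝ) - 2 < 1 + (P283M.Stm.Var.formOrd ω M.pull E -
      (P283M.Stm.Var.ord (M.pull φ) E : ℝ) / m) := ml (Model.nw M) E e
    rw [fr _ _ E Q e' o, o] at this
    rw [Pl.ord_div _ (hφ _ (l0 hy)).1 (pow_ne_zero m h0), Pl.ord_pow]
    push_cast
    have k : ((Q.ord φ : ℝ) - m * Q.ord h) / m = Q.ord φ / m - Q.ord h := by field_simp
    rw [k]
    linarith

end Vale.Agent.P283R.Uq
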