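import Vale.Agent.P283R.Uq.St2

/-!
# P283R, block UQ: the image of a neighbourhood is a neighbourhood
-/

open Set Polynomial

noncomputable section

namespace Vale.Agent.P283R.Uq

open Vale.Agent.P287D Vale.Agent.P283M Vale.Agent.P283R.Cx
open Vale.Agent.P283R.Lx (Nz)
open Vale.Agent.P283R.Tq (Cj)

namespace O94

theorem low {R ι : Type} [CommRing R] [Fintype ι] (x : ι → R) (p : Ideal R) (h : ∀ i, x i ∈ p)
    {j : ℕ} (hj : j < Fintype.card ι) : (∏ i, (X - C (x i))).coeff j ∈ p := by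
  rw [← Ideal.Quotient.eq_zero_iff_mem, ← coeff_map, Polynomial.map_prod]
  have : ∀ i, (X - C (x i)).map (Ideal.Quotient.mk p) = X := fun i => by
    simp [Ideal.Quotient.eq_zero_iff_mem.2 (h i)]
  simp only [this, Finset.prod_const, Finset.card_univ]
  rw [coeff_X_pow, if_neg hj.ne]

theorem some {R ι : Type} [CommRing R] [Fintype ι] (x : ι → R) (p : Ideal R) [hp : p.IsPrime]
    (i₀ : ι) (h : x i₀ ∉ p) : ∃ j < Fintype.card ι, (∏ i, (X - C (x i))).coeff j ∉ p := by
  by_contra hc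
  push Not at hc
  have : Nontrivial R := ⟨⟨0, 1, fun e => hp.ne_top ((Ideal.eq_top_iff_one _).2 (e ▸ p.zero_mem))⟩⟩
  have mo : (∏ i, (X - C (x i)) : R[X]).Monic := monic_prod_of_monic _ _ fun i _ => monic_X_sub_C _
  have dg : (∏ i, (X - C (x i)) : R[X]).natDegree = Fintype.card ι := by
    rw [natDegree_prod_of_monic _ _ fun i _ => monic_X_sub_C _]
    simp
  have ev : (∏ i, (X - C (x i)) : R[X]).eval (x i₀) = 0 := by
    rw [eval_prod]
    exact Finset.prod_eq_zero (Finset.mem_univ i₀) (by simp)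
  rw [eval_eq_sum_range, Finset.sum_range_succ, mo.coeff_natDegree, one_mul, dg] at ev
  refine h (hp.mem_of_pow_mem (Fintype.card ι) ?_)
  rw [eq_neg_of_add_eq_zero_right ev]
  exact neg_mem (Ideal.sum_mem _ fun j hj => Ideal.mul_mem_right _ _ (hc j (Finset.mem_range.1 hj)))

end O94

theorem opn94 : OPN := by
  intro L _ _ A m G g hm hG st ⟨hg, ng⟩
  have := Fintype.ofFinite G
  let x : G → A := fun σ => ⟨σ.1 g, st σ.1 σ.2 g hg⟩
  obtain ⟨j, hj, hc⟩ := O94.some x m 1 ng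
  have e : ((∏ σ, (X - C (x σ)) : A[X]).coeff j : L) = (∏ σ : G, (X - C (σ.1 g))).coeff j := by
    change A.val.toRingHom _ = _
    rw [← coeff_map, Polynomial.map_prod]
    simp [x]
  refine ⟨_, ⟨((∏ σ, (X - C (x σ)) : A[X]).coeff j).2, hc⟩, fun τ hτ => ?_, fun Q hQ h0 => ?_⟩
  · rw [e]
    change (τ : L →+* L) _ = _
    rw [← coeff_map, Polynomial.map_prod]
    congr 1
    refine Fintype.prod_equiv (Equiv.mulLeft (⟨τ, hτ⟩ : G)) _ _ fun σ => ?_
    simp
  · let φ : A →+* Q.ring := A.val.toRingHom.codRestrict Q.ring fun y => hQ y y.2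
    by_contra hn
    push Not at hn
    have g0 : g ≠ 0 := by
      rintro rfl
      exact ng m.zero_mem
    have hl := O94.low x ((IsLocalRing.maximalIdeal Q.ring).comap φ) (fun σ => ?_) hj
    · have h1 : ((∏ σ, (X - C (x σ)) : A[X]).coeff j : L) ≠ 0 := fun h => hc (by
        rw [show (∏ σ, (X - C (x σ)) : A[X]).coeff j = 0 from Subtype.ext h]
        exact m.zero_mem)
      refine hl (isUnit_iff_exists_inv.2 ⟨⟨_, (Q.ord_nonneg_iff (inv_ne_zero h1)).1 ?_⟩,
        Subtype.ext (mul_inv_cancel₀ h1)⟩)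
      rw [Q.ord_inv, h0]
      simp
    · obtain ⟨Q', -, c⟩ := Cf.Ds.cj σ.1 Q
      have h1 := hn σ.1 σ.2 Q' c
      rw [c g] at h1
      intro hu
      obtain ⟨y, hy⟩ := isUnit_iff_exists_inv.1 hu
      have hy' : σ.1 g * (y : L) = 1 := congrArg Subtype.val hy
      have h2 := Q.ord_mul (left_ne_zero_of_mul_eq_one hy') (right_ne_zero_of_mul_eq_one hy')
      have h3 := Q.ord_nonneg_of_mem y.2
      have h4 := Q.ord_nonneg_of_mem (hQ _ (x σ).2)
      rw [hy', Q.ord_one] at h2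
      change 0 ≤ Q.ord (σ.1 g) at h4
      omega

end Vale.Agent.P283R.Uq
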