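import Vale.Agent.P283R.Tq.Sep87
import Vale.Agent.P283R.Uq.Min77
import Vale.Agent.P283R.Uq.Loc79

/-!
# P283R, block UQ: pointed data after an invariant localisation
-/

open Set

noncomputable section

namespace Vale.Agent.P283R.Uq

open Vale.Agent.P287D Vale.Agent.P297Z Vale.Agent.P283M Vale.Agent.P283R.Cx
open Vale.Agent.P283R.Lx (Nz Ie)
open Vale.Agent.P283R.Lx.K33 (I2 IeS)
open Vale.Agent.P283R.Tq (Cj Rel Gp cv TAU)
open Vale.Agent.P283R.Tq.I69 (Gr)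
open Vale.Agent.P283R.Lx.O15

namespace P21

variable {L : Type} [Field L] [Algebra ℂ L] {d k N : ℕ} {T : Set (Pl L)} {D : Pl L → Fin k → ℤ}
  {s : Fin N → L} {a : Fin N → Fin k → ℤ} {A : Subalgebra ℂ L} {m : Ideal A}
  {G : Subgroup (L ≃ₐ[ℂ] L)} {π : Ac L k} {U : (Fin k → ℤ) → L → Prop} {γ : L}

/-- generators after a localisation -/
theorem cox {N' : ℕ} {s' : Fin N' → L} {a' : Fin N' → Fin k → ℤ} (x : Cox T D s a) (γ0 : γ ≠ 0)
    (hγ : γ ∈ Sp s a 0)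
    (h : ∀ i, s' i ≠ 0 ∧ ∀ P ∈ T, P.ord γ = 0 → 0 ≤ P.ord (s' i) + a' i ⬝ᵥ D P)
    (hi : γ⁻¹ ∈ Sp s' a' 0) (gen : ∀ e, ∀ φ ∈ Sp s a e, ∃ n : ℕ, γ ^ n * φ ∈ Sp s' a' e) :
    Cox {P ∈ T | P.ord γ = 0} D s' a' := by
  have g : Gr (Sp s' a') := ⟨fun a b => sp_mul a b, one_sp _ _⟩
  have dv : ∀ e φ (n : ℕ), γ ^ n * φ ∈ Sp s' a' e → φ ∈ Sp s' a' e := fun e φ n k => by
    have := sp_mul (g.pw hi n) k
    rwa [inv_pow, inv_mul_cancel_left₀ (pow_ne_zero n γ0), smul_zero, zero_add] at this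
  have le : ∀ e, ∀ φ ∈ Sp s a e, φ ∈ Sp s' a' e := fun e φ k =>
    let ⟨n, z⟩ := gen e φ k; dv e φ n z
  refine ⟨fun j => (h j).1, fun e φ φ0 => ⟨fun k P hP => ?_, fun k => ?_⟩,
    fun φ e => (x.fin φ e).subset fun P z => ⟨z.1.1, z.2⟩, fun φ => ?_, fun e => ?_⟩
  · have := (Lx.G3.sp_le (M := fun e => P.sub ((e ⬝ᵥ D P : ℤ) : ℝ)) (fun a b => by
      rw [add_dotProduct, Int.cast_add]
      exact Cf.Ds.sub_mul P a b) (.inr (by simp)) (fun j => .inr (by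
        exact_mod_cast (h _).2 P hP.1 hP.2)) e k).resolve_left φ0
    exact_mod_cast this
  · obtain ⟨n, hn⟩ := ((x.fin φ e).image fun P => (P.ord φ + e ⬝ᵥ D P).natAbs).bddAbove
    refine dv e φ n (le _ _ ((x.sec _ _ (mul_ne_zero (pow_ne_zero n γ0) φ0)).2 fun P hP => ?_))
    have o : 0 ≤ P.ord γ := by simpa using (x.sec _ _ γ0).1 hγ P hP
    rw [Pl.ord_mul _ (pow_ne_zero n γ0) φ0, Pl.ord_pow, add_assoc]
    by_cases z : P.ord γ = 0
    · simpa [z] using k P ⟨hP, z⟩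
    by_cases z' : P.ord φ + e ⬝ᵥ D P = 0
    · rw [z', add_zero]
      positivity
    have : (P.ord φ + e ⬝ᵥ D P).natAbs ≤ n := hn ⟨P, ⟨hP, z'⟩, rfl⟩
    have : (n : ℤ) * 1 ≤ n * P.ord γ := mul_le_mul_of_nonneg_left (by omega) (by omega)
    omega
  · obtain ⟨e, b, hb, c, hc, z⟩ := x.fr0 φ
    exact ⟨e, b, le _ _ hb, c, le _ _ hc, z⟩
  · obtain ⟨e', b, hb, c, hc, z⟩ := x.fr1 e
    exact ⟨e', b, le _ _ hb, c, le _ _ hc, z⟩

theorem uone (un : Un T D G π U) : U 0 1 := (un.cst 1).2 ⟨1, one_ne_zero, (map_one _).symm⟩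

/-- the units are monomials in a basis and the inverse of its product -/
theorem unit (un : Un T D G π U) {r : ℕ} {v : Fin r → Fin k → ℤ} {M : (Fin k → ℤ) → Submodule ℂ L}
    (g : Gr M) (h0 : ∃ η, U (-∑ j, v j) η ∧ η ∈ M (-∑ j, v j)) (h1 : ∀ j, ∃ η, U (v j) η ∧ η ∈ M (v j))
    {u : Fin k → ℤ} (hu : u ∈ Submodule.span ℤ (range v)) {x : L} (hx : U u x) : x ∈ M u := by
  classical
  let S : AddSubmonoid (Fin k → ℤ) :=
    { carrier := {v | ∃ η, U v η ∧ η ∈ M v}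
      zero_mem' := ⟨1, uone un, g.2⟩
      add_mem' := fun ⟨x, a, a'⟩ ⟨y, b, b'⟩ => ⟨x * y, un.mul _ _ _ _ a b, g.1 a' b'⟩ }
  have s2 : ∀ j, -v j ∈ S := fun j => by
    have := S.add_mem h0 (S.sum_mem (t := Finset.univ.erase j) fun j _ => h1 j)
    rwa [← Finset.add_sum_erase _ _ (Finset.mem_univ j), neg_add, neg_add_cancel_right] at this
  have s3 : u ∈ S := by
    obtain ⟨c, rfl⟩ := (Submodule.mem_span_range_iff_exists_fun ℤ).1 hu
    refine S.sum_mem fun j _ => ?_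
    obtain ⟨n, z | z⟩ := (c j).eq_nat_or_neg
    · simpa [z] using S.nsmul_mem (show v j ∈ S from h1 j) n
    · simpa [z] using S.nsmul_mem (s2 j) n
  obtain ⟨y, b, b'⟩ := s3
  have := un.mul _ _ _ _ hx (un.inv _ _ b)
  rw [add_neg_cancel] at this
  obtain ⟨t, -, ht⟩ := (un.cst _).1 this
  have e : x = t • y := by rw [Algebra.smul_def, ← ht, inv_mul_cancel_right₀ (un.pr _ _ b).1]
  exact e ▸ (M u).smul_mem t b'

theorem mo {M : (Fin k → ℤ) → Submodule ℂ L} (g : Gr M) {c r : ℕ} {τ : Fin c → L} {z : Fin r → L}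
    {w : Fin r → Fin k → ℤ} (h0 : ∀ i, τ i ∈ M 0) (h1 : ∀ i, z i ∈ M (w i))
    (h2 : ∀ u θ, U u θ → θ ∈ M u) (e : Fin k → ℤ) : Mo U τ z w e ≤ M e := by
  refine Submodule.span_le.2 ?_
  rintro _ ⟨α, β, θ, hθ, rfl⟩
  have t1 := Lx.G3.prod_mem (M := M) g.1 g.2 Finset.univ fun i => g.pw (h0 i) (α i)
  have t2 := Lx.G3.prod_mem (M := M) g.1 g.2 Finset.univ fun i => g.pw (h1 i) (β i)
  simpa [cv] using g.1 (g.1 t1 t2) (h2 _ _ hθ)

/-- the value at the point -/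
theorem val (B : Bu d T D s a A m G π U) (h : Nz A m γ) :
    ∃ c : ℂ, c ≠ 0 ∧ γ - algebraMap ℂ L c ∈ Ie A m s a 0 := by
  have n : γ ∉ Ie A m s a 0 := fun z => z.2 1 (by simpa using one_sp s a) (by simpa using h)
  obtain ⟨θ, c, u, z⟩ := (B.orb 0 γ ((B.zero _).1 h.1)).resolve_left n
  obtain ⟨x, -, rfl⟩ := (B.un.cst _).1 u
  rw [Algebra.smul_def, ← map_mul] at z
  exact ⟨c * x, fun e => n (by simpa [e] using z), z⟩

theorem i2_val {e : Fin k → ℤ} {x φ : L} (hx : x ∈ Ie A m s a 0) (h : φ ∈ Ie A m s a e) :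
    x * φ ∈ I2 A m s a e := Submodule.subset_span ⟨0, x, hx, φ, by simpa using h, rfl⟩

end P21

open P21

theorem pntr21 : PNTR := by
  classical
  intro act tau nak d l L _ _ k N T D s a A m G π U B ⟨n₀, r, z₀, w₀, v, le, hz₀, hv, sp₀⟩
  obtain ⟨n, nn, z, w, hz, sp, mn⟩ : ∃ n ≤ n₀, ∃ (z : Fin n → L) (w : Fin n → Fin k → ℤ),
      (∀ i, z i ∈ Ie A m s a (w i)) ∧ (∀ e, ∀ φ ∈ Ie A m s a e,
        ∃ (I : Finset (Fin n)) (θ : Fin n → L) (γ : Fin n → ℂ),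
          (∀ j ∈ I, U (e - w j) (θ j)) ∧ φ - ∑ j ∈ I, γ j • (z j * θ j) ∈ I2 A m s a e) ∧
      ∀ (e : Fin k → ℤ) (I : Finset (Fin n)) (θ : Fin n → L) (γ : Fin n → ℂ),
        (∀ j ∈ I, U (e - w j) (θ j)) → ∑ j ∈ I, γ j • (z j * θ j) ∈ I2 A m s a e →
        ∀ j ∈ I, γ j = 0 :=
    let ⟨n, nn, b, _, h⟩ := min77' B.cox B.un z₀ w₀ sp₀
    ⟨n, nn, z₀ ∘ b, w₀ ∘ b, fun i => hz₀ _, h⟩
  have := B.gp.fin
  obtain ⟨τ, hτ, fin, pw⟩ := tau L d A m G B.ff B.fg B.max B.gp.fin (fun σ h x b => by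
    have := (act d L k N T D s a A m G π U B σ h 0 0 1 (by simpa using uone B.un) x).1.1
      ((B.zero _).1 b)
    exact (B.zero _).2 (by simpa using this)) B.gp.stm
  obtain ⟨γ, γ1, γ2, gen⟩ := nak d L k N T D s a A m G π U B _ _ τ z w hz sp (fun i => (hτ i).1)
    fin pw
  have γ0 : γ ≠ 0 := fun e => (not_nz (zero_mem A)).2 m.zero_mem (e ▸ γ2)
  have fx : Fix G γ := fun σ h => by
    have : Algebra.adjoin ℂ (range fun i => (τ i : L)) ≤
        AlgHom.equalizer (σ : L →ₐ[ℂ] L) (AlgHom.id ℂ L) :=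
      Algebra.adjoin_le (range_subset_iff.2 fun i => (hτ i).2 σ h)
    exact this γ1
  have hB : ∀ i : Option (Fin r), ∃ η, U (i.elim (-∑ j, v j) v) η := fun i => (hv _).2 (by
    cases i with
    | none => exact neg_mem (sum_mem fun j _ => Submodule.subset_span ⟨j, rfl⟩)
    | some j => exact Submodule.subset_span ⟨j, rfl⟩)
  choose η hη using hB
  let ι := Fin n ⊕ Fin (d + 1) ⊕ Option (Option (Fin r))
  let s₀ : ι → L := Sum.elim z (Sum.elim (fun i => τ i + 1) fun i => i.elim γ⁻¹ η)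
  let a₀ : ι → Fin k → ℤ := Sum.elim w (Sum.elim 0 fun i => i.elim 0 fun i => i.elim (-∑ j, v j) v)
  let e := Fintype.equivFin ι
  have hM : ∀ i, s₀ i ∈ Sp (s₀ ∘ e.symm) (a₀ ∘ e.symm) (a₀ i) := fun i => by
    simpa using Lx.G3.gen_sp (s₀ ∘ e.symm) (a₀ ∘ e.symm) (e i)
  have g : Gr (Sp (s₀ ∘ e.symm) (a₀ ∘ e.symm)) := ⟨fun a b => sp_mul a b, one_sp _ _⟩
  have cx : Cox {P ∈ T | P.ord γ = 0} D (s₀ ∘ e.symm) (a₀ ∘ e.symm) := by
    refine cox B.cox γ0 ((B.zero _).1 γ2.1) (fun j => ?_) (hM (.inr (.inr none))) fun u φ h => ?_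
    · simp only [Function.comp]
      obtain i | i | _ | i := e.symm j
      · have z0 : z i ≠ 0 := fun c => one_ne_zero (mn (w i) {i} 1 1
          (fun j b => by rw [Finset.mem_singleton.1 b, sub_self]; exact uone B.un)
          (by simp [c]) i (Finset.mem_singleton_self i))
        exact ⟨z0, fun P hP _ => (B.cox.sec _ _ z0).1 (hz i).1 P hP⟩
      · have z0 : (τ i : L) + 1 ≠ 0 := fun c => B.max.ne_top ((Ideal.eq_top_iff_one _).2 (by
          have : (1 : A) = -τ i := Subtype.ext (eq_neg_of_add_eq_zero_right c)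
          exact this ▸ neg_mem (hτ i).1))
        exact ⟨z0, fun P hP _ => (B.cox.sec _ _ z0).1
          ((B.zero _).1 (add_mem (τ i).2 (one_mem A))) P hP⟩
      · exact ⟨inv_ne_zero γ0, fun P _ o => by simp [s₀, a₀, Pl.ord_inv, o]⟩
      · exact ⟨(B.un.pr _ _ (hη i)).1, fun P hP _ => ((B.un.pr _ _ (hη i)).2 P hP).ge⟩
    obtain ⟨j, hj⟩ := gen u φ h
    exact ⟨j, mo g (fun i => add_sub_cancel_right (τ i : L) 1 ▸ sub_mem (hM (.inr (.inl i))) g.2)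
      (fun i => hM (.inl i)) (fun _ θ hθ => unit B.un g ⟨_, hη none, hM (.inr (.inr (some none)))⟩
      (fun j => ⟨_, hη (some j), hM (.inr (.inr (some (some j))))⟩) ((hv _).1 ⟨θ, hθ⟩) hθ) u hj⟩
  obtain ⟨A', m', B', t1, t2, t3⟩ := loc79 B γ2 fx cx
  let f : Fin n ↪ Fin (Fintype.card ι) := ⟨fun i => e (.inl i), fun _ _ h => Sum.inl_injective (e.injective h)⟩
  have fe : ∀ i, e.symm (f i) = .inl i := fun i => e.symm_apply_apply _
  have fs : ∀ i, (s₀ ∘ e.symm) (f i) = z i := fun i => congrArg s₀ (e.symm_apply_apply _)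
  have fa : ∀ i, (a₀ ∘ e.symm) (f i) = w i := fun i => congrArg a₀ (e.symm_apply_apply _)
  have ie : ∀ j ∈ Finset.univ.map f, (s₀ ∘ e.symm) j ∈
      Ie A' m' (s₀ ∘ e.symm) (a₀ ∘ e.symm) ((a₀ ∘ e.symm) j) := fun j h => by
    obtain ⟨i, -, rfl⟩ := Finset.mem_map.1 h
    rw [fs, fa]
    exact (t2 _ _).2 ⟨0, by simpa using hz i⟩
  have np : ∀ j : ℕ, Nz A m (γ ^ j) := fun j => by
    induction j with
    | zero => simpa using nz_one B.max.ne_top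
    | succ j ih => exact pow_succ γ j ▸ nz_mul B.max.isPrime ih γ2
  refine ⟨γ, _, s₀ ∘ e.symm, a₀ ∘ e.symm, A', m', Finset.univ.map f, γ2, fx,
    ⟨B', ?_, fun j h => ?_, ie, fun u φ h => ?_, fun u I θ c hI h1 h2 => ?_, fun i hi j hj ij =>
      Tq.sep87 cx (fun p => ?_) (fun p => ?_) ij⟩, fun x h => (t1 x).1 h⟩
  · simp only [ι, Fintype.card_sum, Fintype.card_fin, Fintype.card_option]
    omega
  · obtain ⟨i, rfl⟩ := e.surjective j
    rw [Function.comp, e.symm_apply_apply]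
    obtain i | i | _ | i := i
    · exact (h (Finset.mem_map_of_mem f (Finset.mem_univ i))).elim
    · exact ⟨1, uone B.un⟩
    · exact ⟨1, uone B.un⟩
    · exact ⟨_, hη i⟩
  · obtain ⟨j, hj⟩ := (t2 _ _).1 h
    obtain ⟨I, θ, c, h1, h2⟩ := sp u _ hj
    obtain ⟨x, x0, hx⟩ := val B (np j)
    refine ⟨I.map f, Sum.elim θ 0 ∘ e.symm, Sum.elim (fun i => x⁻¹ * c i) 0 ∘ e.symm,
      Finset.map_subset_map.2 (Finset.subset_univ I), fun j b => ?_, ?_⟩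
    · obtain ⟨i, b', rfl⟩ := Finset.mem_map.1 b
      rw [fa, Function.comp, fe]
      exact h1 i b'
    have := Submodule.smul_mem _ x⁻¹ (sub_mem ((t3 _ _).2 ⟨0, by simpa using h2⟩)
      (i2_val ((t2 _ _).2 ⟨0, by simpa using hx⟩) h))
    refine (congrArg (· ∈ _) ?_).mp this
    simp only [Finset.sum_map, fs]
    simp only [Function.comp, fe, Sum.elim_inl, mul_smul, ← Finset.smul_sum]
    rw [sub_mul, ← Algebra.smul_def, sub_sub_sub_cancel_left, smul_sub, inv_smul_smul₀ x0]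
  · obtain ⟨I, -, rfl⟩ := Finset.subset_map_iff.1 hI
    obtain ⟨j, hj⟩ := (t3 _ _).1 h2
    obtain ⟨x, x0, hx⟩ := val B (np j)
    have h3 : ∀ i ∈ I, U (u - w i) (θ (f i)) := fun i b => fa i ▸ h1 _ (Finset.mem_map_of_mem f b)
    simp only [Finset.sum_map, fs] at hj
    have h4 : ∑ i ∈ I, c (f i) • (z i * θ (f i)) ∈ IeS B.zero m u := sum_mem fun i b =>
      Submodule.smul_mem _ _ (by
        have p := B.un.pr _ _ (h3 i b)
        exact add_sub_cancel (w i) u ▸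
          ie_mul (hz i) ((B.cox.sec _ _ p.1).2 fun P hP => (p.2 P hP).ge))
    have := Submodule.smul_mem _ x⁻¹ (sub_mem hj (i2_val hx h4))
    rw [sub_mul, sub_sub_cancel, ← Algebra.smul_def, inv_smul_smul₀ x0] at this
    intro j b
    obtain ⟨i, b', rfl⟩ := Finset.mem_map.1 b
    exact mn u I (θ ∘ f) (c ∘ f) h3 this i b'
  all_goals
    have q := Tq.I69.pr_inv p
    refine (ie _ ‹_›).2 _ ((cx.sec _ _ q.1).2 fun P hP => (q.2 P hP).ge) ?_
    rw [mul_inv_cancel₀ p.1]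
    exact nz_one B'.max.ne_top

end Vale.Agent.P283R.Uq
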