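import Vale.Agent.P283R.Uq.Kun93
import Vale.Agent.P283R.Lx.St

/-!
# P283R, block UQ: the point upstairs, its decomposition group, the roots with the value one
-/

open Set

noncomputable section

namespace Vale.Agent.P283R.Uq.P56

open Vale.Agent.P287D Vale.Agent.P283M Vale.Agent.P283R.Cx
open Vale.Agent.P283R.Lx (Nz)

variable {L F : Type} [Field L] [Algebra ℂ L] [Field F] [Algebra ℂ F]

/-- the action on a stable subalgebra -/
def ac56 {G : Subgroup (F ≃ₐ[ℂ] F)} {A : Subalgebra ℂ F} (st : Stab G A) (τ : G) : A →+* A :=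
  (τ.1 : F →+* F).restrict A A (st τ τ.2)

theorem sj56 {G : Subgroup (F ≃ₐ[ℂ] F)} {A : Subalgebra ℂ F} (st : Stab G A) (τ : G) :
    Function.Surjective (ac56 st τ) := fun x =>
  ⟨ac56 st τ⁻¹ x, Subtype.ext (τ.1.apply_symm_apply x)⟩

/-- primes which agree on the invariants are conjugate -/
theorem tr56 {H : Subgroup (F ≃ₐ[ℂ] F)} [Finite H] {A : Subalgebra ℂ F} (st : Stab H A)
    {P Q : Ideal A} [Q.IsPrime] (h : ∀ b ∈ P, Fix H (b : F) → b ∈ Q) :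
    ∃ τ : H, P ≤ Q.comap (ac56 st τ) := by
  classical
  have := Fintype.ofFinite H
  obtain ⟨τ, -, k⟩ := (Ideal.subset_union_prime (s := Finset.univ)
    (f := fun τ : H => Q.comap (ac56 st τ)) 1 1 (fun _ _ _ _ => inferInstance) (I := P)).1
    fun x hx => by
      obtain ⟨c, hc⟩ := Finset.dvd_prod_of_mem (fun τ : H => ac56 st τ x) (Finset.mem_univ 1)
      obtain ⟨τ, -, k⟩ := Ideal.IsPrime.prod_mem_iff.1 (h (∏ τ : H, ac56 st τ x)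
        (hc ▸ P.mul_mem_right c hx) fun τ a => by
          rw [SubmonoidClass.coe_finsetProd, map_prod]
          exact Fintype.prod_equiv (Equiv.mulLeft (⟨τ, a⟩ : H)) _ _ fun _ => rfl)
      exact mem_biUnion (Finset.mem_univ τ) k
  exact ⟨τ, k⟩

/-- the decomposition group -/
def dc56 (G : Subgroup (F ≃ₐ[ℂ] F)) (A : Subalgebra ℂ F) (m : Ideal A) :
    Subgroup (F ≃ₐ[ℂ] F) where
  carrier := {τ | τ ∈ G ∧ ∀ x, Nz A m x ↔ Nz A m (τ x)}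
  one_mem' := ⟨G.one_mem, fun _ => Iff.rfl⟩
  mul_mem' := fun a b => ⟨G.mul_mem a.1 b.1, fun x => (b.2 x).trans (a.2 _)⟩
  inv_mem' := fun {τ} a => ⟨G.inv_mem a.1, fun x => by
    have := a.2 (τ⁻¹ x)
    rw [show τ (τ⁻¹ x) = x from τ.apply_symm_apply x] at this
    exact this.symm⟩

variable [Algebra L F]

/-- lying over, by the trace -/
theorem ly56 {A : Subalgebra ℂ L} {m : Ideal A} (hm : m.IsMaximal) {γ : L} (hγ : Nz A m γ)
    {H : Subgroup (F ≃ₐ[ℂ] F)} [Finite H] (fx : ∀ y, Fix H y ↔ y ∈ range (algebraMap L F))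
    {A' : Subalgebra ℂ F} (st : Stab H A') (le : ∀ x ∈ A, algebraMap L F x ∈ A')
    (dn : ∀ x, algebraMap L F x ∈ A' → ∃ ν : ℕ, γ ^ ν * x ∈ A) :
    ∃ m' : Ideal A', m'.IsMaximal ∧ ∀ x ∈ A, Nz A m x ↔ Nz A' m' (algebraMap L F x) := by
  have := Fintype.ofFinite H
  let φ : A →+* A' := (algebraMap L F).restrict A A' le
  let g : A := ⟨γ, hγ.1⟩
  have key : ∀ μ ∈ m.map φ, ∀ c : A', ∃ (y : L) (ν : ℕ) (z : A), z ∈ m ∧ γ ^ ν * y = z ∧
      ∑ τ : H, τ.1 (c * μ : F) = algebraMap L F y := fun μ hμ => by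
    refine Submodule.span_induction (fun μ ⟨x, hx, e⟩ c => ?_) (fun c => ?_)
      (fun a b _ _ ha hb c => ?_) (fun a b _ hb c => ?_) hμ
    · obtain ⟨y, k⟩ := (fx (∑ τ : H, τ.1 (c : F))).1 fun τ a => by
        rw [map_sum]
        exact Fintype.sum_equiv (Equiv.mulLeft (⟨τ, a⟩ : H)) _ _ fun _ => rfl
      obtain ⟨ν, h⟩ := dn y (k ▸ A'.sum_mem fun τ _ => st τ τ.2 _ c.2)
      refine ⟨y * x, ν, ⟨_, h⟩ * x, m.mul_mem_left _ hx, (mul_assoc _ _ _).symm, ?_⟩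
      rw [map_mul, k, Finset.sum_mul, ← e]
      exact Finset.sum_congr rfl fun τ _ => by
        rw [map_mul]
        exact congrArg _ ((fx _).2 ⟨x, rfl⟩ τ τ.2)
    · exact ⟨0, 0, 0, m.zero_mem, by simp, by simp⟩
    · obtain ⟨y, ν, z, z1, z2, z3⟩ := ha c
      obtain ⟨y', ν', z', w1, w2, w3⟩ := hb c
      refine ⟨y + y', ν + ν', g ^ ν' * z + g ^ ν * z',
        m.add_mem (m.mul_mem_left _ z1) (m.mul_mem_left _ w1), ?_, ?_⟩
      · change _ = γ ^ ν' * (z : L) + γ ^ ν * (z' : L)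
        rw [← z2, ← w2]
        ring
      · rw [map_add, ← z3, ← w3, ← Finset.sum_add_distrib]
        exact Finset.sum_congr rfl fun τ _ => by rw [← map_add, AddMemClass.coe_add, mul_add]
    · obtain ⟨y, ν, z, z1, z2, z3⟩ := hb (c * a)
      exact ⟨y, ν, z, z1, z2, by
        rw [← z3, smul_eq_mul, MulMemClass.coe_mul, MulMemClass.coe_mul, mul_assoc]⟩
  obtain ⟨m', h1, h2⟩ := Ideal.exists_le_maximal (m.map φ) fun t => by
    obtain ⟨y, ν, z, z1, z2, z3⟩ := key 1 (t ▸ trivial)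
      (algebraMap ℂ A' (Fintype.card H : ℂ)⁻¹)
    have y1 : y = 1 := (algebraMap L F).injective (by
      rw [← z3, map_one, OneMemClass.coe_one, mul_one]
      change ∑ τ : H, τ.1 (algebraMap ℂ F _) = 1
      simp only [AlgEquiv.commutes, Finset.sum_const, Finset.card_univ, nsmul_eq_mul]
      rw [← map_natCast (algebraMap ℂ F), ← map_mul, mul_inv_cancel₀
        (Nat.cast_ne_zero.2 Fintype.card_ne_zero), map_one])
    rw [y1, mul_one] at z2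
    exact hγ.2 (hm.isPrime.mem_of_pow_mem ν ((Subtype.ext z2 : g ^ ν = z) ▸ z1))
  have e : m = m'.comap φ :=
    hm.eq_of_le (Ideal.comap_ne_top _ h1.ne_top) (Ideal.map_le_iff_le_comap.1 h2)
  exact ⟨m', h1, fun x hx => ⟨fun a => ⟨le x hx, fun b => a.2 (e.ge b)⟩,
    fun a => ⟨hx, fun b => a.2 (e.le b)⟩⟩⟩

/-- cancel a power of `γ` -/
theorem cn56 {A : Subalgebra ℂ L} {m : Ideal A} {γ : L} (hγ : Nz A m γ)
    {A' : Subalgebra ℂ F} {m' : Ideal A'} (hm : m'.IsPrime)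
    (nz : ∀ x ∈ A, Nz A m x ↔ Nz A' m' (algebraMap L F x)) {y : L} {ν : ℕ} {b : A'}
    (e : algebraMap L F y = b) (h : γ ^ ν * y ∈ A) : b ∈ m' ↔ ¬ Nz A m (γ ^ ν * y) := by
  obtain ⟨g1, g2⟩ := (nz γ hγ.1).1 hγ
  have k : algebraMap L F (γ ^ ν * y) = ((⟨_, g1⟩ : A') ^ ν * b : A') := by
    rw [map_mul, map_pow, e]
    rfl
  rw [nz _ h, k]
  exact ⟨fun a c => c.2 (m'.mul_mem_left _ a), fun a => by_contra fun c => a ⟨SetLike.coe_mem _,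
    fun z => (hm.mem_or_mem z).elim (fun z => g2 (hm.mem_of_pow_mem ν z)) c⟩⟩

/-- the decomposition group maps onto the group downstairs -/
theorem su56 {A : Subalgebra ℂ L} {m : Ideal A} {γ : L} (hγ : Nz A m γ)
    {H G' : Subgroup (F ≃ₐ[ℂ] F)} [Finite H] (hl : H ≤ G')
    (fx : ∀ y, Fix H y ↔ y ∈ range (algebraMap L F))
    {A' : Subalgebra ℂ F} (st : Stab G' A') {m' : Ideal A'} (hm : m'.IsMaximal)
    (dn : ∀ x, algebraMap L F x ∈ A' → ∃ ν : ℕ, γ ^ ν * x ∈ A)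
    (nz : ∀ x ∈ A, Nz A m x ↔ Nz A' m' (algebraMap L F x)) {σ : L ≃ₐ[ℂ] L} (f : σ γ = γ)
    (stm : ∀ x, Nz A m x → Nz A m (σ x)) {τ : F ≃ₐ[ℂ] F} (t : τ ∈ G')
    (e : ∀ x, τ (algebraMap L F x) = algebraMap L F (σ x)) :
    ∃ τ ∈ dc56 G' A' m', ∀ x, τ (algebraMap L F x) = algebraMap L F (σ x) := by
  have := hm.isPrime
  have sh : Stab H A' := fun ρ a => st ρ (hl a)
  obtain ⟨ρ, k⟩ := tr56 sh (P := m'.comap (ac56 st ⟨τ, t⟩)) (Q := m') fun b hb fb => by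
    obtain ⟨y, hy⟩ := (fx _).1 fb
    obtain ⟨ν, h⟩ := dn y (hy ▸ b.2)
    refine (cn56 hγ this nz hy h).2 fun z => ?_
    have w := stm _ z
    rw [map_mul, map_pow, f] at w
    exact (cn56 hγ this nz (b := ac56 st ⟨τ, t⟩ b) ((e y).symm.trans (congrArg τ hy)) w.1).1 hb w
  have q := (Ideal.comap_isMaximal_of_surjective _ (sj56 st ⟨τ, t⟩) (K := m')).eq_of_le
    (Ideal.comap_ne_top _ hm.ne_top) k
  have g : τ * ρ.1⁻¹ ∈ G' := G'.mul_mem t (G'.inv_mem (hl ρ.2))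
  have u : ∀ x : A', ac56 st ⟨_, g⟩ x ∈ m' ↔ x ∈ m' := fun x => by
    have := SetLike.ext_iff.1 q (ac56 sh ρ⁻¹ x)
    rwa [Ideal.mem_comap, Ideal.mem_comap, show ac56 sh ρ (ac56 sh ρ⁻¹ x) = x from
      Subtype.ext (ρ.1.apply_symm_apply x)] at this
  refine ⟨_, ⟨g, fun x => ⟨fun a => ⟨st _ g x a.1, fun b => a.2 ((u ⟨x, a.1⟩).1 b)⟩, fun a => ?_⟩⟩,
    fun x => (congrArg τ ((fx _).2 ⟨x, rfl⟩ _ (H.inv_mem ρ.2))).trans (e x)⟩
  have hx : x ∈ A' := by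
    have := st _ (G'.inv_mem g) _ a.1
    rwa [show (τ * ρ.1⁻¹)⁻¹ ((τ * ρ.1⁻¹) x) = x from AlgEquiv.symm_apply_apply _ x] at this
  exact ⟨hx, fun b => a.2 ((u ⟨x, hx⟩).2 b)⟩

/-- **the point upstairs** -/
theorem pt56 {A : Subalgebra ℂ L} {m : Ideal A} (hm : m.IsMaximal) {G : Subgroup (L ≃ₐ[ℂ] L)}
    (stm : ∀ σ ∈ G, ∀ x, Nz A m x → Nz A m (σ x)) {γ : L} (hγ : Nz A m γ) (fγ : Fix G γ)
    {H G' : Subgroup (F ≃ₐ[ℂ] F)} [Finite H] (hl : H ≤ G')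
    (fx : ∀ y, Fix H y ↔ y ∈ range (algebraMap L F))
    (rs : ∀ σ ∈ G, ∃ τ ∈ G', ∀ x, τ (algebraMap L F x) = algebraMap L F (σ x))
    {A' : Subalgebra ℂ F} (st : Stab G' A') (le : ∀ x ∈ A, algebraMap L F x ∈ A')
    (dn : ∀ x, algebraMap L F x ∈ A' → ∃ ν : ℕ, γ ^ ν * x ∈ A) :
    ∃ (m' : Ideal A') (G'' : Subgroup (F ≃ₐ[ℂ] F)), m'.IsMaximal ∧
      (∀ x ∈ A, algebraMap L F x ∈ A' ∧ (Nz A m x ↔ Nz A' m' (algebraMap L F x))) ∧ G'' ≤ G' ∧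
      (∀ τ ∈ G'', ∀ x, Nz A' m' x → Nz A' m' (τ x)) ∧
      ∀ σ ∈ G, ∃ τ ∈ G'', ∀ x, τ (algebraMap L F x) = algebraMap L F (σ x) := by
  obtain ⟨m', h1, h2⟩ := ly56 hm hγ fx (fun ρ a => st ρ (hl a)) le dn
  refine ⟨m', dc56 G' A' m', h1, fun x a => ⟨le x a, h2 x a⟩, fun _ a => a.1,
    fun _ a x => (a.2 x).1, fun σ s => ?_⟩
  obtain ⟨τ, t, e⟩ := rs σ s
  exact su56 hγ hl fx st h1 dn h2 (fγ σ s) (stm σ s) t e

/-- **the roots with the value one** -/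
theorem root56 {A : Subalgebra ℂ L} {m : Ideal A} {γ c : L} (hγ : Nz A m γ)
    {A' : Subalgebra ℂ F} {m' : Ideal A'} (hm : m'.IsMaximal)
    (nz : ∀ x ∈ A, Nz A m x ↔ Nz A' m' (algebraMap L F x)) {n : ℕ} (n0 : 0 < n) {β : F}
    (b : β ∈ A') (e : β ^ n = algebraMap L F c)
    (h : ∃ ν : ℕ, γ ^ ν * (c - 1) ∈ A ∧ ¬ Nz A m (γ ^ ν * (c - 1))) :
    ∃ ζ : ℂ, ζ ^ n = 1 ∧ ζ • (⟨β, b⟩ : A') - 1 ∈ m' ∧
      ((ζ • (⟨β, b⟩ : A') : A') : F) ^ n = algebraMap L F c := by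
  obtain ⟨ν, h1, h2⟩ := h
  have k := (cn56 hγ hm.isPrime nz (b := ⟨β, b⟩ ^ n - 1) (by
    rw [map_sub, map_one, ← e]
    rfl) h1).2 h2
  let _ := Ideal.Quotient.field m'
  obtain ⟨ζ, z⟩ := K93.con n0 (u := (Ideal.Quotient.mk m' ⟨β, b⟩)⁻¹) (by
    rw [inv_pow, ← map_pow, Ideal.Quotient.eq.2 k, map_one, inv_one])
  have p : Ideal.Quotient.mk m' ⟨β, b⟩ ^ n = 1 := by
    rw [← map_pow, Ideal.Quotient.eq.2 k, map_one]
  have z1 : ζ ^ n = 1 := (algebraMap ℂ (A' ⧸ m')).injective (by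
    rw [map_pow, z, inv_pow, p, inv_one, map_one])
  refine ⟨ζ, z1, Ideal.Quotient.eq.1 ?_, ?_⟩
  · rw [Algebra.smul_def, map_mul, Ideal.Quotient.mk_algebraMap, z, map_one]
    exact inv_mul_cancel₀ fun y => by simp [y, n0.ne'] at p
  · change (ζ • β) ^ n = _
    rw [smul_pow, z1, one_smul, e]

/-- the group over `L` -/
theorem hh56 {K : Type} [Field K] [Algebra ℂ K] [Algebra K L] [Algebra K F] [IsScalarTower ℂ K F]
    [IsScalarTower ℂ L F] [IsScalarTower K L F] {G' : Subgroup (F ≃ₐ[ℂ] F)} [Finite G']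
    (fx : ∀ φ, Fix G' φ ↔ φ ∈ range (algebraMap K F)) :
    ∃ H ≤ G', Finite H ∧ ∀ y, Fix H y ↔ y ∈ range (algebraMap L F) := by
  have g1 := K93.gg fx
  have g2 := IsGaloisGroup.isGalois G' K F
  have g3 := IsGaloisGroup.finiteDimensional G' K F
  have g4 := IsGalois.tower_top_of_isGalois K L F
  have g5 := Module.Finite.right K L F
  refine ⟨(Cf.Gal.rs L F).range, ?_, .of_surjective _ (Cf.Gal.rs L F).rangeRestrict_surjective,
    fun z => ?_⟩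
  · rintro _ ⟨σ, rfl⟩
    obtain ⟨τ, e⟩ := (IsGaloisGroup.mulEquivAlgEquiv G' K F).surjective (σ.restrictScalars K)
    exact (AlgEquiv.ext fun x => DFunLike.congr_fun e x : τ.1 = Cf.Gal.rs L F σ) ▸ τ.2
  · rw [IsGalois.mem_range_algebraMap_iff_fixed]
    exact ⟨fun a σ => a _ ⟨σ, rfl⟩, fun a _ ⟨σ, e⟩ => e ▸ a σ⟩

end Vale.Agent.P283R.Uq.P56
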