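import Vale.Agent.P283R.Uq.St

/-!
# P283R, block UQ: the point of the extension by roots
-/

open Set

noncomputable section

namespace Vale.Agent.P283R.Uq

open Vale.Agent.P287D Vale.Agent.P283M Vale.Agent.P283R.Cx
open Vale.Agent.P283R.Lx (Nz)

namespace P87

variable {L F : Type} [Field L] [Algebra ℂ L] [Field F] [Algebra ℂ F] [Algebra L F]
  [IsScalarTower ℂ L F] {G : Subgroup (L ≃ₐ[ℂ] L)} {G' : Subgroup (F ≃ₐ[ℂ] F)}
  {A : Subalgebra ℂ L} {m : Ideal A} {A' : Subalgebra ℂ F} {m' : Ideal A'} {γ : L}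

/-- the inclusion -/
def inc (le : ∀ x ∈ A, algebraMap L F x ∈ A') : A →ₐ[ℂ] A' :=
  ((IsScalarTower.toAlgHom ℂ L F).comp A.val).codRestrict A' fun x => le x x.2

/-- the action -/
def ac (st : Stab G' A') (τ : G') : A' →ₐ[ℂ] A' :=
  ((τ.1 : F →ₐ[ℂ] F).comp A'.val).codRestrict A' fun x => st τ τ.2 x x.2

omit [Algebra L F] [IsScalarTower ℂ L F] in
theorem stab (hm : m.IsMaximal) (stm : ∀ σ ∈ G, ∀ x, Nz A m x → Nz A m (σ x)) : Stab G A :=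
  fun σ s x h => by
    by_cases c : (⟨x, h⟩ : A) ∈ m
    · have := (stm σ s (x + 1) ⟨add_mem h (one_mem _), fun z => hm.ne_top
        ((Ideal.eq_top_iff_one _).2 (by
          convert sub_mem z c using 1
          exact Subtype.ext (add_sub_cancel_left x 1).symm))⟩).1
      rw [map_add, map_one] at this
      simpa using sub_mem this (one_mem A)
    · exact (stm σ s x ⟨h, c⟩).1

theorem pt [Finite G'] (r : G' →* G) (onto : Function.Surjective r)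
    (hr : ∀ (τ : G') (x : L), τ.1 (algebraMap L F x) = algebraMap L F ((r τ).1 x))
    (hm : m.IsMaximal) (stm : ∀ σ ∈ G, ∀ x, Nz A m x → Nz A m (σ x)) (nz : Nz A m γ)
    (st : Stab G' A') (le : ∀ x ∈ A, algebraMap L F x ∈ A')
    (inv : ∀ φ ∈ A', (∀ τ : G', r τ = 1 → τ.1 φ = φ) →
      ∃ ν : ℕ, ∃ x ∈ A, algebraMap L F γ ^ ν * φ = algebraMap L F x) :
    ∃ (m' : Ideal A') (G'' : Subgroup (F ≃ₐ[ℂ] F)), m'.IsMaximal ∧ G'' ≤ G' ∧
      (∀ x ∈ A, Nz A m x ↔ Nz A' m' (algebraMap L F x)) ∧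
      (∀ τ ∈ G'', ∀ φ, Nz A' m' φ → Nz A' m' (τ φ)) ∧
      ∀ σ ∈ G, ∃ τ ∈ G'', ∀ x, τ (algebraMap L F x) = algebraMap L F (σ x) := by
  classical
  have := Fintype.ofFinite r.ker
  obtain ⟨γA, γm⟩ := nz
  set g : A := ⟨γ, γA⟩
  have pr := hm.isPrime
  have fx : ∀ (τ : r.ker) x, τ.1.1 (algebraMap L F x) = algebraMap L F x := fun τ x => by
    rw [hr, show r τ.1 = 1 from τ.2]
    rfl
  have ne : m.map (inc le) ≠ ⊤ := fun top => by
    have key : ∀ φ ∈ m.map (inc le), ∀ μ : A', ∃ ν : ℕ, ∃ x ∈ m,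
        algebraMap L F γ ^ ν * ∑ τ : r.ker, τ.1.1 (μ * φ) = algebraMap L F x := by
      intro φ h
      induction h using Submodule.span_induction with
      | mem _ h =>
        obtain ⟨x, hx, rfl⟩ := h
        intro μ
        obtain ⟨ν, y, hy, e⟩ := inv (∑ τ : r.ker, τ.1.1 μ)
          (sum_mem fun τ _ => st _ τ.1.2 _ μ.2) fun τ c => by
            rw [map_sum]
            exact Equiv.sum_comp (Equiv.mulLeft (⟨τ, c⟩ : r.ker)) fun τ : r.ker => τ.1.1 μ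
        refine ⟨ν, ⟨y, hy⟩ * x, m.mul_mem_left _ hx, ?_⟩
        change _ * ∑ τ : r.ker, τ.1.1 (μ * algebraMap L F x) = algebraMap L F (y * x)
        simp only [map_mul, fx]
        rw [← Finset.sum_mul, ← mul_assoc, e]
      | zero => exact fun μ => ⟨0, 0, zero_mem _, by simp⟩
      | add φ ψ _ _ a b =>
        intro μ
        obtain ⟨ν, x, hx, e⟩ := a μ
        obtain ⟨ν', x', hx', e'⟩ := b μ
        refine ⟨ν + ν', g ^ ν' * x + g ^ ν * x',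
          add_mem (m.mul_mem_left _ hx) (m.mul_mem_left _ hx'), ?_⟩
        change _ = algebraMap L F (γ ^ ν' * x + γ ^ ν * x')
        rw [map_add, map_mul, map_mul, map_pow, map_pow, ← e, ← e']
        simp only [Subalgebra.coe_add, mul_add, map_add, Finset.sum_add_distrib]
        ring
      | smul a φ _ b =>
        intro μ
        obtain ⟨ν, x, hx, e⟩ := b (μ * a)
        exact ⟨ν, x, hx, by simpa [mul_assoc] using e⟩
    obtain ⟨ν, x, hx, e⟩ := key 1 (top ▸ Submodule.mem_top) 1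
    have e' : g ^ ν * (Fintype.card r.ker : A) = x := Subtype.ext ((algebraMap L F).injective (by
      rw [← e]
      simp [g]))
    rcases pr.mem_or_mem (e' ▸ hx) with c | c
    · exact γm (pr.mem_of_pow_mem _ c)
    · refine hm.ne_top (m.eq_top_of_isUnit_mem c ?_)
      rw [← map_natCast (algebraMap ℂ A)]
      exact (IsUnit.mk0 _ (Nat.cast_ne_zero.2 Fintype.card_ne_zero)).map _
  obtain ⟨p, hp, mp⟩ := Ideal.exists_le_maximal _ ne
  have ov : ∀ x, inc le x ∈ p ↔ x ∈ m := fun x => by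
    rw [hm.eq_of_le (Ideal.comap_ne_top (inc le) hp.ne_top) (Ideal.map_le_iff_le_comap.1 mp)]
    rfl
  have tr : ∀ q : Ideal A', q.IsMaximal → (∀ x, inc le x ∈ q → x ∈ m) →
      ∃ τ : r.ker, ∀ φ, φ ∈ q ↔ ac st τ.1 φ ∈ p := fun q hq o => by
    obtain ⟨τ, -, c⟩ := (Ideal.subset_union_prime (s := Finset.univ)
      (f := fun τ : r.ker => p.comap (ac st τ.1)) 1 1
      (fun τ _ _ _ => Ideal.comap_isPrime _ _) (I := q)).1 fun μ h => by
        obtain ⟨ν, x, hx, e⟩ := inv (∏ τ : r.ker, τ.1.1 μ)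
          (prod_mem fun τ _ => st _ τ.1.2 _ μ.2) fun τ c => by
            rw [map_prod]
            exact Equiv.prod_comp (Equiv.mulLeft (⟨τ, c⟩ : r.ker)) fun τ : r.ker => τ.1.1 μ
        have e' : inc le g ^ ν * ∏ τ : r.ker, ac st τ.1 μ = inc le ⟨x, hx⟩ := Subtype.ext (by
          rw [Subalgebra.coe_mul, Subalgebra.coe_pow, SubmonoidClass.coe_finsetProd]
          exact e)
        have a1 : inc le ⟨x, hx⟩ ∈ p := (ov _).2 (o _ (e' ▸ q.mul_mem_left _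
          (Ideal.prod_mem q (Finset.mem_univ 1) h)))
        rcases hp.isPrime.mem_or_mem (e' ▸ a1) with c | c
        · exact (γm ((ov _).1 (hp.isPrime.mem_of_pow_mem _ c))).elim
        · obtain ⟨τ, -, c⟩ := Ideal.IsPrime.prod_mem_iff.1 c
          exact mem_iUnion₂.2 ⟨τ, Finset.mem_univ _, c⟩
    exact ⟨τ, fun φ => by rw [hq.eq_of_le (Ideal.comap_ne_top _ hp.ne_top) c]; rfl⟩
  have cn : ∀ (τ : G') φ, ac st τ (ac st τ⁻¹ φ) = φ := fun τ φ =>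
    Subtype.ext (τ.1.apply_symm_apply φ)
  let H : Subgroup G' :=
    { carrier := {τ | ∀ φ, φ ∈ p ↔ ac st τ φ ∈ p}
      one_mem' := fun _ => Iff.rfl
      mul_mem' := fun {a b} h h' φ => (h' φ).trans (h _)
      inv_mem' := fun {a} h φ => by rw [h (ac st a⁻¹ φ), cn] }
  refine ⟨p, H.map G'.subtype, hp, Subgroup.map_subtype_le _, fun x h =>
    ⟨fun ⟨_, c⟩ => ⟨le x h, fun z => c ((ov ⟨x, h⟩).1 z)⟩,
      fun ⟨_, c⟩ => ⟨h, fun z => c ((ov ⟨x, h⟩).2 z)⟩⟩, ?_, fun σ s => ?_⟩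
  · rintro _ ⟨τ, h, rfl⟩ φ ⟨a, c⟩
    exact ⟨st _ τ.2 _ a, fun z => c ((h ⟨φ, a⟩).2 z)⟩
  · obtain ⟨τ₁, e⟩ := onto ⟨σ, s⟩
    have sj : Function.Surjective (ac st τ₁⁻¹) := fun φ => ⟨ac st τ₁⁻¹⁻¹ φ, cn _ _⟩
    obtain ⟨τ₀, c⟩ := tr (p.comap (ac st τ₁⁻¹)) (Ideal.comap_isMaximal_of_surjective _ sj)
      fun x h => by_contra fun n => by
        obtain ⟨a, b⟩ := stm _ (r τ₁⁻¹).2 x ⟨x.2, n⟩
        refine b ((ov _).1 ?_)
        convert (show ac st τ₁⁻¹ (inc le x) ∈ p from h) using 1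
        exact Subtype.ext (hr _ _).symm
    refine ⟨_, ⟨τ₀.1 * τ₁, fun φ => ?_, rfl⟩, fun x => ?_⟩
    · have := c (ac st τ₁ φ)
      rw [Ideal.mem_comap, show ac st τ₁⁻¹ (ac st τ₁ φ) = φ from cn τ₁⁻¹ φ] at this
      exact this
    · change τ₀.1.1 (τ₁.1 _) = _
      rw [hr, fx, e]

omit [IsScalarTower ℂ L F] in
/-- a root of an element of value one -/
theorem one (hm : m'.IsMaximal) (nz : Nz A m γ)
    (h : ∀ x ∈ A, algebraMap L F x ∈ A' ∧ (Nz A m x ↔ Nz A' m' (algebraMap L F x))) {n ν : ℕ}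
    {β : A'} {c : L} (e : (β : F) ^ n = algebraMap L F c) (a : γ ^ ν * (c - 1) ∈ A)
    (b : ¬ Nz A m (γ ^ ν * (c - 1))) : β ^ n - 1 ∈ m' := by
  obtain ⟨g, g'⟩ := (h γ nz.1).2.1 nz
  have k : (⟨_, g⟩ : A') ^ ν * (β ^ n - 1) ∈ m' := by
    convert (Lx.O15.not_nz (h _ a).1).1 fun z => b ((h _ a).2.2 z) using 1
    exact Subtype.ext (by simp [e])
  exact (hm.isPrime.mem_or_mem k).resolve_left fun z => g' (hm.isPrime.mem_of_pow_mem _ z)

omit [Algebra L F] [IsScalarTower ℂ L F] in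
theorem rt (hm : m'.IsMaximal) {n : ℕ} (n0 : 0 < n) {β : A'} (h : β ^ n - 1 ∈ m') :
    ∃ ζ : ℂ, ζ ^ n = 1 ∧ ζ • β - 1 ∈ m' := by
  let := Ideal.Quotient.field m'
  have e : Ideal.Quotient.mk m' β ^ n = 1 := by
    rw [← map_pow]
    exact Ideal.Quotient.eq.2 h
  obtain ⟨y, hy⟩ := minpoly.mem_range_of_degree_eq_one ℂ (Ideal.Quotient.mk m' β)
    (IsAlgClosed.degree_eq_one_of_irreducible ℂ (minpoly.irreducible
      (IsIntegral.of_pow n0 (e ▸ isIntegral_one))))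
  have y1 : y ^ n = 1 := (algebraMap ℂ (A' ⧸ m')).injective (by rw [map_pow, hy, e, map_one])
  have y0 : y ≠ 0 := fun z => zero_ne_one (by rw [← y1, z, zero_pow n0.ne'])
  refine ⟨y⁻¹, by rw [inv_pow, y1, inv_one], Ideal.Quotient.eq.1 ?_⟩
  rw [Algebra.smul_def, map_mul, ← hy, map_one]
  change algebraMap ℂ (A' ⧸ m') y⁻¹ * _ = _
  rw [← map_mul, inv_mul_cancel₀ y0, map_one]

omit [IsScalarTower ℂ L F] in
theorem root (hm : m'.IsMaximal) (nz : Nz A m γ)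
    (h : ∀ x ∈ A, algebraMap L F x ∈ A' ∧ (Nz A m x ↔ Nz A' m' (algebraMap L F x))) {n ν : ℕ}
    (n0 : 0 < n) {β : A'} {c : L} (e : (β : F) ^ n = algebraMap L F c) (a : γ ^ ν * (c - 1) ∈ A)
    (b : ¬ Nz A m (γ ^ ν * (c - 1))) : ∃ ζ : ℂ, ζ ^ n = 1 ∧ ζ • β - 1 ∈ m' :=
  rt hm n0 (one hm nz h e a b)

section den

variable {R : Type} [CommRing R] [Algebra ℂ R] (B : Subalgebra ℂ R) (I : Ideal R)

/-- the elements which are congruent to an element of `B` -/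
def Cg : Subalgebra ℂ R := (B.map (Ideal.Quotient.mkₐ ℂ I)).comap (Ideal.Quotient.mkₐ ℂ I)

variable {B I}

theorem cg_iff {x : R} : x ∈ Cg B I ↔ ∃ b ∈ B, x - b ∈ I :=
  ⟨fun ⟨b, h, e⟩ => ⟨b, h, Ideal.Quotient.eq.1 e.symm⟩,
    fun ⟨b, h, e⟩ => ⟨b, h, (Ideal.Quotient.eq.2 e).symm⟩⟩

theorem cg_inv {g δ : R} {y : ℂ} (e : δ * g = 1) (hg : g ∈ B) (y0 : y ≠ 0)
    (h : g - algebraMap ℂ R y ∈ I) (k : ℕ) : δ ∈ Cg B (I ^ k) := by
  let u := algebraMap ℂ R y⁻¹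
  have w : u * algebraMap ℂ R y = 1 := by rw [← map_mul, inv_mul_cancel₀ y0, map_one]
  refine cg_iff.2 ⟨u * ∑ i ∈ Finset.range k, (1 - u * g) ^ i, mul_mem (B.algebraMap_mem _)
    (sum_mem fun i _ => pow_mem (sub_mem (one_mem _) (mul_mem (B.algebraMap_mem _) hg)) _), ?_⟩
  have a := geom_sum_mul_neg (1 - u * g) k
  have : δ - u * ∑ i ∈ Finset.range k, (1 - u * g) ^ i = δ * (1 - u * g) ^ k := by
    linear_combination (-δ) * a + (u * ∑ i ∈ Finset.range k, (1 - u * g) ^ i) * e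
  rw [this]
  refine Ideal.mul_mem_left _ _ (Ideal.pow_mem_pow ?_ k)
  rw [show 1 - u * g = -u * (g - algebraMap ℂ R y) by linear_combination -w]
  exact I.mul_mem_left _ h

theorem cg_root {β : R} {n : ℕ} (n0 : 0 < n) (h : β - 1 ∈ I) (hc : ∀ k, β ^ n ∈ Cg B (I ^ k)) :
    ∀ k, β ∈ Cg B (I ^ (k + 1))
  | 0 => cg_iff.2 ⟨1, one_mem _, by rwa [zero_add, pow_one]⟩
  | k + 1 => by
    obtain ⟨x, hx, a⟩ := cg_iff.1 (cg_root n0 h hc k)
    obtain ⟨c, b, e⟩ := cg_iff.1 (hc (k + 2))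
    let u := algebraMap ℂ R (n : ℂ)⁻¹
    have w : u * n = 1 := by
      rw [← map_natCast (algebraMap ℂ R), ← map_mul, inv_mul_cancel₀ (Nat.cast_ne_zero.2 n0.ne'),
        map_one]
    have x1 : Ideal.Quotient.mk I x = 1 := by
      have := Ideal.Quotient.eq.2 (Ideal.pow_le_self k.succ_ne_zero a)
      rw [← this]
      exact Ideal.Quotient.eq.2 h
    have b1 : Ideal.Quotient.mk I β = 1 := Ideal.Quotient.eq.2 h
    have s : 1 - u * ∑ i ∈ Finset.range n, β ^ i * x ^ (n - 1 - i) ∈ I := by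
      rw [← w, ← mul_sub]
      refine I.mul_mem_left _ (Ideal.Quotient.eq.1 ?_)
      simp [x1, b1]
    refine cg_iff.2 ⟨x + u * (c - x ^ n), add_mem hx (mul_mem (B.algebraMap_mem _)
      (sub_mem b (pow_mem hx _))), ?_⟩
    have : β - (x + u * (c - x ^ n)) = (β - x) *
        (1 - u * ∑ i ∈ Finset.range n, β ^ i * x ^ (n - 1 - i)) + u * (β ^ n - c) := by
      linear_combination u * geom_sum₂_mul β x n
    rw [this]
    exact add_mem (pow_succ I (k + 1) ▸ Ideal.mul_mem_mul a s) (Ideal.mul_mem_left _ _ e)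

end den

theorem den (fg : A.FG) (hm₀ : m.IsMaximal) (hm : m'.IsMaximal) (nz : Nz A m γ)
    (h : ∀ x ∈ A, algebraMap L F x ∈ A' ∧ (Nz A m x ↔ Nz A' m' (algebraMap L F x)))
    (gi : (algebraMap L F γ)⁻¹ ∈ A') {n : ℕ} (n0 : 0 < n)
    (gen : A' ≤ Algebra.adjoin ℂ {φ | φ ∈ A' ∧
      ((∃ ν : ℕ, ∃ x ∈ A, algebraMap L F γ ^ ν * φ = algebraMap L F x) ∨ ∃ (c : L) (ν : ℕ),
        φ ^ n = algebraMap L F c ∧ γ ^ ν * (c - 1) ∈ A ∧ ¬ Nz A m (γ ^ ν * (c - 1)))})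
    (k : ℕ) (μ : A') : ∃ x ∈ A, ∃ ν ∈ m' ^ k, (μ : F) = algebraMap L F x + ν := by
  let j := inc fun x a => (h x a).1
  have ft := A.fg_iff_finiteType.1 fg
  have γ0 : γ ≠ 0 := by
    rintro rfl
    exact nz.2 (zero_mem m)
  have g0 : algebraMap L F γ ≠ 0 := (map_ne_zero _).2 γ0
  obtain ⟨y, hy⟩ := Lx.O15.val m ⟨γ, nz.1⟩
  have y0 : y ≠ 0 := fun z => nz.2 (by simpa [z] using hy)
  have jm : ∀ x ∈ m, j x ∈ m' := fun x a =>
    (Lx.O15.not_nz (h x x.2).1).1 fun z => ((h x x.2).2.2 z).2 a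
  have dl : ∀ k, (⟨_, gi⟩ : A') ∈ Cg j.range (m' ^ k) := cg_inv (g := j ⟨γ, nz.1⟩)
    (Subtype.ext (inv_mul_cancel₀ g0)) ⟨_, rfl⟩ y0 (by simpa using jm _ hy)
  have loc : ∀ (φ : A') (ν : ℕ), ∀ x ∈ A, algebraMap L F γ ^ ν * φ = algebraMap L F x →
      ∀ k, φ ∈ Cg j.range (m' ^ k) := fun φ ν x a e k => by
    have : φ = (⟨_, gi⟩ : A') ^ ν * j ⟨x, a⟩ := Subtype.ext (by
      change _ = (algebraMap L F γ)⁻¹ ^ ν * algebraMap L F x
      rw [← e, inv_pow, inv_mul_cancel_left₀ (pow_ne_zero _ g0)])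
    rw [this]
    exact mul_mem (pow_mem (dl k) _) (cg_iff.2 ⟨j ⟨x, a⟩, ⟨_, rfl⟩, by simp⟩)
  have top : (μ : F) ∈ (Cg j.range (m' ^ (k + 1))).map A'.val := Algebra.adjoin_le (by
    rintro φ ⟨a, ⟨ν, x, b, e⟩ | ⟨c, ν, e, b, b'⟩⟩
    · exact ⟨⟨φ, a⟩, loc _ ν x b e _, rfl⟩
    · obtain ⟨ζ, z1, z2⟩ := root hm nz h n0 (β := ⟨φ, a⟩) e b b'
      have z0 : ζ ≠ 0 := fun z => zero_ne_one (by rw [← z1, z, zero_pow n0.ne'])
      have := cg_root n0 z2 (fun k => by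
        rw [smul_pow, z1, one_smul, ← sub_add_cancel ((⟨φ, a⟩ : A') ^ n) 1]
        exact add_mem (loc _ ν _ b (by simp [e]) k) (one_mem _)) k
      exact ⟨⟨φ, a⟩, by simpa [z0] using Subalgebra.smul_mem _ this ζ⁻¹, rfl⟩) (gen μ.2)
  obtain ⟨μ', a, e⟩ := top
  obtain rfl : μ' = μ := Subtype.ext e
  obtain ⟨_, ⟨x, rfl⟩, b⟩ := cg_iff.1 a
  exact ⟨x, x.2, _, Ideal.pow_le_pow_right k.le_succ b, (add_sub_cancel _ _).symm⟩

end P87

end Vale.Agent.P283R.Uq
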