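import Vale.Agent.P283R.Sl.Uq2
import Vale.Agent.P270L.S3Atl

/-!
# P283R, block UQ: the trivial quotient
-/

open CategoryTheory AlgebraicGeometry

namespace Vale.Agent.P283R.Sl

open Var

variable {X Z : Var} {d : ℕ} {f : X.X ⟶ Z.X} {ω : X.Form d} {z : Pt Z.X}

theorem FreeQuotient.refl (X : Var) : FreeQuotient (𝟙 X.X) := by
  have k : ∀ (y : Pt X.X) (a : St X.X (y.map (𝟙 X.X))), toRat (comap (𝟙 X.X) y a) = toRat a :=
    fun y a => congrArg toRat (congrArg (fun φ => φ.hom a) (Scheme.Hom.stalkMap_id X.X y))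
  refine ⟨inferInstance, inferInstance, Category.id_comp _, ⟨⊥, inferInstance, Set.ext fun g =>
    iff_of_true ?_ ?_⟩, fun E => ⟨E, rfl, fun a => by rw [k]⟩⟩
  · obtain ⟨a, rfl⟩ : RegAt g ((generic X.X).map (𝟙 X.X)) := P270L.S.mem_loc_gen g
    exact ⟨_, a, (k _ a).symm⟩
  · exact (IntermediateField.mem_fixedField_iff _ g).2 fun σ h => by
      rw [Subgroup.mem_bot.1 h, AlgEquiv.one_apply]

/-- the members of the class are quotients by the trivial group -/
theorem QuotOf.refl {C : ∀ Y W : Var, (Y.X ⟶ W.X) → Y.Form d → Pt W.X → Prop}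
    (hf : Contraction f) (h0 : ω.Nonzero) (h : C X Z f ω z) : QuotOf C f z :=
  ⟨X, Z, 𝟙 _, f, 𝟙 _, ω, z, .refl X, inferInstance, by simp, fun _ => Iff.rfl, h0, hf, h⟩

end Vale.Agent.P283R.Sl
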