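import Vale.Agent.P283R.Tq.All

/-!
# P283R, block UQ: finite quotients without constant units, the statements of the core
-/

open Set

noncomputable section

namespace Vale.Agent.P283R.Uq

open Vale.Agent.P287D Vale.Agent.P283M Vale.Agent.P283R.Cx
open Vale.Agent.P283R.Lx (Nz Ie)
open Vale.Agent.P283R.Lx.K33 (I2)
open Vale.Agent.P283R.Tq (Cj Rel Gp Qt cv Ed Ic Dm Out MINK TAU TRN)

section defs

variable {L : Type} [Field L] [Algebra ℂ L] {d k N n c r : ℕ}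

/-- the actions on the degrees -/
abbrev Ac (L : Type) [Field L] [Algebra ℂ L] (k : ℕ) : Type :=
  (L ≃ₐ[ℂ] L) → (Fin k → ℤ) →+ (Fin k → ℤ)

/-- `σ` maps the sections of degree `e` to the sections of degree `π σ e` -/
structure Pm (T : Set (Pl L)) (D : Pl L → Fin k → ℤ) (G : Subgroup (L ≃ₐ[ℂ] L)) (π : Ac L k) :
    Prop where
  rel : ∀ σ ∈ G, ∀ e, Rel T D σ e (π σ e) 1
  one : ∀ e, π 1 e = e
  cmp : ∀ σ ∈ G, ∀ τ ∈ G, ∀ e, π (σ * τ) e = π σ (π τ e)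

/-- the distinguished units -/
structure Un (T : Set (Pl L)) (D : Pl L → Fin k → ℤ) (G : Subgroup (L ≃ₐ[ℂ] L)) (π : Ac L k)
    (U : (Fin k → ℤ) → L → Prop) : Prop where
  pr : ∀ e θ, U e θ → Tq.Pr T D e θ
  mul : ∀ e θ e' θ', U e θ → U e' θ' → U (e + e') (θ * θ')
  inv : ∀ e θ, U e θ → U (-e) θ⁻¹
  cst : ∀ θ, U 0 θ ↔ ∃ x : ℂ, x ≠ 0 ∧ θ = algebraMap ℂ L x
  act : ∀ σ ∈ G, ∀ e θ, U e θ → U (π σ e) (σ θ)

/-- `z` is an eigenvector of degree `e` -/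
def Eg (U : (Fin k → ℤ) → L → Prop) (π : Ac L k) (G : Subgroup (L ≃ₐ[ℂ] L)) (e : Fin k → ℤ)
    (z : L) : Prop :=
  z ≠ 0 ∧ ∀ σ ∈ G, ∃ θ, U (e - π σ e) θ ∧ σ z * θ = z

/-- the functions `z j`, `j ∈ J`, generate the ideal of the orbit modulo its square -/
def Spn (U : (Fin k → ℤ) → L → Prop) (s : Fin N → L) (a : Fin N → Fin k → ℤ)
    (A : Subalgebra ℂ L) (m : Ideal A) (J : Finset (Fin N)) (z : Fin N → L) : Prop :=
  ∀ e, ∀ φ ∈ Ie A m s a e, ∃ (I : Finset (Fin N)) (θ : Fin N → L) (γ : Fin N → ℂ), I ⊆ J ∧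
    (∀ j ∈ I, U (e - a j) (θ j)) ∧ φ - ∑ j ∈ I, γ j • (z j * θ j) ∈ I2 A m s a e

/-- the span of the monomials in `τ`, `z` and the units -/
def Mo (U : (Fin k → ℤ) → L → Prop) (τ : Fin c → L) (z : Fin r → L)
    (w : Fin r → Fin k → ℤ) (e : Fin k → ℤ) : Submodule ℂ L :=
  Submodule.span ℂ {x | ∃ (α : Fin c → ℕ) (β : Fin r → ℕ) (θ : L),
    U (e - cv w fun j => β j) θ ∧ x = (∏ i, τ i ^ α i) * (∏ j, z j ^ β j) * θ}

/-- data with distinguished units, any number of generators -/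
structure Bu (d : ℕ) (T : Set (Pl L)) (D : Pl L → Fin k → ℤ) (s : Fin N → L)
    (a : Fin N → Fin k → ℤ) (A : Subalgebra ℂ L) (m : Ideal A) (G : Subgroup (L ≃ₐ[ℂ] L))
    (π : Ac L k) (U : (Fin k → ℤ) → L → Prop) : Prop where
  ff : FF L d
  cox : Cox T D s a
  zero : ∀ x, x ∈ A ↔ x ∈ Sp s a 0
  fg : A.FG
  max : m.IsMaximal
  gp : Gp T A m G
  pm : Pm T D G π
  un : Un T D G π U
  orb : ∀ e, ∀ φ ∈ Sp s a e, φ ∈ Ie A m s a e ∨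
    ∃ θ, ∃ γ : ℂ, U e θ ∧ φ - γ • θ ∈ Ie A m s a e

/-- pointed data: few generators, those in `J` are a minimal system for the ideal of the orbit -/
structure Pu (d l : ℕ) (T : Set (Pl L)) (D : Pl L → Fin k → ℤ) (s : Fin N → L)
    (a : Fin N → Fin k → ℤ) (A : Subalgebra ℂ L) (m : Ideal A) (J : Finset (Fin N))
    (G : Subgroup (L ≃ₐ[ℂ] L)) (π : Ac L k) (U : (Fin k → ℤ) → L → Prop) : Prop
    extends Bu d T D s a A m G π U where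
  le : N ≤ k + l
  out : ∀ j ∉ J, ∃ θ, U (a j) θ
  ie : ∀ j ∈ J, s j ∈ Ie A m s a (a j)
  spn : Spn U s a A m J s
  min : ∀ (e : Fin k → ℤ) (I : Finset (Fin N)) (θ : Fin N → L) (γ : Fin N → ℂ), I ⊆ J →
    (∀ j ∈ I, U (e - a j) (θ j)) → ∑ j ∈ I, γ j • (s j * θ j) ∈ I2 A m s a e →
    ∀ j ∈ I, γ j = 0
  sep : ∀ i ∈ J, ∀ j ∈ J, i ≠ j → ∃ v : Fin N → ℤ, ∑ x, v x • a x = 0 ∧ v i ≠ v j

theorem Bu.mono {T : Set (Pl L)} {D : Pl L → Fin k → ℤ} {s : Fin N → L}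
    {a : Fin N → Fin k → ℤ} {A : Subalgebra ℂ L} {m : Ideal A} {G H : Subgroup (L ≃ₐ[ℂ] L)}
    {π : Ac L k} {U : (Fin k → ℤ) → L → Prop} (h : Bu d T D s a A m G π U) (le : H ≤ G) :
    Bu d T D s a A m H π U :=
  ⟨h.ff, h.cox, h.zero, h.fg, h.max, h.gp.mono le,
    ⟨fun σ x => h.pm.rel σ (le x), h.pm.one, fun σ x τ y => h.pm.cmp σ (le x) τ (le y)⟩,
    ⟨h.un.pr, h.un.mul, h.un.inv, h.un.cst, fun σ x => h.un.act σ (le x)⟩, h.orb⟩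

theorem Pu.mono {l : ℕ} {T : Set (Pl L)} {D : Pl L → Fin k → ℤ} {s : Fin N → L}
    {a : Fin N → Fin k → ℤ} {A : Subalgebra ℂ L} {m : Ideal A} {J : Finset (Fin N)}
    {G H : Subgroup (L ≃ₐ[ℂ] L)} {π : Ac L k} {U : (Fin k → ℤ) → L → Prop}
    (h : Pu d l T D s a A m J G π U) (le : H ≤ G) : Pu d l T D s a A m J H π U :=
  ⟨h.toBu.mono le, h.le, h.out, h.ie, h.spn, h.min, h.sep⟩

end defs

/-- a property of data with distinguished units -/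
def ForB (d : ℕ) (q : ∀ (L : Type) [Field L] [Algebra ℂ L] (k N : ℕ) (_ : Set (Pl L))
    (_ : Pl L → Fin k → ℤ) (_ : Fin N → L) (_ : Fin N → Fin k → ℤ) (A : Subalgebra ℂ L)
    (_ : Ideal A) (_ : Subgroup (L ≃ₐ[ℂ] L)) (_ : Ac L k) (_ : (Fin k → ℤ) → L → Prop), Prop) :
    Prop :=
  ∀ (L : Type) [Field L] [Algebra ℂ L] (k N : ℕ) (T : Set (Pl L)) (D : Pl L → Fin k → ℤ)
    (s : Fin N → L) (a : Fin N → Fin k → ℤ) (A : Subalgebra ℂ L) (m : Ideal A)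
    (G : Subgroup (L ≃ₐ[ℂ] L)) (π : Ac L k) (U : (Fin k → ℤ) → L → Prop),
    Bu d T D s a A m G π U → q L k N T D s a A m G π U

/-- a property of pointed data -/
def ForU (d l : ℕ) (q : ∀ (L : Type) [Field L] [Algebra ℂ L] (k N : ℕ) (_ : Set (Pl L))
    (_ : Pl L → Fin k → ℤ) (_ : Fin N → L) (_ : Fin N → Fin k → ℤ) (A : Subalgebra ℂ L)
    (_ : Ideal A) (_ : Finset (Fin N)) (_ : Subgroup (L ≃ₐ[ℂ] L)) (_ : Ac L k)
    (_ : (Fin k → ℤ) → L → Prop), Prop) : Prop :=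
  ∀ (L : Type) [Field L] [Algebra ℂ L] (k N : ℕ) (T : Set (Pl L)) (D : Pl L → Fin k → ℤ)
    (s : Fin N → L) (a : Fin N → Fin k → ℤ) (A : Subalgebra ℂ L) (m : Ideal A)
    (J : Finset (Fin N)) (G : Subgroup (L ≃ₐ[ℂ] L)) (π : Ac L k)
    (U : (Fin k → ℤ) → L → Prop), Pu d l T D s a A m J G π U → q L k N T D s a A m J G π U

/-- **ACT**: the action on the sections -/
def ACT : Prop := ∀ d, ForB d fun _ _ _ _ _ _ _ s a A m G π U => ∀ σ ∈ G, ∀ e e' θ,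
  U (e' - π σ e) θ → ∀ φ, (φ ∈ Sp s a e ↔ σ φ * θ ∈ Sp s a e') ∧
    (φ ∈ Ie A m s a e ↔ σ φ * θ ∈ Ie A m s a e') ∧ (φ ∈ I2 A m s a e ↔ σ φ * θ ∈ I2 A m s a e')

/-- **LAM**: the degrees of the units; all degrees -/
def LAM : Prop := ∀ d l, ForU d l fun _ _ _ _ _ _ _ _ a _ _ J _ _ U =>
  (∀ e θ, U e θ → e ∈ Submodule.span ℤ (a '' {j | j ∉ J})) ∧ Submodule.span ℤ (range a) = ⊤

/-- **GAL**: a subgroup of bounded index fixes the classes -/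
def GAL : Prop := ∀ d l, ∃ J₀ : ℕ, ForU d l fun _ _ _ _ _ _ _ _ _ _ _ _ G π U =>
  ∃ H ≤ G, H.relIndex G ≤ J₀ ∧ ∀ σ ∈ H, ∀ e, ∃ θ, U (e - π σ e) θ

/-- **GALR** -/
def GALR : Prop := ACT → LAM → MINK → GAL

/-- **EIG**: generators which are eigenvectors -/
def EIG : Prop := ∀ d l, ∃ J₀ : ℕ, ForU d l fun L _ _ _ N _ _ s a A m J G π U =>
  (∀ σ ∈ G, ∀ e, ∃ θ, U (e - π σ e) θ) → ∃ H ≤ G, H.relIndex G ≤ J₀ ∧ ∃ z : Fin N → L,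
    (∀ j ∈ J, z j ∈ Ie A m s a (a j) ∧ Eg U π H (a j) (z j)) ∧ Spn U s a A m J z

/-- **EIGR** -/
def EIGR : Prop := ACT → LAM → EIG

/-- **NAK**: the monomials generate after a localisation -/
def NAK : Prop := ∀ d, ForB d fun L _ _ k _ _ _ s a A m _ _ U => ∀ (c r : ℕ) (τ : Fin c → A)
  (z : Fin r → L) (w : Fin r → Fin k → ℤ), (∀ i, z i ∈ Ie A m s a (w i)) →
    (∀ e, ∀ φ ∈ Ie A m s a e, ∃ (I : Finset (Fin r)) (θ : Fin r → L) (γ : Fin r → ℂ),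
      (∀ j ∈ I, U (e - w j) (θ j)) ∧ φ - ∑ j ∈ I, γ j • (z j * θ j) ∈ I2 A m s a e) →
    (∀ i, τ i ∈ m) → Module.Finite (Algebra.adjoin ℂ (range τ)) A →
    (∃ n : ℕ, m ^ n ≤ Ideal.span (range τ)) →
    ∃ γ ∈ Algebra.adjoin ℂ (range fun i => (τ i : L)), Nz A m γ ∧ ∀ e, ∀ φ ∈ Sp s a e,
      ∃ n : ℕ, γ ^ n * φ ∈ Mo U (fun i => (τ i : L)) z w e

/-- **RK**: the rank of the lattice of the principal combinations -/
def RK : Prop := ∀ d l, ForU d l fun _ _ _ k N _ _ _ a _ _ J _ _ U => ∀ (k₀ ρ : ℕ)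
  (w : Fin k₀ → Fin k → ℤ) (b : Fin J.card → Fin N) (v : Fin ρ → Fin (k₀ + J.card) → ℤ),
    (∀ j ∈ J, j ∈ range b) → LinearIndependent ℤ v →
    (∀ i, ∃ θ, U (cv (Fin.append w (a ∘ b)) (v i)) θ) → ρ ≤ k₀ + l

/-- **RKR** -/
def RKR : Prop := LAM → RK

/-- **ICX**: the generators of the invariant sections -/
def ICX : Prop := ∀ d, ForB d fun L _ _ k _ T D s a A _ H π U =>
  ∀ (c k₀ r ρ : ℕ) (τ : Fin c → L) (γ : L) (ζ : Fin k₀ → L) (w : Fin k₀ → Fin k → ℤ)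
    (z : Fin r → L) (w' : Fin r → Fin k → ℤ), (∀ i, τ i ∈ A ∧ Fix H (τ i)) →
    γ ∈ A → γ ≠ 0 → Fix H γ → (∀ i, Eg U π H (w i) (ζ i)) →
    (∀ j, z j ∈ Sp s a (w' j) ∧ Eg U π H (w' j) (z j)) →
    (∀ e, ∀ φ ∈ Sp s a e, ∃ n : ℕ, γ ^ n * φ ∈ Mo U τ z w' e) →
    (∀ (n : ℕ) (v : Fin n → Fin (k₀ + r) → ℤ), LinearIndependent ℤ v →
      (∀ i, ∃ θ, U (cv (Fin.append w w') (v i)) θ) → n ≤ ρ) →
    ∃ (N' : ℕ) (s' : Fin N' → L) (a' : Fin N' → Fin (k₀ + r) → ℤ), N' ≤ c + r + ρ + 2 ∧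
      Ic T (Ed D (Fin.append ζ z) (Fin.append w w')) H γ s' a'

/-- **DOM**: norms of sections -/
def DOM : Prop := ∀ d l, ForU d l fun L _ _ k _ T D _ a _ _ J H π U =>
  ∀ (n : ℕ) (ζ : Fin n → L) (w : Fin n → Fin k → ℤ), (∀ i, Eg U π H (w i) (ζ i)) →
    (∀ j ∈ J, a j ∈ range w) → Dm T (Ed D ζ w) H

/-- **DOMR** -/
def DOMR : Prop := LAM → DOM

/-- **INV**: eigenvectors have invariant divisors -/
def INV : Prop := ∀ d, ForB d fun _ _ _ _ _ T D _ _ _ _ G π U => ∀ e z, Eg U π G e z →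
  Tq.Inv T D G e z

/-- **STG**: the first stage -/
def STG : Prop := ∀ d l, ∃ J₀ : ℕ, ForU d l fun L _ _ k _ T D _ _ A m _ G π _ =>
  ∀ (K : Type) [Field K] [Algebra ℂ K] [Algebra K L] [IsScalarTower ℂ K L] (T₀ : Set (Pl K))
    (k₀ : ℕ) (Z : Pl K → Fin k₀ → ℤ) (w : Fin k₀ → Fin k → ℤ), Qt d T₀ T G →
    (∀ σ ∈ G, ∀ i, π σ (w i) = w i) →
    (∀ P ∈ T, ∀ Q, Lies (algebraMap K L) P Q → ∀ i, Z Q i = w i ⬝ᵥ D P) →
    ∃ γ : K, Nz A m (algebraMap K L γ) ∧ Out d (d + l + 3) J₀ T₀ {P ∈ T₀ | P.ord γ = 0} Z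

/-- **STGR** -/
def STGR : Prop := ACT → INV → GAL → EIG → TAU → NAK → RK → ICX → DOM → TRN → STG

/-- `n` elements generate the ideal of the orbit modulo its square, and `n` plus the rank of the
lattice of the units is at most `k + l` -/
def Fw {L : Type} [Field L] [Algebra ℂ L] {k N : ℕ} (l : ℕ) (U : (Fin k → ℤ) → L → Prop)
    (s : Fin N → L) (a : Fin N → Fin k → ℤ) (A : Subalgebra ℂ L) (m : Ideal A) : Prop :=
  ∃ (n r : ℕ) (z : Fin n → L) (w : Fin n → Fin k → ℤ) (v : Fin r → Fin k → ℤ), n + r ≤ k + l ∧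
    (∀ i, z i ∈ Ie A m s a (w i)) ∧ (∀ e, (∃ θ, U e θ) ↔ e ∈ Submodule.span ℤ (range v)) ∧
    ∀ e, ∀ φ ∈ Ie A m s a e, ∃ (I : Finset (Fin n)) (θ : Fin n → L) (γ : Fin n → ℂ),
      (∀ j ∈ I, U (e - w j) (θ j)) ∧ φ - ∑ j ∈ I, γ j • (z j * θ j) ∈ I2 A m s a e

/-- **PNT**: pointed data after an invariant localisation -/
def PNT : Prop := ∀ d l, ForB d fun L _ _ k _ T D s a A m G π U => Fw l U s a A m →
  ∃ (γ : L) (N' : ℕ) (s' : Fin N' → L) (a' : Fin N' → Fin k → ℤ) (A' : Subalgebra ℂ L)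
    (m' : Ideal A') (J : Finset (Fin N')), Nz A m γ ∧ Fix G γ ∧
    Pu d (l + d + 3) {P ∈ T | P.ord γ = 0} D s' a' A' m' J G π U ∧
    ∀ x, Nz A' m' x → ∃ n : ℕ, Nz A m (γ ^ n * x)

/-- **PNTR** -/
def PNTR : Prop := ACT → TAU → NAK → PNT

end Vale.Agent.P283R.Uq
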