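import Vale.Agent.P283R.Uq.St
import Vale.Agent.P283R.Sl.Uq
import Vale.Agent.P283R.Tq.Cmp48
import Vale.Agent.P283R.Lx.Lm3

/-!
# P283R, block UQ: the extension by roots of units and the front, the statements
-/

open Set CategoryTheory AlgebraicGeometry

noncomputable section

namespace Vale.Agent.P283R.Uq

open Vale.Agent.P287D Vale.Agent.P283M Vale.Agent.P283R.Cx
open Vale.Agent.P283R.Lx (Nz Ie Orb)
open Vale.Agent.P283R.Lx.K33 (I2)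
open Vale.Agent.P283R.Tq (Cj Rel Gp Qt cv Out TAU Pw)

section defs

variable {K L L' : Type} [Field K] [Algebra ℂ K] [Field L] [Algebra ℂ L] [Field L']
  [Algebra ℂ L'] {d k k₀ N N' r : ℕ}

/-- the embedding dimension at the closed orbit is at most `k + l` -/
def Eb (d l : ℕ) (s : Fin N → L) (a : Fin N → Fin k → ℤ) (A : Subalgebra ℂ L) (m : Ideal A) :
    Prop :=
  ∀ (F : Type) [Field F] [Algebra ℂ F] [Algebra L F] [IsScalarTower ℂ L F] (t : Fin k → F)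
    (p : Ideal (Rg s a t)) (r : ℕ) (v : Fin r → Fin k → ℤ) (w : Fin r → L), Ext L d t →
    Orb t s a A m p v w → Bx.Emd (k + l) (Rg s a t) p

/-- the data on the cover -/
structure Rw (d : ℕ) (T : Set (Pl L)) (D : Pl L → Fin k → ℤ) (s : Fin N → L)
    (a : Fin N → Fin k → ℤ) (A : Subalgebra ℂ L) (m : Ideal A) (G : Subgroup (L ≃ₐ[ℂ] L))
    (π : Ac L k) : Prop where
  ff : FF L d
  cox : Cox T D s a
  zero : ∀ x, x ∈ A ↔ x ∈ Sp s a 0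
  fg : A.FG
  max : m.IsMaximal
  gp : Gp T A m G
  pm : Pm T D G π

/-- the places where `γ` has no zero -/
abbrev Tz (T : Set (Pl L)) (γ : L) : Set (Pl L) := {P ∈ T | P.ord γ = 0}

/-- `c` is a unit over `γ ≠ 0` with the value one at the point -/
def On1 (T : Set (Pl L)) (D : Pl L → Fin k → ℤ) (A : Subalgebra ℂ L) (m : Ideal A) (γ c : L) :
    Prop :=
  Tq.Pr (Tz T γ) D 0 c ∧ ∃ ν : ℕ, γ ^ ν * (c - 1) ∈ A ∧ ¬ Nz A m (γ ^ ν * (c - 1))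

/-- the extension by roots of units; `G'` is the group over the field of the invariants of `G`,
`G''` is the decomposition group of the point `m'` -/
structure Ku [Algebra L L'] (d : ℕ) (T : Set (Pl L)) (D : Pl L → Fin k → ℤ) (s : Fin N → L)
    (a : Fin N → Fin k → ℤ) (A : Subalgebra ℂ L) (m : Ideal A) (G : Subgroup (L ≃ₐ[ℂ] L))
    (π : Ac L k) (γ : L) (T' : Set (Pl L')) (D' : Pl L' → Fin k → ℤ) (s' : Fin N' → L')
    (a' : Fin N' → Fin k → ℤ) (A' : Subalgebra ℂ L') (m' : Ideal A')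
    (G' G'' : Subgroup (L' ≃ₐ[ℂ] L')) (π' : Ac L' k) : Prop where
  rw : Rw d T' D' s' a' A' m' G'' π'
  fin : Finite G'
  le : G'' ≤ G'
  fix : ∀ φ, Fix G' φ ↔ ∃ x, Fix G x ∧ φ = algebraMap L L' x
  stab : Stab G' A'
  lies : ∀ Q, Q ∈ T' ↔ ∃ P ∈ Tz T γ, Lies (algebraMap L L') Q P
  unr : ∀ Q ∈ T', ∀ P, Lies (algebraMap L L') Q P → Q.ord (algebraMap L L' P.t) = 1 ∧ D' Q = D P
  res : ∀ σ' ∈ G'', ∃ σ ∈ G, (∀ x, σ' (algebraMap L L' x) = algebraMap L L' (σ x)) ∧ π' σ' = π σ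
  sur : ∀ σ ∈ G, ∃ σ' ∈ G'', ∀ x, σ' (algebraMap L L' x) = algebraMap L L' (σ x)
  nz : ∀ x ∈ A, algebraMap L L' x ∈ A' ∧ (Nz A m x ↔ Nz A' m' (algebraMap L L' x))
  gen : ∀ e, ∀ φ' ∈ Sp s' a' e,
    φ' ∈ Submodule.span ℂ {x | ∃ μ ∈ A', ∃ φ ∈ Sp s a e, x = μ * algebraMap L L' φ}
  den : ∀ (n : ℕ) (μ : A'), ∃ x ∈ A, ∃ ν ∈ m' ^ n, (μ : L') = algebraMap L L' x + ν

/-- the monomials in the functions `x i` of degree `v i`, up to constants -/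
def Um (v : Fin r → Fin k → ℤ) (x : Fin r → L) (e : Fin k → ℤ) (θ : L) : Prop :=
  ∃ (n : Fin r → ℤ) (y : ℂ), y ≠ 0 ∧ e = cv v n ∧ θ = y • ∏ i, x i ^ n i

/-- data with few generators on an extension of degree at most `J` of an extension which is etale
at the point; the sections of degree `e` come from the base -/
def Ot (d l J : ℕ) (T : Set (Pl K)) (Z : Pl K → Fin k₀ → ℤ) (e : Fin k₀ → ℤ) : Prop :=
  ∃ (K₁ : Type) (_ : Field K₁) (_ : Algebra ℂ K₁) (_ : Algebra K K₁) (_ : IsScalarTower ℂ K K₁)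
    (T₁ : Set (Pl K₁)) (Z₁ : Pl K₁ → Fin k₀ → ℤ), FF K₁ d ∧
    (∀ Q ∈ T₁, ∃ P ∈ T, Lies (algebraMap K K₁) Q P ∧ Q.ord (algebraMap K K₁ P.t) = 1 ∧
      Z₁ Q = Z P) ∧ Out d l J T₁ T₁ Z₁ ∧
    ∀ P : Pl K, (∀ x, (∀ R ∈ T, x ∈ R.ring) → x ∈ P.ring) → ∃ Q : Pl K₁,
      Lies (algebraMap K K₁) Q P ∧ (∀ x, (∀ R ∈ T₁, x ∈ R.ring) → x ∈ Q.ring) ∧
      ∀ ψ, ψ ≠ 0 → (∀ R ∈ T₁, 0 ≤ R.ord ψ + e ⬝ᵥ Z₁ R) → ∃ χ : K, χ ≠ 0 ∧
        (∀ R ∈ T, 0 ≤ R.ord χ + e ⬝ᵥ Z R) ∧ Q.ord (algebraMap K K₁ χ) ≤ Q.ord ψ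

end defs

/-- a property of the data on the cover -/
def ForR (q : ∀ (L : Type) [Field L] [Algebra ℂ L] (_ k N : ℕ) (_ : Set (Pl L))
    (_ : Pl L → Fin k → ℤ) (_ : Fin N → L) (_ : Fin N → Fin k → ℤ) (A : Subalgebra ℂ L)
    (_ : Ideal A) (_ : Subgroup (L ≃ₐ[ℂ] L)) (_ : Ac L k), Prop) : Prop :=
  ∀ (L : Type) [Field L] [Algebra ℂ L] (d k N : ℕ) (T : Set (Pl L)) (D : Pl L → Fin k → ℤ)
    (s : Fin N → L) (a : Fin N → Fin k → ℤ) (A : Subalgebra ℂ L) (m : Ideal A)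
    (G : Subgroup (L ≃ₐ[ℂ] L)) (π : Ac L k), Rw d T D s a A m G π → q L d k N T D s a A m G π

/-- **LCX**: the localisation of the sections -/
def LCX : Prop := ∀ (L : Type) [Field L] [Algebra ℂ L] (k N : ℕ) (T : Set (Pl L))
  (D : Pl L → Fin k → ℤ) (s : Fin N → L) (a : Fin N → Fin k → ℤ) (g : L), Cox T D s a →
    g ∈ Sp s a 0 → g ≠ 0 → Cox (Tz T g) D (Fin.cons g⁻¹ s : Fin (N + 1) → L) (Fin.cons 0 a)

/-- **PRE**: the units which are to be adjoined -/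
def PRE : Prop := ForR fun L _ _ _ k _ T D s a A m G π => ∀ (F : Type) [Field F] [Algebra ℂ F]
  [Algebra L F] (t : Fin k → F) (p : Ideal (Rg s a t)) (r : ℕ) (v : Fin r → Fin k → ℤ)
  (w : Fin r → L), Orb t s a A m p v w → ∃ (γ : L) (c : Fin r → L), Nz A m γ ∧ Fix G γ ∧
    (∀ j, Tq.Pr (Tz T γ) D (v j) (w j) ∧ On1 T D A m γ (c j)) ∧
    ∀ σ ∈ G, ∀ j, Um v (fun i => w i ^ Nat.card G * c i) (π σ (v j)) (σ (w j ^ Nat.card G * c j))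

/-- **KX**: the extension by the roots -/
def KX : Prop := ForR fun L _ _ d k _ T D s a A m G π => ∀ (r n : ℕ) (γ : L) (c : Fin r → L),
  0 < n → Nz A m γ → Fix G γ → (∀ j, On1 T D A m γ (c j)) →
    ∃ (L' : Type) (_ : Field L') (_ : Algebra ℂ L') (_ : Algebra L L') (_ : IsScalarTower ℂ L L')
      (N' : ℕ) (T' : Set (Pl L')) (D' : Pl L' → Fin k → ℤ) (s' : Fin N' → L')
      (a' : Fin N' → Fin k → ℤ) (A' : Subalgebra ℂ L') (m' : Ideal A')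
      (G' G'' : Subgroup (L' ≃ₐ[ℂ] L')) (π' : Ac L' k) (β : Fin r → A'),
      Ku d T D s a A m G π γ T' D' s' a' A' m' G' G'' π' ∧
        ∀ j, (β j : L') ^ n = algebraMap L L' (c j) ∧ β j - 1 ∈ m'

/-- a property of the extensions -/
def ForK (q : ∀ (L L' : Type) [Field L] [Algebra ℂ L] [Field L'] [Algebra ℂ L'] [Algebra L L']
    (_ k N N' : ℕ) (_ : Set (Pl L)) (_ : Pl L → Fin k → ℤ) (_ : Fin N → L)
    (_ : Fin N → Fin k → ℤ) (A : Subalgebra ℂ L) (_ : Ideal A) (_ : Subgroup (L ≃ₐ[ℂ] L))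
    (_ : Ac L k) (_ : L) (_ : Set (Pl L')) (_ : Pl L' → Fin k → ℤ) (_ : Fin N' → L')
    (_ : Fin N' → Fin k → ℤ) (A' : Subalgebra ℂ L') (_ : Ideal A')
    (_ _ : Subgroup (L' ≃ₐ[ℂ] L')) (_ : Ac L' k), Prop) : Prop :=
  ∀ (L L' : Type) [Field L] [Algebra ℂ L] [Field L'] [Algebra ℂ L'] [Algebra L L']
    [IsScalarTower ℂ L L'] (d k N N' : ℕ) (T : Set (Pl L)) (D : Pl L → Fin k → ℤ)
    (s : Fin N → L) (a : Fin N → Fin k → ℤ) (A : Subalgebra ℂ L) (m : Ideal A)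
    (G : Subgroup (L ≃ₐ[ℂ] L)) (π : Ac L k) (γ : L) (T' : Set (Pl L')) (D' : Pl L' → Fin k → ℤ)
    (s' : Fin N' → L') (a' : Fin N' → Fin k → ℤ) (A' : Subalgebra ℂ L') (m' : Ideal A')
    (G' G'' : Subgroup (L' ≃ₐ[ℂ] L')) (π' : Ac L' k), Rw d T D s a A m G π →
    Ku d T D s a A m G π γ T' D' s' a' A' m' G' G'' π' →
    q L L' d k N N' T D s a A m G π γ T' D' s' a' A' m' G' G'' π'

/-- **UUR**: the distinguished units -/
def UUR : Prop := ForK fun L L' _ _ _ _ _ d k _ _ T D s a A m G π γ T' D' s' a' A' m' _ G'' π' =>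
  ∀ (F : Type) [Field F] [Algebra ℂ F] [Algebra L F] (t : Fin k → F) (p : Ideal (Rg s a t))
    (r n : ℕ) (v : Fin r → Fin k → ℤ) (w c : Fin r → L) (β : Fin r → A'), 0 < n →
    Orb t s a A m p v w → (∀ j, Tq.Pr (Tz T γ) D (v j) (w j) ∧ On1 T D A m γ (c j)) →
    (∀ σ ∈ G, ∀ j, Um v (fun i => w i ^ n * c i) (π σ (v j)) (σ (w j ^ n * c j))) →
    (∀ j, (β j : L') ^ n = algebraMap L L' (c j)) →
    Bu d T' D' s' a' A' m' G'' π' (Um v fun i => algebraMap L L' (w i) * β i)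

/-- **EMU**: few generators of the ideal of the orbit -/
def EMU : Prop := ForK fun L L' _ _ _ _ _ d k _ _ _ _ s a A m _ _ _ T' D' s' a' A' m' _ G'' π' =>
  ∀ (F : Type) [Field F] [Algebra ℂ F] [Algebra L F] [IsScalarTower ℂ L F] (t : Fin k → F)
    (p : Ideal (Rg s a t)) (r l : ℕ) (v : Fin r → Fin k → ℤ) (w : Fin r → L) (β : Fin r → A'),
    Ext L d t → Orb t s a A m p v w → Bx.Emd (k + l) (Rg s a t) p → (∀ j, β j - 1 ∈ m') →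
    Bu d T' D' s' a' A' m' G'' π' (Um v fun i => algebraMap L L' (w i) * β i) →
    Fw l (Um v fun i => algebraMap L L' (w i) * β i) s' a' A' m'

/-- **NKY**: the invariant sections of one degree come from below -/
def NKY : Prop := ForK fun L L' _ _ _ _ _ _ k _ _ _ _ s a _ _ G π _ _ _ s' a' A' m' _ G'' _ =>
  ∀ e : Fin k → ℤ, (∀ σ ∈ G, π σ e = e) → ∃ g, Nz A' m' g ∧ ∀ ψ ∈ Sp s' a' e, Fix G'' ψ →
    g * ψ ∈ Submodule.span ℂ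
      {x | ∃ μ ∈ A', ∃ χ ∈ Sp s a e, Fix G χ ∧ x = μ * algebraMap L L' χ}

/-- **OPN**: the image of a neighbourhood is a neighbourhood -/
def OPN : Prop := ∀ (L : Type) [Field L] [Algebra ℂ L] (A : Subalgebra ℂ L) (m : Ideal A)
  (G : Subgroup (L ≃ₐ[ℂ] L)) (g : L), m.IsMaximal → Finite G → Stab G A → Nz A m g →
    ∃ h, Nz A m h ∧ Fix G h ∧ ∀ Q : Pl L, (∀ x ∈ A, x ∈ Q.ring) → Q.ord h = 0 →
      ∃ σ ∈ G, ∃ Q', Cj σ Q Q' ∧ Q'.ord g = 0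

/-- **QTF**: the field of the invariants of a subgroup -/
def QTF : Prop := ∀ (K L : Type) [Field K] [Algebra ℂ K] [Field L] [Algebra ℂ L] [Algebra K L]
  [IsScalarTower ℂ K L] (d : ℕ) (T : Set (Pl L)) (H : Subgroup (L ≃ₐ[ℂ] L)), FF K d → FF L d →
    Finite H → (∀ x, Fix H (algebraMap K L x)) → (∀ σ ∈ H, ∀ P ∈ T, ∀ P', Cj σ P P' → P' ∈ T) →
    (∀ Q ∈ T, ∀ P, Lies (algebraMap K L) Q P → Q.ord (algebraMap K L P.t) = 1) →
    ∃ (K₁ : Type) (_ : Field K₁) (_ : Algebra ℂ K₁) (_ : Algebra K K₁) (_ : Algebra K₁ L)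
      (_ : IsScalarTower ℂ K K₁) (_ : IsScalarTower ℂ K₁ L) (_ : IsScalarTower K K₁ L),
      Qt d {R : Pl K₁ | ∃ Q ∈ T, Lies (algebraMap K₁ L) Q R} T H

/-- **ETG**: the first stage -/
def ETG : Prop := ∀ d l, ∃ l₀ J₀ : ℕ, ∀ (L : Type) [Field L] [Algebra ℂ L] (k N : ℕ)
  (T : Set (Pl L)) (D : Pl L → Fin k → ℤ) (s : Fin N → L) (a : Fin N → Fin k → ℤ)
  (A : Subalgebra ℂ L) (m : Ideal A) (G : Subgroup (L ≃ₐ[ℂ] L)) (π : Ac L k) (K : Type) [Field K]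
  [Algebra ℂ K] [Algebra K L] [IsScalarTower ℂ K L] (T₀ : Set (Pl K)) (k₀ : ℕ)
  (Z : Pl K → Fin k₀ → ℤ) (w : Fin k₀ → Fin k → ℤ) (e : Fin k₀ → ℤ), Rw d T D s a A m G π →
    Eb d l s a A m → Qt d T₀ T G → (∀ σ ∈ G, ∀ i, π σ (w i) = w i) →
    (∀ P ∈ T, ∀ Q, Lies (algebraMap K L) P Q → ∀ i, Z Q i = w i ⬝ᵥ D P) →
    ∃ γ : K, Nz A m (algebraMap K L γ) ∧ Ot d l₀ J₀ (Tz T₀ γ) Z e

/-- **ETGR** -/
def ETGR : Prop := LCX → PRE → KX → UUR → EMU → NKY → OPN → QTF → PNT → STG → ETG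

/-- **FCE**: the second stage -/
def FCE : Prop := ∀ (l J n q : ℕ) (ε : ℝ), 0 < q → 0 < ε → ∃ M : ℕ, 1 ≤ M ∧
  ∀ (K : Type) [Field K] [Algebra ℂ K] (u : Finset K) (Λ Γ Γ' : BD K) (k N : ℕ)
    (D : Pl K → Fin k → ℤ) (s : Fin N → K) (a : Fin N → Fin k → ℤ) (h : K) (δ : Fin k → ℤ),
    Dat n u Λ Γ Γ' → Cox (Tt n u Λ) D s a → (∃ h e, Eqv (Tt n u Λ) D (cn K (n + 1)) h e) →
    Eqv (Tt n u Λ) D ((q : ℝ) • Γ) h δ → (∀ P ∈ Tt n u Λ, dsc (n + 1) Γ P ≤ 0) →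
    (∀ P, Ov u P → ε ≤ 1 + dsc (n + 1) Γ P) → NefO n K u (-Γ) →
    Ot (n + 1) l J (Tt n u Λ) D (-((M : ℤ) • δ)) → Cpl n (q * M) u Λ Γ

section schemes

open Vale.Agent.P289 (Pt)
open Vale.Agent.P283M.Stm Vale.Agent.P283M.Stm.Var
open Vale.Agent.P283M.Br (UnAt)

/-- the rings of the sections of all large families of prime divisors have embedding dimension at
most `k + l` at the closed orbit over `w` -/
def Fr (d l : ℕ) {Y W : Var} (g : Y.X ⟶ W.X) (w : Pt W.X) : Prop :=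
  ∃ Ω₁ : Finset Y.PrimeDiv, ∀ Ω, Ω₁ ⊆ Ω → ∃ V₁ : W.X.Opens, w ∈ V₁ ∧ ∀ V ≤ V₁, IsAffineOpen V →
    w ∈ V → ∀ (k : ℕ) (E : Fin k → Y.PrimeDiv →₀ ℤ), 2 ≤ k →
      (∀ i, E i = 0 ∨ ∃ P ∈ Ω, E i = .single P 1) → (∀ P ∈ Ω, ∃ i, E i = .single P 1) →
      ∃ (N : ℕ) (s : Fin N → Y.K) (a : Fin N → Fin k → ℤ) (A : Subalgebra ℂ Y.K) (m : Ideal A),
        Cox (Pw (g ⁻¹ᵁ V)) (fun P i => P283R.Cox.up (E i) P) s a ∧ (∀ x, x ∈ A ↔ x ∈ Sp s a 0) ∧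
        A.FG ∧ m.IsMaximal ∧ (∀ x, x ∈ A ↔ ∀ y ∈ g ⁻¹ᵁ V, RegAt x y) ∧
        (∀ y : Pt Y.X, y.map g = w → ∀ x, Nz A m x ↔ x ∈ A ∧ UnAt x y) ∧ Eb d l s a A m

end schemes

open Sl Sl.Var

/-- a class `C` with bounded embedding dimension -/
def FRC (l : ℕ → ℕ) (C : ∀ (d : ℕ) (Y W : Sl.Var), (Y.X ⟶ W.X) → Y.Form d → Pt W.X → Prop) :
    Prop :=
  ∀ (d : ℕ) (δ : ℝ) (Y W : Sl.Var) (g : Y.X ⟶ W.X) (η : Y.Form d) (D : Y.QDiv) (w : Pt W.X),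
    1 ≤ d → 0 < δ → dimension Y.str = d → η.Nonzero → Pair (δ ≤ ·) (all Y.X) η D →
    Contraction g → FanoType g η → NefOver g (-logCan η D) → w.Closed → C d Y W g η w →
    Fr (Y := Y.o) (W := W.o) d (l d) g w

/-- **FRL**: low complexity -/
def FRL : Prop := FRC (fun d => d + 1) fun _ _ _ g η w => LowCx g η w

/-- **FRM**: low complexity, the wider form -/
def FRM : Prop := FRC (fun d => d + 1) fun _ _ _ g η w => MldCx g η w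

/-- **ONU**: the quotients -/
def ONU : Prop := ∀ l C, FRC l C → OnN fun d _ _ f _ _ z => QuotientOf (C d) f z

/-- **TOP** -/
def TOP : Prop := FCE → ETG → Tq.QUO → ONU

end Vale.Agent.P283R.Uq
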