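import Vale.Agent.P283R.Uq.St
import Vale.Agent.P283R.Sq.Chg32
import Vale.Agent.P283R.Sf.Cox12
import Vale.Agent.P283R.Sf.Spa27

/-!
# P283R, block UQ: a stable family of divisors
-/

open Set

noncomputable section

namespace Vale.Agent.P283R.Uq

open Vale.Agent.P287D Vale.Agent.P283R.Sl Vale.Agent.P283R.Cx Vale.Agent.P297Z Sg
open Vale.Agent.P283R.Tq (Cj Rel)
open Vale.Agent.P283R.Tq.A15 (ex cj_inv cj_uniq)

/-- **a stable family**: the conjugates of the divisors `D` and the invariant divisors `E` -/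
theorem stb32 {K : Type} [Field K] [Algebra ℂ K] {d k k₀ N : ℕ} {T : Set (P287D.Pl K)}
    {D : P287D.Pl K → Fin k → ℤ} {x : P287D.Pl K → K} {e : P287D.Pl K → Fin k → ℤ}
    (h : Fac d T D x e) (gen : GradedGen N (Sg.Sec T D)) {G : Subgroup (K ≃ₐ[ℂ] K)}
    (fin : Finite G) (st : ∀ σ ∈ G, ∀ P ∈ T, ∀ P', Cj σ P P' → P' ∈ T)
    (E : P287D.Pl K → Fin k₀ → ℤ) (fE : ∀ i, {P | P ∈ T ∧ E P i ≠ 0}.Finite)
    (hE : ∀ σ ∈ G, ∀ P ∈ T, ∀ P', Cj σ P P' → E P' = E P) :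
    ∃ (k' N' : ℕ) (D' : P287D.Pl K → Fin k' → ℤ) (s : Fin N' → K) (a : Fin N' → Fin k' → ℤ)
      (π : Ac K k') (w : Fin k₀ → Fin k' → ℤ) (e' : P287D.Pl K → Fin k' → ℤ),
      N' + k = k' + N + 1 ∧ Cox T D' s a ∧ Pm T D' G π ∧ Fac d T D' x e' ∧
      (∀ σ i, π σ (w i) = w i) ∧ ∀ P i, E P i = w i ⬝ᵥ D' P := by
  classical
  have := Fintype.ofFinite G
  choose c hc using ex (L := K)
  have ci : ∀ σ, Function.Injective (c σ) := fun σ P Q h =>
    cj_uniq (cj_inv (hc σ P)) (h ▸ cj_inv (hc σ Q))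
  have cm : ∀ σ τ P, c (σ * τ) P = c τ (c σ P) := fun σ τ P =>
    cj_uniq (hc _ P) fun φ => (hc τ _ φ).trans (hc σ P _)
  have c1 : ∀ P, c 1 P = P := fun P => cj_uniq (hc 1 P) fun _ => rfl
  obtain ⟨n, q, -⟩ : ∃ (n : ℕ) (_ : (G × Fin k) ⊕ Fin k₀ ≃ Fin n), True :=
    ⟨_, Fintype.equivFin _, trivial⟩
  let F : P287D.Pl K → (G × Fin k) ⊕ Fin k₀ → ℤ := fun P =>
    Sum.elim (fun y => D (c y.1 P) y.2) (E P)
  let u : G → (G × Fin k) ⊕ Fin k₀ → (G × Fin k) ⊕ Fin k₀ := fun σ =>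
    Sum.map (fun y => (σ * y.1, y.2)) id
  have um : ∀ σ τ j, u σ (u τ j) = u (σ * τ) j := by
    rintro σ τ (⟨g, i⟩ | i)
    · exact congrArg (fun z => Sum.inl (z, i)) (mul_assoc σ τ g).symm
    · rfl
  have u1 : ∀ j, u 1 j = j := by
    rintro (⟨g, i⟩ | i)
    · exact congrArg (fun z => Sum.inl (z, i)) (one_mul g)
    · rfl
  let π : Ac K n := fun σ =>
    if z : σ ∈ G then
      { toFun := fun v j => v (q (u (⟨σ, z⟩ : G)⁻¹ (q.symm j)))
        map_zero' := rfl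
        map_add' := fun _ _ => rfl }
    else .id _
  have hπ : ∀ (σ : G) v j, π σ v (q j) = v (q (u σ⁻¹ j)) := fun σ v j => by
    simp only [π, dif_pos σ.2]
    exact congrArg (fun z => v (q (u σ⁻¹ z))) (q.symm_apply_apply j)
  have inj : Function.Injective fun i : Fin k => q (.inl (1, i)) := fun i j e =>
    (Prod.ext_iff.1 (Sum.inl_injective (q.injective e))).2
  obtain ⟨g1, g2⟩ := Sq.chg h (D' := fun P j => F P (q.symm j)) inj
    (fun P _ i => by simp [F, c1]) (fun j => by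
      rcases q.symm j with ⟨σ, i⟩ | i
      · exact ((h.fin 1 (Pi.single i 1)).preimage (ci σ).injOn).subset fun P z =>
          ⟨st σ σ.2 P z.1 _ (hc σ P), by simpa [F] using z.2⟩
      · exact fE i) gen
  obtain ⟨s, a, cx⟩ := Sf.coxr12 gg27 fct Sf.spa27 K _ _ _ _ _ _ _ g2 g1
  have le : k ≤ n := by simpa using Fintype.card_le_of_injective _ inj
  refine ⟨_, _, _, s, a, π, fun i => Pi.single (q (.inr i)) 1, _, by omega, cx,
    ⟨fun σ z v => ⟨one_ne_zero, fun P p P' cj => ?_⟩, fun v => funext fun j => ?_,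
      fun σ z τ y v => funext fun j => ?_⟩, g2, fun σ i => ?_, fun P i => by simp [F]⟩
  · rw [cj_uniq cj (hc σ P), Pl.ord_one, zero_add]
    lift σ to G using z
    refine Fintype.sum_equiv (q.symm.trans ((⟨u σ, u σ⁻¹, fun j => by
      rw [um, inv_mul_cancel, u1], fun j => by rw [um, mul_inv_cancel, u1]⟩ : _ ≃ _).trans q))
      _ _ fun j => ?_
    obtain ⟨j, rfl⟩ := q.surjective j
    simp only [Equiv.trans_apply, Equiv.symm_apply_apply, Equiv.coe_fn_mk]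
    rw [hπ, um, inv_mul_cancel, u1]
    congr 1
    rcases j with ⟨g, i⟩ | i
    · exact congrArg (D · i) (cm σ g P).symm
    · exact congrFun (hE σ σ.2 P p _ (hc σ P)) i
  · obtain ⟨j, rfl⟩ := q.surjective j
    exact (hπ 1 v j).trans (by rw [inv_one, u1])
  · obtain ⟨j, rfl⟩ := q.surjective j
    lift σ to G using z
    lift τ to G using y
    exact (hπ (σ * τ) v j).trans (by rw [hπ, hπ, um, mul_inv_rev])
  · by_cases z : σ ∈ G
    · funext j
      obtain ⟨j, rfl⟩ := q.surjective j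
      lift σ to G using z
      rw [hπ]
      rcases j with ⟨g, i⟩ | i <;> simp [u, Pi.single_apply]
    · simp only [π, dif_neg z]
      rfl

end Vale.Agent.P283R.Uq
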