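import Vale.Agent.P283R.Uq.St

/-!
# P283R, block UQ: the first stage from the rows
-/

open Set

noncomputable section

namespace Vale.Agent.P283R.Uq

open Vale.Agent.P287D Vale.Agent.P283M Vale.Agent.P283R.Cx Vale.Agent.P297Z
open Vale.Agent.P283R.Lx (Nz Ie)
open Vale.Agent.P283R.Tq (Cj Rel Gp Qt cv Ed Ic Dm Out MINK TAU TRN)
open Vale.Agent.P283R.Tq.S48

/-- **STGR** -/
theorem stgr63 : STGR := by
  intro act inv gal eig tau nak rk icx dom trn d l
  classical
  obtain ⟨J₁, gal⟩ := gal d l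
  obtain ⟨J₂, eig⟩ := eig d l
  refine ⟨J₂ * J₁, fun L _ _ k N T D s a A m J G π U p K _ _ _ _ T₀ k₀ Z w qt fw hZ => ?_⟩
  have g := p.gp
  obtain ⟨G₁, le1, i1, fx⟩ := gal L k N T D s a A m J G π U p
  obtain ⟨H, le2, i2, z, hz, spn⟩ := eig L k N T D s a A m J G₁ π U (p.mono le1) fx
  have le := le2.trans le1
  have pH := p.mono le
  have u1 : U 0 1 := (p.un.cst 1).2 ⟨1, one_ne_zero, (map_one _).symm⟩
  have stab : Stab G A := fun σ hσ x hx => (p.zero _).2 (by
    simpa using (act d L k N T D s a A m G π U p.toBu σ hσ 0 0 1 (by simpa using u1) x).1.1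
      ((p.zero _).1 hx))
  obtain ⟨τ, hτ, fin, hn⟩ := tau L d A m G p.ff p.fg p.max g.fin stab g.stm
  let b : Fin J.card → Fin N := fun i => J.equivFin.symm i
  have bJ : ∀ i, b i ∈ J := fun i => (J.equivFin.symm i).2
  have bi : Function.Injective b := fun i j h => J.equivFin.symm.injective (Subtype.ext h)
  have hb : ∀ j ∈ J, j ∈ range b := fun j hj => ⟨J.equivFin ⟨j, hj⟩, by simp [b]⟩
  obtain ⟨γ, γa, γn, mo⟩ := nak d L k N T D s a A m G π U p.toBu _ _ τ (z ∘ b) (a ∘ b)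
    (fun i => (hz _ (bJ i)).1) (fun e φ h => by
      obtain ⟨I, θ, c, sub, hθ, h2⟩ := spn e φ h
      refine ⟨Finset.univ.filter fun i => b i ∈ I, θ ∘ b, c ∘ b,
        fun j hj => hθ _ (Finset.mem_filter.1 hj).2, ?_⟩
      simp only [Function.comp]
      rwa [Finset.sum_bij (t := I) (g := fun j => c j • (z j * θ j)) (fun i _ => b i)
        (fun i hi => (Finset.mem_filter.1 hi).2) (fun i _ j _ h => bi h)
        (fun j hj => by
          obtain ⟨i, rfl⟩ := hb j (sub hj)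
          exact ⟨i, Finset.mem_filter.2 ⟨Finset.mem_univ _, hj⟩, rfl⟩) fun i _ => rfl])
    (fun i => (hτ i).1) fin hn
  have γf : Fix G γ := fun σ hσ => by
    clear γn mo
    induction γa using Algebra.adjoin_induction with
    | mem x hx => obtain ⟨i, rfl⟩ := hx; exact (hτ i).2 σ hσ
    | algebraMap c => exact σ.commutes c
    | add x y _ _ hx hy => rw [map_add, hx, hy]
    | mul x y _ _ hx hy => rw [map_mul, hx, hy]
  obtain ⟨γ, rfl⟩ := (qt.fix γ).1 γf
  have iζ : ∀ i, Eg U π H (w i) ((fun _ => 1 : Fin k₀ → L) i) := fun i =>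
    ⟨one_ne_zero, fun σ hσ => ⟨1, by rw [fw σ (le hσ), sub_self]; exact u1, by simp⟩⟩
  have ia : ∀ i, Eg U π H (Fin.append w (a ∘ b) i) (Fin.append (fun _ => 1) (z ∘ b) i) :=
    fun i => by
      induction i using Fin.addCases with
      | left i => simpa using iζ i
      | right i => simpa using (hz _ (bJ i)).2
  have γ0 : algebraMap K L γ ≠ 0 := fun e => γn.2 (by
    have : (⟨_, γn.1⟩ : A) = 0 := Subtype.ext e
    exact this ▸ m.zero_mem)
  obtain ⟨N', s', a', lN, ic⟩ := icx d L k N T D s a A m H π U pH.toBu _ k₀ _ (k₀ + l) _ _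
    (fun _ => 1) w (z ∘ b) (a ∘ b) (fun i => ⟨(τ i).2, fun σ hσ => (hτ i).2 σ (le hσ)⟩) γn.1 γ0
    (fun σ hσ => γf σ (le hσ)) iζ (fun j => ⟨(hz _ (bJ j)).1.1, (hz _ (bJ j)).2⟩) mo
    fun n v li h => rk d l L k N T D s a A m J G π U p k₀ n w b v hb li h
  have dm := dom d l L k N T D s a A m J H π U pH _ _ _ ia fun j hj => by
    obtain ⟨i, rfl⟩ := hb j hj
    exact ⟨Fin.natAdd k₀ i, by simp⟩
  refine ⟨γ, γn, Out.mono (trn K L d k₀ J.card N' (d + l + 3) T₀ T G H Z _ γ s' a' p.ff qt g.fin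
    le (fun σ hσ P c P' e => funext fun i =>
      (inv d L k N T D s a A m H π U pH.toBu _ _ (ia i)).2 σ hσ P c P' e) (fun Q c P e i => ?_)
    (fin_ed p.cox.fin _ _) ic dm (by omega)) ?_⟩
  · simp only [Fin.append_left]
    rw [hZ P ((qt.lies P).2 ⟨Q, c, e⟩) Q e i, Pl.ord_one, zero_add]
  · rw [← Subgroup.relIndex_mul_relIndex H G₁ G le2 le1]
    exact Nat.mul_le_mul i2 i1

end Vale.Agent.P283R.Uq
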