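import Vale.Agent.P283R.Uq.St2

/-!
# P283R, block UQ: the scheme side
-/

set_option linter.all false

open Set CategoryTheory AlgebraicGeometry

noncomputable section

namespace Vale.Agent.P283R.Uq

namespace T10

open Vale.Agent.P289 (Pt St toRat DForm dimension)
open Vale.Agent.P287D Vale.Agent.P283M.Stm Vale.Agent.P283M.Stm.Var Vale.Agent.P297Z
open Vale.Agent.P283M Vale.Agent.P283M.Br Vale.Agent.P283R.Sch Vale.Agent.P283R.Cox
open Vale.Agent.P283R.Gl (pq pq_is pq_ord)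
open Vale.Agent.P283R.Tq (Cj Gp Qt Pw)
open Vale.Agent.P283R.Tq.A15 (ext_ord cj_inv cj_uniq)

theorem enum {α : Type} (Ω : Finset α) : ∃ (k : ℕ) (c : Fin k → Option α), 2 ≤ k ∧
    (∀ i j P, c i = some P → c j = some P → i = j) ∧ ∀ P, P ∈ Ω ↔ ∃ i, c i = some P := by
  refine ⟨Ω.card + 2, Fin.append (fun i => some (Ω.equivFin.symm i).1) fun _ => none, by omega,
    fun i j P a b => ?_, fun P => ⟨fun a => ⟨Fin.castAdd 2 (Ω.equivFin ⟨P, a⟩), by simp⟩, ?_⟩⟩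
  · induction i using Fin.addCases with
    | right i => simp at a
    | left i =>
      induction j using Fin.addCases with
      | right j => simp at b
      | left j =>
        rw [Fin.append_left, Option.some_inj] at a b
        rw [Ω.equivFin.symm.injective (Subtype.ext (a.trans b.symm))]
  · rintro ⟨i, a⟩
    induction i using Fin.addCases with
    | right i => simp at a
    | left i =>
      rw [Fin.append_left, Option.some_inj] at a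
      exact a ▸ (Ω.equivFin.symm i).2

theorem dot {α : Type} {k : ℕ} {c : Fin k → Option α} {P : α} {D : Fin k → ℤ}
    (inj : ∀ i j P, c i = some P → c j = some P → i = j) (h1 : ∀ i, c i = some P → D i = 1)
    (h0 : ∀ i, c i ≠ some P → D i = 0) (e : Fin k → ℤ) :
    (∀ i, c i = some P → e ⬝ᵥ D = e i) ∧ ((∀ i, c i ≠ some P) → e ⬝ᵥ D = 0) :=
  ⟨fun i a => by
    rw [dotProduct, Finset.sum_eq_single i (fun j _ n => by
      rw [h0 j fun b => n (inj _ _ _ b a), mul_zero]) fun z => (z (Finset.mem_univ _)).elim,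
      h1 i a, mul_one],
   fun a => Finset.sum_eq_zero fun i _ => by rw [h0 i (a i), mul_zero]⟩

/-- the group permutes the degrees -/
theorem perm {L : Type} [Field L] [Algebra ℂ L] {k : ℕ} (G : Subgroup (L ≃ₐ[ℂ] L))
    (c : Fin k → Option (Pl L)) (inj : ∀ i j P, c i = some P → c j = some P → i = j)
    (st : ∀ σ ∈ G, ∀ i P P', c i = some P → Cj σ P P' → ∃ j, c j = some P')
    {T : Set (Pl L)} {D : Pl L → Fin k → ℤ} (hT : ∀ σ ∈ G, ∀ P ∈ T, ∀ P', Cj σ P P' → P' ∈ T)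
    (h1 : ∀ P ∈ T, ∀ i, c i = some P → D P i = 1) (h0 : ∀ P ∈ T, ∀ i, c i ≠ some P → D P i = 0) :
    ∃ π, Pm T D G π ∧ ∀ σ ∈ G, ∀ w : Fin k → ℤ,
      (∀ i j P P', c i = some P → c j = some P' → Cj σ P P' → w j = w i) → π σ w = w := by
  have ex : ∀ (σ : L ≃ₐ[ℂ] L) i, ∃ j, σ ∈ G → (c i = none → j = i) ∧
      ∀ P, c i = some P → ∃ P', c j = some P' ∧ Cj σ P P' := fun σ i => by
    by_cases m : σ ∈ G
    · rcases e : c i with _ | P
      · exact ⟨i, fun _ => ⟨fun _ => rfl, fun _ a => by simp at a⟩⟩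
      · obtain ⟨P', a⟩ := Tq.A15.ex σ P
        obtain ⟨j, b⟩ := st σ m i P P' e a
        exact ⟨j, fun _ => ⟨fun z => by simp at z, fun Q z =>
          ⟨P', b, Option.some_inj.1 z ▸ a⟩⟩⟩
    · exact ⟨i, fun z => (m z).elim⟩
  choose τ hτ using ex
  have un : ∀ σ ∈ G, ∀ i j P P', c i = some P → c j = some P' → Cj σ P P' → τ σ i = j :=
    fun σ m i j P P' a b e => by
      obtain ⟨Q, q1, q2⟩ := (hτ σ i m).2 P a
      exact inj _ _ _ q1 (cj_uniq e q2 ▸ b)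
  refine ⟨fun σ => AddMonoidHom.mk' (fun e i => e (τ σ i)) fun _ _ => rfl,
    ⟨fun σ m e => ⟨one_ne_zero, fun P t P' a => ?_⟩, fun e => funext fun i => congrArg e ?_,
      fun σ m ρ m' e => funext fun i => congrArg e ?_⟩, fun σ m w h => funext fun i => ?_⟩
  · have d := dot inj (h1 P t) (h0 P t)
    have d' := dot inj (h1 P' (hT σ m P t P' a)) (h0 P' (hT σ m P t P' a))
    rw [Pl.ord_one, zero_add]
    by_cases x : ∃ i, c i = some P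
    · obtain ⟨i, x⟩ := x
      obtain ⟨j, y⟩ := st σ m i P P' x a
      rw [(d _).1 i x, (d' _).1 j y, ← un σ m i j P P' x y a]
      rfl
    · rw [(d _).2 fun i z => x ⟨i, z⟩, (d' _).2 fun j z =>
        x (st σ⁻¹ (inv_mem m) j P' P z (cj_inv a))]
  · rcases e : c i with _ | P
    · exact (hτ 1 i (one_mem G)).1 e
    · exact un 1 (one_mem G) i i P P e e fun _ => rfl
  · show τ (σ * ρ) i = τ ρ (τ σ i)
    rcases e : c i with _ | P
    · rw [(hτ _ i (mul_mem m m')).1 e, (hτ _ i m).1 e, (hτ _ i m').1 e]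
    · obtain ⟨P', a, b⟩ := (hτ σ i m).2 P e
      obtain ⟨P'', a', b'⟩ := (hτ ρ _ m').2 P' a
      exact un _ (mul_mem m m') i _ P P'' e a' fun φ => (b' φ).trans (b _)
  · show w (τ σ i) = w i
    rcases e : c i with _ | P
    · rw [(hτ _ i m).1 e]
    · obtain ⟨P', a, b⟩ := (hτ σ i m).2 P e
      exact h i _ P P' e a b

theorem pq_inj {X : Var} : Function.Injective (pq (X := X)) := fun E E' e =>
  is_uniq (pq_is E).dom (e ▸ (pq_is E').dom)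

theorem core (fce : FCE) (etg : ETG) (quo : Tq.QUO) (n q l : ℕ) {ε : ℝ} (q0 : 0 < q)
    (hε : 0 < ε) : ∃ M : ℕ, 1 ≤ M ∧ ∀ (X Y Z W : Var) (f : X.X ⟶ Z.X) (ω : DForm ℂ X.K (n + 1))
      (B : X.QDiv) (z : Pt Z.X) (π : Y.X ⟶ X.X) (g : Y.X ⟶ W.X) (κ : W.X ⟶ Z.X) (w : Pt W.X)
      (ι : X.K →+* Y.K) (G : Subgroup (Y.K ≃ₐ[ℂ] Y.K)), dimension X.str = (n + 1 : ℕ) →
      ω.Nonzero → Pair (ε ≤ ·) ⊤ ω B → Contraction f → IsClosed ({z} : Set (Pt Z.X)) →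
      (∀ E, ∃ m : ℤ, q * B E = m) → FanoType f ω → NefOver f (-logCan ω B) → IsFinite π →
      Surjective π → π ≫ X.str = Y.str → Et.Pe π ι → Finite G →
      (∀ g, Fix G g ↔ ∃ a, ι a = g) →
      (∀ E : Y.PrimeDiv, ∃ y : X.PrimeDiv, E.1.map π = y.1 ∧ ∀ a, ord (ι a) E = ord a y) →
      IsFinite κ → g ≫ κ = π ≫ f → (∀ w' : Pt W.X, w'.map κ = z ↔ w' = w) →
      Fr (n + 1) l g w → HasKltComplement f ω B M z := by
  classical
  obtain ⟨l₀, J, etg⟩ := etg (n + 1) l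
  obtain ⟨M, M1, fc⟩ := fce l₀ J n q ε q0 hε
  refine ⟨q * M, Nat.mul_pos q0 M1, fun X Y Z W f ω B z π g κ w ι G hdim hω hB hf hz hq hF hn h1
    h2 h3 pe h4 h5 h6 hκ sq hw ⟨Ω₁, fr₁⟩ => ?_⟩
  have hK := ffd X _ hdim
  let _ := ι.toAlgebra
  obtain ⟨j, j0, fr⟩ := frm X _ hK ω hω
  choose c hc using hq
  let D₀ : X.PrimeDiv →₀ ℤ := Finsupp.ofSupportFinite _ (P283R.Br.form_fin hK fr)
  let D₁ : X.PrimeDiv →₀ ℤ := Finsupp.ofSupportFinite c (B.support.finite_toSet.subset fun E e =>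
    Finsupp.mem_support_iff.2 fun z => e (by simpa [z] using (hc E).symm))
  have d0 : ∀ E, D₀ E = formOrd ω (RingEquiv.refl X.K) E := fun _ => rfl
  have d1 : ∀ E, D₁ E = c E := fun _ => rfl
  let D' : Fin 2 → X.PrimeDiv →₀ ℤ := ![D₀, D₁]
  have sT' := (quo X Y _ π ι G ⊤ hK h1 h2 h3 pe h4 h5 h6).2.2.2.1
  have h6' := h6
  choose dn dn1 dn2 using h6'
  have dn3 : ∀ E a, (pq E).ord (ι a) = (pq (dn E)).ord a := fun E a => by
    rw [← pq_ord, ← pq_ord, dn2]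
  have dnc : ∀ σ ∈ G, ∀ E E', Cj σ (pq E) (pq E') → dn E' = dn E := fun σ m E E' a =>
    pq_inj (ext_ord fun φ => by rw [← dn3, ← dn3, a, (h5 _).2 ⟨φ, rfl⟩ σ m])
  let S : Finset X.PrimeDiv := Ω₁.image dn ∪ Finset.univ.biUnion fun i => (D' i).support
  have fS : {E | dn E ∈ S}.Finite :=
    (S.finite_toSet.biUnion fun F _ => P283M.Br.fin Y (ι (pq F).t)).subset fun E e =>
      mem_iUnion₂.2 ⟨_, e, by
        show ord _ E ≠ 0
        rw [pq_ord, dn3, Pl.ord_t]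
        exact one_ne_zero⟩
  obtain ⟨V₁, wV₁, fr₂⟩ := fr₁ fS.toFinset fun E e =>
    fS.mem_toFinset.2 (Finset.mem_union_left _ (Finset.mem_image_of_mem _ e))
  obtain ⟨_, ⟨V, hV, rfl⟩, zV, le₁⟩ := Z.X.isBasis_affineOpens.exists_subset_of_mem_open
    (a := z) (u := (κ '' (V₁ : Set W.X)ᶜ)ᶜ)
    (by rintro ⟨x, a, b⟩; exact a ((hw x).1 b ▸ wV₁))
    (κ.isClosedMap _ V₁.isOpen.isClosed_compl).isOpen_compl
  have sp : ∀ x : Pt Y.X, (x.map g).map κ = (x.map π).map f := fun x => by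
    show κ (g x) = f (π x)
    rw [← Scheme.Hom.comp_apply, sq, Scheme.Hom.comp_apply]
  have eU : g ⁻¹ᵁ (κ ⁻¹ᵁ V) = π ⁻¹ᵁ (f ⁻¹ᵁ V) := congrArg (· ⁻¹ᵁ V) sq
  obtain ⟨k, c', k2, inj, en⟩ := enum fS.toFinset
  let E : Fin k → Y.PrimeDiv →₀ ℤ := fun i => (c' i).elim 0 fun P => .single P 1
  obtain ⟨N, s, a, A, m, cox, zero, fg, mx, hA, hN, eb⟩ := fr₂ (κ ⁻¹ᵁ V)
    (fun x hx => by_contra fun z => le₁ hx ⟨x, z, rfl⟩) (hV.preimage κ)
    (show w.map κ ∈ V from (hw w).2 rfl ▸ zV) k E k2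
    (fun i => by
      rcases e : c' i with _ | P
      · exact .inl (by simp [E, e])
      · exact .inr ⟨P, (en P).2 ⟨i, e⟩, by simp [E, e]⟩)
    fun P e => let ⟨i, a⟩ := (en P).1 e; ⟨i, by simp [E, a]⟩
  rw [eU] at cox hA
  replace hN : ∀ y : Pt Y.X, (y.map π).map f = z → ∀ x, Lx.Nz A m x ↔ x ∈ A ∧ UnAt x y :=
    fun y e => hN y ((hw _).1 ((sp y).trans e))
  obtain ⟨tw, hL, qt, sT, tr⟩ := quo X Y _ π ι G (f ⁻¹ᵁ V) hK h1 h2 h3 pe h4 h5 h6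
  obtain ⟨x₀, e₀⟩ : ∃ x : Pt Y.X, (x.map π).map f = z := by
    obtain ⟨x₁, e₁⟩ := hf.2.2.1.surj z
    obtain ⟨x₀, rfl⟩ := h2.surj x₁
    exact ⟨x₀, e₁⟩
  have iV : ∀ x : Pt Y.X, (x.map π).map f = z → x ∈ π ⁻¹ᵁ (f ⁻¹ᵁ V) := fun x hx =>
    show (x.map π).map f ∈ V from hx ▸ zV
  have gp : Gp (Pw (π ⁻¹ᵁ (f ⁻¹ᵁ V))) A m G := ⟨h4, sT, fun σ hσ g hg => by
    obtain ⟨x', e', w⟩ := tr σ hσ x₀
    refine (hN x₀ e₀ _).2 ⟨(hA _).2 fun x hx => ?_,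
      (w g).2 ((hN x' (show (x'.map π).map f = z from e' ▸ e₀) g).1 hg).2⟩
    obtain ⟨x'', e'', w'⟩ := tr σ hσ x
    exact (w' g).1 ((hA g).1 hg.1 x'' (show x''.map π ∈ f ⁻¹ᵁ V from e'' ▸ hx))⟩
  have cm : ∀ i P, (c' i).map pq = some P → ∃ F, c' i = some F ∧ pq F = P := fun i P e =>
    Option.map_eq_some_iff.1 e
  have u1 : ∀ F i, c' i = some F → up (E i) (pq F) = 1 := fun F i e => by
    rw [up_eq _ (pq_is F).dom]
    simp [E, e]
  have u0 : ∀ F i, c' i ≠ some F → up (E i) (pq F) = 0 := fun F i e => by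
    rw [up_eq _ (pq_is F).dom]
    rcases e' : c' i with _ | P
    · simp [E, e']
    · simp only [E, e', Option.elim_some]
      exact Finsupp.single_eq_of_ne fun z => e (z ▸ e')
  obtain ⟨ρ, pm, fx⟩ := perm G (fun i => (c' i).map pq) (T := Pw (π ⁻¹ᵁ (f ⁻¹ᵁ V)))
    (D := fun P i => up (E i) P)
    (fun i j P a b => by
      obtain ⟨F, a1, rfl⟩ := cm i P a
      obtain ⟨F', b1, b2⟩ := cm j _ b
      exact inj i j F a1 (pq_inj b2 ▸ b1))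
    (fun σ hσ i P P' a b => by
      obtain ⟨F, a1, rfl⟩ := cm i P a
      obtain ⟨F', -, rfl⟩ := sT' σ hσ _ ⟨F, trivial, rfl⟩ P' b
      obtain ⟨j, e⟩ := (en F').1 (fS.mem_toFinset.2 (show dn F' ∈ S from
        dnc σ hσ F F' b ▸ fS.mem_toFinset.1 ((en F).2 ⟨i, a1⟩)))
      exact ⟨j, by simp [e]⟩) sT
    (by
      rintro _ ⟨F, -, rfl⟩ i a
      obtain ⟨F', a1, a2⟩ := cm i _ a
      exact u1 F i (pq_inj a2 ▸ a1))
    (by
      rintro _ ⟨F, -, rfl⟩ i a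
      exact u0 F i fun z => a (by simp [z]))
  obtain ⟨γ, hγ, out⟩ := etg Y.K k N _ _ s a A m G ρ X.K (Pw (f ⁻¹ᵁ V)) 2
    (fun P i => up (D' i) P) (fun i j => (c' j).elim 0 fun F => D' i (dn F))
    (-((M : ℤ) • ![(q : ℤ), 1])) ⟨hL, cox, zero, fg, mx, gp, pm⟩ eb qt
    (fun σ hσ i => fx σ hσ _ fun j j' P P' a b e => by
      obtain ⟨F, a1, rfl⟩ := cm j P a
      obtain ⟨F', b1, rfl⟩ := cm j' P' b
      simp only [a1, b1, Option.elim_some, dnc σ hσ F F' e])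
    (by
      rintro _ ⟨F, -, rfl⟩ Q lQ i
      obtain rfl : Q = pq (dn F) := Pl.ext' (SetLike.ext fun x => (lQ x).trans
        (Tq.Q10.mem_iff (map_eq_zero ι).symm (dn3 F x).symm).symm)
      have d := dot inj (u1 F) (u0 F) fun j => (c' j).elim 0 fun F => D' i (dn F)
      rw [up_eq _ (pq_is _).dom]
      by_cases x : ∃ j, c' j = some F
      · obtain ⟨j, x⟩ := x
        rw [d.1 j x, x]
        rfl
      · rw [d.2 fun j z => x ⟨j, z⟩]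
        exact by_contra fun z => x ((en F).1 (fS.mem_toFinset.2 (Finset.mem_union_right _
          (Finset.mem_biUnion.2 ⟨i, Finset.mem_univ _, Finsupp.mem_support_iff.2 z⟩)))))
  have o : ∀ E : X.PrimeDiv, ord 1 E = 0 := fun E => (pq_ord E 1).trans (Pl.ord_one _)
  have k2 : ∀ W, InSpan W D' (logCan ω 0) := fun W => ⟨![1, 0], 1, one_ne_zero, fun E _ => by
    rw [o, logCan]
    simp [D', d0]⟩
  have γ0 : γ ≠ 0 := fun g0 => hγ.2 (by
    subst g0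
    exact (Subtype.ext (map_zero _) : (⟨_, hγ.1⟩ : A) = 0) ▸ m.zero_mem)
  have rg : ∀ x ∈ f ⁻¹ᵁ V, RegAt γ x := fun x hx => har X γ x fun E hE => by
    obtain ⟨P, l⟩ := Pb.up_alg hL (pq E)
    obtain ⟨E', c', rfl⟩ := (qt.lies P).2 ⟨_, ⟨E, hE.mem_open (f ⁻¹ᵁ V).isOpen hx, rfl⟩, l⟩
    rw [pq_ord]
    exact (Pl.ord_nonneg_iff _ γ0).2 ((l γ).2 ((pq_is E' _).2 ((hA _).1 hγ.1 _ c')))
  obtain ⟨U, hU, le, bw⟩ := Tq.bas48 hf hV (iV x₀ e₀) rg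
  have zU : z ∈ U := e₀ ▸ (bw _ (iV x₀ e₀)).2 ((pe.un (rg _ (iV x₀ e₀))).1 ((hN x₀ e₀ _).1 hγ).2)
  obtain ⟨u, bs⟩ := basV hf hz hU zU
  obtain ⟨Λ, Γ, Γ', dt, on, b, b', nf, e⟩ := dataW hK hω hB hf hF bs
  obtain ⟨N', g1⟩ := schU Cx.ut hdim hω hf hF hz hU zU D'
  obtain ⟨s₁, a₁, π₁, ci⟩ := cg_of bs on g1
  have s1 : Cox.Sp n u Λ _ (cn X.K (n + 1)) := sp_of bs on (k2 _) j0 fun P E _ dm => by
    rw [← fr X _ E P (is_of_dom dm) (ord_eq dm), logCan]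
    simp
  have s2 : Cx.Eqv (Cx.Tt n u Λ) (fun P i => up (D' i) P) ((q : ℝ) • Γ) (j ^ q)⁻¹ ![(q : ℤ), 1] :=
    ⟨inv_ne_zero (pow_ne_zero q j0), fun P t => by
      obtain ⟨x, hx, dm⟩ := bs.ctr P.ring P.con t.1
      obtain ⟨E, rfl⟩ : ∃ E : X.PrimeDiv, E.1 = x := ⟨⟨x, (on P x hx dm).1 t.2⟩, rfl⟩
      have h4 := b' P E hx dm
      have h5 := fr X _ E P (is_of_dom dm) (ord_eq dm)
      have h7 := congrArg (Rat.cast : ℚ → ℝ) (hc E)
      rw [dsc, Pi.sub_apply] at h4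
      simp only [dotProduct, Fin.sum_univ_two, up_eq _ dm, Pl.ord_inv, Pl.ord_pow, Pi.smul_apply,
        smul_eq_mul, D', Matrix.cons_val_zero, Matrix.cons_val_one, d0, d1]
      push_cast at h7 ⊢
      rw [h5]
      linear_combination -q * h4 + h7⟩
  have s3 : ∀ P, Ov u P → On n Λ P → dsc (n + 1) Γ P ≤ 0 :=
    (all_iff bs on (p := fun E => 0 ≤ B E) fun P E c dm => by
      rw [b' P E c dm, neg_nonpos, Rat.cast_nonneg]).1 fun E _ => hB.1 E trivial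
  obtain ⟨s₂, a₂, π₂, h, s0⟩ := Cx.Gn.shift ci
  have eT : Cx.Tt n u Λ = Tz (Pw (f ⁻¹ᵁ V)) γ := Set.ext fun P => by
    constructor
    · intro t
      obtain ⟨x, hx, dm⟩ := bs.ctr P.ring P.con t.1
      obtain ⟨E, rfl⟩ : ∃ E : X.PrimeDiv, E.1 = x := ⟨⟨x, (on P x hx dm).1 t.2⟩, rfl⟩
      exact ⟨⟨E, le hx, P283R.Br.pl_eq (pq_is E) dm⟩,
        (Lx.un_ord dm γ0).1 ((bw _ (le hx)).1 hx)⟩
    · rintro ⟨⟨E, c, rfl⟩, w⟩
      have dm := (pq_is E).dom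
      have c' := (bw _ c).2 ((Lx.un_ord dm γ0).2 w)
      exact ⟨fun a ha => (dm a (bs.reg a ha _ c')).1, (on _ _ c' dm).2 E.2⟩
  exact e _ (Nat.mul_pos q0 M1) (fc X.K u Λ Γ Γ' 2 N' _ s₂ a₂ _ _ dt
    (Cx.Gn.coxY Cx.big dt h s1 s0) (Cx.Ad.eqv s1) s2 (fun P t => s3 P t.1 t.2) b (nf hn)
    (eT ▸ out))

end T10

open Sl Sl.Var

/-- **TOP** -/
theorem top10 : TOP := by
  intro fce etg quo l C frc
  refine (On.den (C := fun q d _ _ f ω B z => (∀ E, ∃ m : ℤ, q * B.coeff E = m) ∧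
    FanoType f ω ∧ NefOver f (-logCan ω B) ∧ QuotientOf (C d) f z) fun q hq => ?_).mono
      fun _ _ _ _ _ _ _ h _ w => ⟨w, h⟩
  intro d hd ε hε R hR
  obtain ⟨n, rfl⟩ : ∃ n, d = n + 1 := ⟨d - 1, by omega⟩
  obtain ⟨M, M1, H⟩ := T10.core fce etg quo n q (l (n + 1)) hq hε
  refine ⟨M, M1, fun X Z f ω B z a b c _ s t ⟨w₀, u1, u2, Y, W, π, g, κ, η, D, δ, w, fq, hκ, sq,
    hw, e1, e2, e3, e4, e5, e6, e7, e8⟩ => (has_iff f ω B _ z).2 ?_⟩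
  obtain ⟨h1, h2, h3, p, G, pe, ⟨h4, h5⟩, h6⟩ := fq.fin
  have wc : w.Closed := by
    have : ({w} : Set W.X) = κ ⁻¹' {z} := Set.ext fun x => (hw x).symm
    show IsClosed ({w} : Set W.X)
    rw [this]
    exact IsClosed.preimage κ.continuous t
  exact H X.o Y.o Z.o W.o f ω B z π g κ w p G a b ((pair_iff _ _ ω B).1 c) s t w₀
    ((fanoType_iff f ω).1 u1) ((nefOver_iff f _).1 u2) h1 h2 h3 pe h4
    (fun g => ⟨fun e => (h5 g).1 e, fun e => (h5 g).2 e⟩) h6 hκ sq hw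
    (frc _ δ Y W g η D w hd e3 e1 e2 e4 e5 e6 e7 wc e8)

end Vale.Agent.P283R.Uq
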